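import Vale.Agent.P092.MathlibUsed

set_option linter.all false

section

section

namespace Vale.Agent.P092

open scoped ComplexConjugate

/-- The abstract matrix of coefficients between two group bases of the same tracial algebra:
`c g s` is the coefficient of the unitary `u_g` along the unitary `v_s`. -/
structure Coef (Γ Λ : Type*) [Group Γ] [Group Λ] where
  c : Γ → Λ → ℂ
  mulL : ∀ g g' s, HasSum (fun t => c g t * c g' (t⁻¹ * s)) (c (g * g') s)
  mulR : ∀ g s s', HasSum (fun h => c h s * c (h⁻¹ * g) s') (c g (s * s'))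
  conj_inv : ∀ g s, c g⁻¹ s⁻¹ = conj (c g s)
  oneL : ∀ s, s ≠ 1 → c 1 s = 0
  oneR : ∀ g, g ≠ 1 → c g 1 = 0
  one_one : c 1 1 = 1

namespace Coef

variable {Γ Λ : Type*} [Group Γ] [Group Λ]

/-- The structure is symmetric in the two groups. -/
def swap (C : Coef Γ Λ) : Coef Λ Γ where
  c := fun s g => C.c g s
  mulL := fun s s' g => C.mulR g s s'
  mulR := fun s g g' => C.mulL g g' s
  conj_inv := fun s g => C.conj_inv g s
  oneL := C.oneR
  oneR := C.oneL
  one_one := C.one_one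

@[simp] lemma swap_c (C : Coef Γ Λ) (s : Λ) (g : Γ) : C.swap.c s g = C.c g s := rfl

variable (C : Coef Γ Λ)

lemma row_sq (g : Γ) : HasSum (fun s => ‖C.c g s‖ ^ 2) 1 := by
  have h := C.mulL g⁻¹ g 1
  rw [inv_mul_cancel, C.one_one] at h
  have h2 := (Equiv.inv Λ).hasSum_iff.mpr h
  have h3 : HasSum (fun s => ((‖C.c g s‖ ^ 2 : ℝ) : ℂ)) ((1 : ℝ) : ℂ) := by
    convert h2 using 1
    · funext s
      simp only [Function.comp, Equiv.inv_apply, inv_inv, mul_one, C.conj_inv]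
      rw [mul_comm, Complex.mul_conj, Complex.normSq_eq_norm_sq]
    · simp
  exact Complex.hasSum_ofReal.mp h3

lemma row_orth {g g' : Γ} (hne : g ≠ g') :
    HasSum (fun s => conj (C.c g s) * C.c g' s) 0 := by
  have h := C.mulL g⁻¹ g' 1
  rw [C.oneR _ (by intro h; apply hne; rw [inv_mul_eq_one] at h; exact h)] at h
  have h2 := (Equiv.inv Λ).hasSum_iff.mpr h
  convert h2 using 1
  funext s
  simp only [Function.comp, Equiv.inv_apply, inv_inv, mul_one, C.conj_inv]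

lemma row_self (g : Γ) :
    HasSum (fun s => conj (C.c g s) * C.c g s) 1 := by
  have h := Complex.hasSum_ofReal.mpr (C.row_sq g)
  convert h using 1
  · funext s
    rw [mul_comm, Complex.mul_conj, Complex.normSq_eq_norm_sq]
  · simp

lemma norm_le_one (g : Γ) (s : Λ) : ‖C.c g s‖ ≤ 1 := by
  have h := C.row_sq g
  have h1 : ‖C.c g s‖ ^ 2 ≤ 1 := le_hasSum h s (fun j _ => by positivity)
  nlinarith [norm_nonneg (C.c g s)]

lemma row_ne_zero (g : Γ) : ∃ s, C.c g s ≠ 0 := by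
  by_contra hcon
  push Not at hcon
  have h := C.row_sq g
  have h0 : HasSum (fun s => ‖C.c g s‖ ^ 2) 0 := by
    simp only [hcon]
    simp
  exact one_ne_zero (h.unique h0)

/-- `g` is group-like with value `s`. -/
def Pt (g : Γ) (s : Λ) : Prop := ‖C.c g s‖ = 1

lemma pt_swap {g : Γ} {s : Λ} : C.swap.Pt s g ↔ C.Pt g s := Iff.rfl

lemma Pt.row {C : Coef Γ Λ} {g : Γ} {s : Λ} (h : C.Pt g s) {s' : Λ} (hs : s' ≠ s) :
    C.c g s' = 0 := by
  classical
  by_contra hne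
  have h1 := C.row_sq g
  have h2 : ∑ t ∈ ({s, s'} : Finset Λ), ‖C.c g t‖ ^ 2 ≤ 1 :=
    sum_le_hasSum _ (fun j _ => by positivity) h1
  rw [Finset.sum_pair hs.symm] at h2
  unfold Pt at h
  rw [h] at h2
  have : 0 < ‖C.c g s'‖ := norm_pos_iff.mpr hne
  nlinarith

lemma Pt.col {C : Coef Γ Λ} {g : Γ} {s : Λ} (h : C.Pt g s) {g' : Γ} (hg : g' ≠ g) :
    C.c g' s = 0 := Pt.row (C := C.swap) h hg

lemma Pt.ne_zero {C : Coef Γ Λ} {g : Γ} {s : Λ} (h : C.Pt g s) : C.c g s ≠ 0 := by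
  intro h0
  unfold Pt at h
  rw [h0, norm_zero] at h
  exact zero_ne_one h

lemma Pt.eq_of_ne_zero {C : Coef Γ Λ} {g : Γ} {s s' : Λ} (h : C.Pt g s) (h' : C.c g s' ≠ 0) :
    s' = s := by
  by_contra hne
  exact h' (h.row hne)

lemma Pt.eq_of_ne_zero' {C : Coef Γ Λ} {g g' : Γ} {s : Λ} (h : C.Pt g s) (h' : C.c g' s ≠ 0) :
    g' = g := by
  by_contra hne
  exact h' (h.col hne)

/-- If a row has a single nonzero entry, it is group-like. -/
lemma pt_of_unique {g : Γ} {s : Λ} (h : ∀ s', s' ≠ s → C.c g s' = 0) : C.Pt g s := by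
  have h1 := C.row_sq g
  have h2 : HasSum (fun t => ‖C.c g t‖ ^ 2) (‖C.c g s‖ ^ 2) := by
    refine hasSum_single s ?_
    intro t ht
    rw [h t ht]; simp
  have h3 := h1.unique h2
  unfold Pt
  have := norm_nonneg (C.c g s)
  nlinarith

lemma pt_of_unique' {g : Γ} {s : Λ} (h : ∀ g', g' ≠ g → C.c g' s = 0) : C.Pt g s :=
  C.swap.pt_of_unique h

lemma pt_one : C.Pt 1 1 := by unfold Pt; rw [C.one_one]; simp

/-- left translation by a group-like element -/
lemma Pt.mul_left {C : Coef Γ Λ} {k : Γ} {r : Λ} (h : C.Pt k r) (g : Γ) (s : Λ) :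
    C.c (k * g) (r * s) = C.c k r * C.c g s := by
  have h1 := C.mulL k g (r * s)
  have h2 : HasSum (fun t => C.c k t * C.c g (t⁻¹ * (r * s))) (C.c k r * C.c g s) := by
    have := hasSum_single (f := fun t => C.c k t * C.c g (t⁻¹ * (r * s))) r
      (by intro t ht; rw [h.row ht, zero_mul])
    simpa using this
  exact h1.unique h2

lemma Pt.mul_right {C : Coef Γ Λ} {k : Γ} {r : Λ} (h : C.Pt k r) (g : Γ) (s : Λ) :
    C.c (g * k) (s * r) = C.c g s * C.c k r := by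
  have h1 := C.mulL g k (s * r)
  have h2 : HasSum (fun t => C.c g t * C.c k (t⁻¹ * (s * r))) (C.c g s * C.c k r) := by
    have := hasSum_single (f := fun t => C.c g t * C.c k (t⁻¹ * (s * r))) s
      (by
        intro t ht
        rw [h.row (s' := t⁻¹ * (s * r)), mul_zero]
        intro h3
        apply ht
        have : t⁻¹ * s = 1 := by
          have h4 : t⁻¹ * s * r = 1 * r := by rw [one_mul, mul_assoc]; exact h3
          exact mul_right_cancel h4
        rw [inv_mul_eq_one] at this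
        exact this)
    simpa using this
  exact h1.unique h2

lemma Pt.mul {C : Coef Γ Λ} {k k' : Γ} {r r' : Λ} (h : C.Pt k r) (h' : C.Pt k' r') :
    C.Pt (k * k') (r * r') := by
  unfold Pt
  rw [h.mul_left, norm_mul, h, h', one_mul]

lemma Pt.inv {C : Coef Γ Λ} {k : Γ} {r : Λ} (h : C.Pt k r) : C.Pt k⁻¹ r⁻¹ := by
  unfold Pt
  rw [C.conj_inv, Complex.norm_conj]
  exact h

lemma Pt.pow {C : Coef Γ Λ} {k : Γ} {r : Λ} (h : C.Pt k r) (n : ℕ) : C.Pt (k ^ n) (r ^ n) := by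
  induction n with
  | zero => simpa using C.pt_one
  | succ n ih => rw [pow_succ, pow_succ]; exact ih.mul h

/-- Support of a product. -/
lemma exists_of_mul_ne_zero {g g' : Γ} {s : Λ} (h : C.c (g * g') s ≠ 0) :
    ∃ t, C.c g t ≠ 0 ∧ C.c g' (t⁻¹ * s) ≠ 0 := by
  by_contra hcon
  push Not at hcon
  apply h
  have h1 := C.mulL g g' s
  have h2 : HasSum (fun t => C.c g t * C.c g' (t⁻¹ * s)) 0 := by
    convert hasSum_zero using 2 with t
    by_cases ht : C.c g t = 0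
    · rw [ht, zero_mul]
    · rw [hcon t ht, mul_zero]
  exact h1.unique h2

lemma exists_of_mul_ne_zero' {g : Γ} {s s' : Λ} (h : C.c g (s * s') ≠ 0) :
    ∃ t, C.c t s ≠ 0 ∧ C.c (t⁻¹ * g) s' ≠ 0 :=
  C.swap.exists_of_mul_ne_zero h

lemma inv_ne_zero_iff {g : Γ} {s : Λ} : C.c g⁻¹ s⁻¹ ≠ 0 ↔ C.c g s ≠ 0 := by
  rw [C.conj_inv]; simp

lemma finite_norm_eq (g : Γ) {r : ℝ} (hr : 0 < r) : {s | ‖C.c g s‖ = r}.Finite := by
  have h := (C.row_sq g).summable.tendsto_cofinite_zero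
  have h1 : ∀ᶠ s in Filter.cofinite, ‖C.c g s‖ ^ 2 < r ^ 2 :=
    h.eventually_lt_const (by positivity)
  rw [Filter.eventually_cofinite] at h1
  refine h1.subset ?_
  intro s hs
  simp only [Set.mem_ofPred_eq] at hs ⊢
  rw [hs]; simp

/-- Finite orbits: if `k g k' = g` then the support of `g` has finite orbits. -/
lemma finite_orbit {k k' g : Γ} {r r' s : Λ} (hk : C.Pt k r) (hk' : C.Pt k' r')
    (hg : k * g * k' = g) (hs : C.c g s ≠ 0) : ∃ n : ℕ, 0 < n ∧ r ^ n * s * r' ^ n = s := by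
  have key : ∀ n : ℕ, ‖C.c g (r ^ n * s * r' ^ n)‖ = ‖C.c g s‖ := by
    intro n
    have hgn : k ^ n * g * k' ^ n = g := by
      induction n with
      | zero => simp
      | succ n ih =>
        calc k ^ (n + 1) * g * k' ^ (n + 1) = k ^ n * (k * g * k') * k' ^ n := by
              rw [pow_succ, pow_succ']; group
          _ = g := by rw [hg, ih]
    calc ‖C.c g (r ^ n * s * r' ^ n)‖ = ‖C.c (k ^ n * g * k' ^ n) (r ^ n * s * r' ^ n)‖ := by
          rw [hgn]
      _ = ‖C.c g s‖ := by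
          rw [(hk'.pow n).mul_right, (hk.pow n).mul_left, norm_mul, norm_mul, hk.pow n, hk'.pow n]
          simp
  have hfin := C.finite_norm_eq g (norm_pos_iff.mpr hs)
  by_contra hcon
  push Not at hcon
  have hinj : Function.Injective (fun n : ℕ => r ^ n * s * r' ^ n) := by
    have aux : ∀ a b : ℕ, a < b → r ^ a * s * r' ^ a ≠ r ^ b * s * r' ^ b := by
      intro a b hab heq
      obtain ⟨d, rfl⟩ := Nat.exists_eq_add_of_lt hab
      apply hcon (d + 1) (Nat.succ_pos d)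
      have e : r ^ (a + d + 1) * s * r' ^ (a + d + 1) =
          r ^ a * (r ^ (d + 1) * s * r' ^ (d + 1)) * r' ^ a := by
        rw [show a + d + 1 = a + (d + 1) by ring, pow_add r, show a + (d + 1) = (d + 1) + a by ring,
          pow_add r']
        group
      rw [e] at heq
      have h1 := mul_right_cancel heq
      exact (mul_left_cancel h1).symm
    intro a b hab
    rcases lt_trichotomy a b with h | h | h
    · exact absurd hab (aux a b h)
    · exact h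
    · exact absurd hab.symm (aux b a h)
  exact Set.infinite_of_injective_forall_mem hinj (s := {t | ‖C.c g t‖ = ‖C.c g s‖})
    (fun n => key n) hfin

end Coef

end Vale.Agent.P092
end
end

section

section

namespace Vale.Agent.P092

open scoped ComplexConjugate
open Filter

/-- A copy of the Heisenberg group over `R` inside a group. -/
structure Heis (R Γ : Type*) [CommRing R] [Group Γ] where
  x : R → Γ
  y : R → Γ
  z : R → Γ
  x_add : ∀ a b, x (a + b) = x a * x b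
  y_add : ∀ a b, y (a + b) = y a * y b
  z_add : ∀ a b, z (a + b) = z a * z b
  z_x : ∀ a b, z a * x b = x b * z a
  z_y : ∀ a b, z a * y b = y b * z a
  x_y : ∀ a b, x a * y b = z (a * b) * (y b * x a)
  inj : ∀ a b c, z c * x a * y b = 1 → a = 0 ∧ b = 0 ∧ c = 0

namespace Heis

variable {R Γ : Type*} [CommRing R] [Group Γ] (H : Heis R Γ)

lemma x_zero : H.x 0 = 1 := by
  have := H.x_add 0 0
  rw [add_zero] at this
  exact (mul_eq_left.mp this.symm)

lemma y_zero : H.y 0 = 1 := by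
  have := H.y_add 0 0
  rw [add_zero] at this
  exact (mul_eq_left.mp this.symm)

lemma z_zero : H.z 0 = 1 := by
  have := H.z_add 0 0
  rw [add_zero] at this
  exact (mul_eq_left.mp this.symm)

lemma x_neg (a : R) : H.x (-a) = (H.x a)⁻¹ := by
  rw [eq_inv_iff_mul_eq_one, ← H.x_add, neg_add_cancel, H.x_zero]

lemma y_neg (a : R) : H.y (-a) = (H.y a)⁻¹ := by
  rw [eq_inv_iff_mul_eq_one, ← H.y_add, neg_add_cancel, H.y_zero]

lemma z_neg (a : R) : H.z (-a) = (H.z a)⁻¹ := by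
  rw [eq_inv_iff_mul_eq_one, ← H.z_add, neg_add_cancel, H.z_zero]

lemma y_x (a b : R) : H.y b * H.x a = H.z (-(a * b)) * (H.x a * H.y b) := by
  rw [H.x_y, ← mul_assoc, ← H.z_add, neg_add_cancel, H.z_zero, one_mul]

lemma mul_form (a b c a' b' c' : R) :
    (H.z c * H.x a * H.y b) * (H.z c' * H.x a' * H.y b') =
      H.z (c + c' - a' * b) * H.x (a + a') * H.y (b + b') := by
  calc (H.z c * H.x a * H.y b) * (H.z c' * H.x a' * H.y b')
      = H.z c * H.x a * (H.y b * H.z c') * H.x a' * H.y b' := by group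
    _ = H.z c * (H.x a * H.z c') * (H.y b * H.x a') * H.y b' := by rw [← H.z_y]; group
    _ = H.z c * H.z c' * H.x a * H.z (-(a' * b)) * H.x a' * H.y b * H.y b' := by
        rw [← H.z_x, H.y_x]; group
    _ = H.z c * H.z c' * (H.x a * H.z (-(a' * b))) * H.x a' * H.y b * H.y b' := by group
    _ = (H.z c * H.z c' * H.z (-(a' * b))) * (H.x a * H.x a') * (H.y b * H.y b') := by
        rw [← H.z_x]; group
    _ = _ := by
        rw [← H.z_add, ← H.z_add, ← H.x_add, ← H.y_add, sub_eq_add_neg]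

lemma form_inj {a b c a' b' c' : R}
    (h : H.z c * H.x a * H.y b = H.z c' * H.x a' * H.y b') : a = a' ∧ b = b' ∧ c = c' := by
  have h1 : (H.z c * H.x a * H.y b) * (H.z (-c' - a' * b') * H.x (-a') * H.y (-b')) = 1 := by
    rw [h, H.mul_form]
    have e1 : a' + -a' = 0 := by ring
    have e2 : b' + -b' = 0 := by ring
    have e3 : c' + (-c' - a' * b') - (-a') * b' = 0 := by ring
    rw [e1, e2, e3, H.x_zero, H.y_zero, H.z_zero]; simp
  rw [H.mul_form] at h1
  obtain ⟨h2, h3, h4⟩ := H.inj _ _ _ h1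
  have ha : a = a' := by linear_combination h2
  have hb : b = b' := by linear_combination h3
  refine ⟨ha, hb, ?_⟩
  subst ha hb
  linear_combination h4

/-- The Heisenberg subgroup. -/
def U : Subgroup Γ where
  carrier := {g | ∃ a b c, g = H.z c * H.x a * H.y b}
  one_mem' := ⟨0, 0, 0, by rw [H.x_zero, H.y_zero, H.z_zero]; simp⟩
  mul_mem' := by
    rintro _ _ ⟨a, b, c, rfl⟩ ⟨a', b', c', rfl⟩
    exact ⟨_, _, _, H.mul_form _ _ _ _ _ _⟩
  inv_mem' := by
    rintro _ ⟨a, b, c, rfl⟩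
    refine ⟨-a, -b, -c - a * b, ?_⟩
    rw [inv_eq_iff_mul_eq_one, H.mul_form]
    have e1 : a + -a = 0 := by ring
    have e2 : b + -b = 0 := by ring
    have e3 : c + (-c - a * b) - (-a) * b = 0 := by ring
    rw [e1, e2, e3, H.x_zero, H.y_zero, H.z_zero]; simp

lemma mem_U {g : Γ} : g ∈ H.U ↔ ∃ a b c, g = H.z c * H.x a * H.y b := Iff.rfl

lemma x_mem (a : R) : H.x a ∈ H.U := ⟨a, 0, 0, by rw [H.y_zero, H.z_zero]; simp⟩
lemma y_mem (a : R) : H.y a ∈ H.U := ⟨0, a, 0, by rw [H.x_zero, H.z_zero]; simp⟩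
lemma z_mem (a : R) : H.z a ∈ H.U := ⟨0, 0, a, by rw [H.x_zero, H.y_zero]; simp⟩

lemma x_inj {a b : R} (h : H.x a = H.x b) : a = b := by
  have : H.z 0 * H.x a * H.y 0 = H.z 0 * H.x b * H.y 0 := by rw [h]
  exact (H.form_inj this).1

lemma y_inj {a b : R} (h : H.y a = H.y b) : a = b := by
  have : H.z 0 * H.x 0 * H.y a = H.z 0 * H.x 0 * H.y b := by rw [h]
  exact (H.form_inj this).2.1

lemma z_inj {a b : R} (h : H.z a = H.z b) : a = b := by
  have : H.z a * H.x 0 * H.y 0 = H.z b * H.x 0 * H.y 0 := by rw [h]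
  exact (H.form_inj this).2.2

lemma conj_x (m a b c : R) : H.x m * (H.z c * H.x a * H.y b) * (H.x m)⁻¹ =
    H.z (c + m * b) * H.x a * H.y b := by
  have h1 : H.x m = H.z 0 * H.x m * H.y 0 := by rw [H.z_zero, H.y_zero]; simp
  have h2 : (H.x m)⁻¹ = H.z 0 * H.x (-m) * H.y 0 := by rw [H.z_zero, H.y_zero, H.x_neg]; simp
  rw [h2]
  conv_lhs => rw [h1]
  rw [H.mul_form, H.mul_form]
  congr 2 <;> [congr 1; congr 1; skip] <;> ring

lemma conj_y (m a b c : R) : H.y m * (H.z c * H.x a * H.y b) * (H.y m)⁻¹ =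
    H.z (c - m * a) * H.x a * H.y b := by
  have h1 : H.y m = H.z 0 * H.x 0 * H.y m := by rw [H.z_zero, H.x_zero]; simp
  have h2 : (H.y m)⁻¹ = H.z 0 * H.x 0 * H.y (-m) := by rw [H.z_zero, H.x_zero, H.y_neg]; simp
  rw [h2]
  conv_lhs => rw [h1]
  rw [H.mul_form, H.mul_form]
  congr 2 <;> [congr 1; congr 1; skip] <;> ring

end Heis

end Vale.Agent.P092
end
end

section

section

namespace Vale.Agent.P092

open scoped ComplexConjugate
open Filter

namespace Coef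

variable {Γ Λ : Type*} [Group Γ] [Group Λ] (C : Coef Γ Λ)

lemma tendsto_row (g : Γ) : Tendsto (fun s => C.c g s) cofinite (nhds 0) := by
  rw [tendsto_zero_iff_norm_tendsto_zero]
  have h := (C.row_sq g).summable.tendsto_cofinite_zero
  have h1 := h.sqrt
  rw [Real.sqrt_zero] at h1
  refine h1.congr (fun s => ?_)
  exact Real.sqrt_sq (norm_nonneg _)

lemma tendsto_col (s : Λ) : Tendsto (fun g => C.c g s) cofinite (nhds 0) :=
  C.swap.tendsto_row s

/-- If `y` only involves elements commuting with `g`, then `g` does not see conjugation by `y`. -/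
lemma conj_invariant {g : Γ} {y : Λ} (hy : ∀ h, C.c h y ≠ 0 → h * g = g * h) (s : Λ) :
    C.c g (y * s * y⁻¹) = C.c g s := by
  have h1 := C.mulR g y (s * y⁻¹)
  have h2 := C.mulR g (s * y⁻¹) y
  rw [inv_mul_cancel_right] at h2
  rw [← mul_assoc] at h1
  have h3 := ((Equiv.inv Γ).trans (Equiv.mulLeft g)).hasSum_iff.mpr h2
  refine h1.unique ?_
  convert h3 using 1
  funext h
  simp only [Function.comp, Equiv.trans_apply, Equiv.inv_apply, Equiv.coe_mulLeft]
  by_cases hh : C.c h y = 0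
  · rw [hh]; simp [hh]
  · have hc := hy h hh
    have e1 : h⁻¹ * g = g * h⁻¹ := by
      rw [inv_mul_eq_iff_eq_mul, ← mul_assoc, hc, mul_assoc, mul_inv_cancel, mul_one]
    rw [e1]
    have e2 : (g * h⁻¹)⁻¹ * g = h := by group
    rw [e2, mul_comm]

/-- Set of elements with finite conjugacy class under the subgroup `V`. -/
def FinConj (V : Subgroup Λ) (s : Λ) : Prop := {t | ∃ v ∈ V, t = v * s * v⁻¹}.Finite

lemma FinConj.mul {V : Subgroup Λ} {s s' : Λ} (h : FinConj V s) (h' : FinConj V s') :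
    FinConj V (s * s') := by
  unfold FinConj at *
  refine (Set.Finite.image2 (fun a b => a * b) h h').subset ?_
  rintro t ⟨v, hv, rfl⟩
  exact ⟨v * s * v⁻¹, ⟨v, hv, rfl⟩, v * s' * v⁻¹, ⟨v, hv, rfl⟩, by group⟩

lemma FinConj.inv {V : Subgroup Λ} {s : Λ} (h : FinConj V s) : FinConj V s⁻¹ := by
  unfold FinConj at *
  refine (h.image (fun a => a⁻¹)).subset ?_
  rintro t ⟨v, hv, rfl⟩
  exact ⟨v * s * v⁻¹, ⟨v, hv, rfl⟩, by group⟩

end Coef

/-- The data of the first step: the two simple root subgroup algebras are group subalgebras. -/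
structure StepData (R Γ Λ : Type*) [CommRing R] [Group Γ] [Group Λ] (C : Coef Γ Λ)
    (H : Heis R Γ) where
  Y1 : Subgroup Λ
  Y2 : Subgroup Λ
  h1 : ∀ s ∈ Y1, ∀ g, C.c g s ≠ 0 → ∃ a, g = H.x a
  h1' : ∀ a s, C.c (H.x a) s ≠ 0 → s ∈ Y1
  h2 : ∀ s ∈ Y2, ∀ g, C.c g s ≠ 0 → ∃ a, g = H.y a
  h2' : ∀ a s, C.c (H.y a) s ≠ 0 → s ∈ Y2

namespace StepData

variable {R Γ Λ : Type*} [CommRing R] [Group Γ] [Group Λ] {C : Coef Γ Λ}
    {H : Heis R Γ} (D : StepData R Γ Λ C H)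

/-- The subgroup generated by `Y1` and `Y2`. -/
def V : Subgroup Λ := D.Y1 ⊔ D.Y2

lemma Y1_le : D.Y1 ≤ D.V := le_sup_left
lemma Y2_le : D.Y2 ≤ D.V := le_sup_right

lemma V_induction {p : Λ → Prop} (h1 : ∀ s ∈ D.Y1, p s) (h2 : ∀ s ∈ D.Y2, p s)
    (hm : ∀ s t, p s → p t → p (s * t)) (hi : ∀ s, p s → p s⁻¹) {s : Λ} (hs : s ∈ D.V) : p s := by
  have : D.V ≤ { carrier := {s | p s}, mul_mem' := fun {a b} ha hb => hm a b ha hb,
                 one_mem' := h1 1 D.Y1.one_mem, inv_mem' := fun {a} ha => hi a ha : Subgroup Λ } :=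
    sup_le (fun s hs => h1 s hs) (fun s hs => h2 s hs)
  exact this hs

/-- P0 -/
lemma supp_V {s : Λ} (hs : s ∈ D.V) : ∀ g, C.c g s ≠ 0 → g ∈ H.U := by
  refine D.V_induction (p := fun s => ∀ g, C.c g s ≠ 0 → g ∈ H.U) ?_ ?_ ?_ ?_ hs
  · intro s hs g hg
    obtain ⟨a, rfl⟩ := D.h1 s hs g hg
    exact H.x_mem a
  · intro s hs g hg
    obtain ⟨a, rfl⟩ := D.h2 s hs g hg
    exact H.y_mem a
  · intro s t h h' g hg
    obtain ⟨k, hk, hk'⟩ := C.exists_of_mul_ne_zero' hg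
    have := H.U.mul_mem (h k hk) (h' _ hk')
    rwa [mul_inv_cancel_left] at this
  · intro s h g hg
    have : C.c g⁻¹ s ≠ 0 := by
      rw [← inv_inv g, C.inv_ne_zero_iff] at hg
      exact hg
    have := H.U.inv_mem (h _ this)
    rwa [inv_inv] at this

/-- P1 -/
lemma conj_z (k : R) {v : Λ} (hv : v ∈ D.V) (s : Λ) :
    C.c (H.z k) (v * s * v⁻¹) = C.c (H.z k) s := by
  refine D.V_induction (p := fun v => ∀ s, C.c (H.z k) (v * s * v⁻¹) = C.c (H.z k) s)
    ?_ ?_ ?_ ?_ hv s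
  · intro y hy s
    refine C.conj_invariant ?_ s
    intro h hh
    obtain ⟨a, rfl⟩ := D.h1 y hy h hh
    exact (H.z_x k a).symm
  · intro y hy s
    refine C.conj_invariant ?_ s
    intro h hh
    obtain ⟨a, rfl⟩ := D.h2 y hy h hh
    exact (H.z_y k a).symm
  · intro v w hv hw s
    have : v * w * s * (v * w)⁻¹ = v * (w * s * w⁻¹) * v⁻¹ := by group
    rw [this, hv, hw]
  · intro v hv s
    have := hv (v⁻¹ * s * v⁻¹⁻¹)
    rw [← this]
    congr 1
    group

/-- P2 -/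
lemma finConj_of_z {k : R} {s : Λ} (h : C.c (H.z k) s ≠ 0) : Coef.FinConj D.V s := by
  refine (C.finite_norm_eq (H.z k) (norm_pos_iff.mpr h)).subset ?_
  rintro t ⟨v, hv, rfl⟩
  simp only [Set.mem_ofPred_eq]
  rw [D.conj_z k hv]

/-- P3 -/
lemma exists_z_of_finConj [Infinite R] [NoZeroDivisors R] {s : Λ} (hs : s ∈ D.V)
    (hfin : Coef.FinConj D.V s) :
    ∃ k, C.c (H.z k) s ≠ 0 := by
  classical
  unfold Coef.FinConj at hfin
  set F : Finset Λ := hfin.toFinset with hF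
  have memF : ∀ t, t ∈ F ↔ ∃ v ∈ D.V, t = v * s * v⁻¹ := by
    intro t; rw [hF, Set.Finite.mem_toFinset]; rfl
  have hsF : s ∈ F := (memF s).2 ⟨1, D.V.one_mem, by simp⟩
  have hFV : ∀ t ∈ F, t ∈ D.V := by
    intro t ht
    obtain ⟨v, hv, rfl⟩ := (memF t).1 ht
    exact D.V.mul_mem (D.V.mul_mem hv hs) (D.V.inv_mem hv)
  have hFconj : ∀ r ∈ D.V, ∀ t, t ∈ F ↔ r⁻¹ * t * r ∈ F := by
    intro r hr t
    rw [memF, memF]
    constructor
    · rintro ⟨v, hv, rfl⟩
      exact ⟨r⁻¹ * v, D.V.mul_mem (D.V.inv_mem hr) hv, by group⟩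
    · rintro ⟨v, hv, h⟩
      refine ⟨r * v, D.V.mul_mem hr hv, ?_⟩
      have : t = r * (r⁻¹ * t * r) * r⁻¹ := by group
      rw [this, h]; group
  set A : Γ → ℂ := fun g => ∑ t ∈ F, C.c g t with hA
  -- commutation
  have hcomm : ∀ k : Γ, (∀ r, C.c k r ≠ 0 → r ∈ D.V) → ∀ g, A (k * g) = A (g * k) := by
    intro k hk g
    have e1 : HasSum (fun r => ∑ t ∈ F, C.c k r * C.c g (r⁻¹ * t)) (A (k * g)) :=
      hasSum_sum (fun t _ => C.mulL k g t)
    have e2 : HasSum (fun r => ∑ t ∈ F, C.c g (t * r⁻¹) * C.c k r) (A (g * k)) := by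
      refine hasSum_sum (fun t _ => ?_)
      have := C.mulL g k t
      have h3 := ((Equiv.inv Λ).trans (Equiv.mulLeft t)).hasSum_iff.mpr this
      convert h3 using 1
      funext r
      simp only [Function.comp, Equiv.trans_apply, Equiv.inv_apply, Equiv.coe_mulLeft]
      congr 2
      group
    refine e1.unique ?_
    convert e2 using 1
    funext r
    by_cases hr : C.c k r = 0
    · simp [hr]
    · have hrV := hk r hr
      rw [← Finset.mul_sum, ← Finset.sum_mul, mul_comm]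
      congr 1
      refine Finset.sum_bij' (fun t _ => r⁻¹ * t * r) (fun t _ => r * t * r⁻¹) ?_ ?_ ?_ ?_ ?_
      · intro t ht; exact (hFconj r hrV t).1 ht
      · intro t ht
        rw [hFconj r hrV]
        have : r⁻¹ * (r * t * r⁻¹) * r = t := by group
        rwa [this]
      · intro t _; group
      · intro t _; group
      · intro t _; congr 1; group
  have hcommX : ∀ a g, A (H.x a * g * (H.x a)⁻¹) = A g := by
    intro a g
    have := hcomm (H.x a) (fun r hr => D.Y1_le (D.h1' a r hr)) (g * (H.x a)⁻¹)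
    rw [inv_mul_cancel_right, ← mul_assoc] at this
    exact this
  have hcommY : ∀ a g, A (H.y a * g * (H.y a)⁻¹) = A g := by
    intro a g
    have := hcomm (H.y a) (fun r hr => D.Y2_le (D.h2' a r hr)) (g * (H.y a)⁻¹)
    rw [inv_mul_cancel_right, ← mul_assoc] at this
    exact this
  have hA0 : Tendsto A cofinite (nhds 0) := by
    have := tendsto_finsetSum F (fun t (_ : t ∈ F) => C.tendsto_col t)
    simpa using this
  have const_zero : ∀ (φ : R → Γ), Function.Injective φ → ∀ w, (∀ r, A (φ r) = w) → w = 0 := by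
    intro φ hφ w hw
    have h1 := hA0.comp hφ.tendsto_cofinite
    have h2 : (A ∘ φ) = fun _ => w := by funext r; exact hw r
    rw [h2] at h1
    exact tendsto_nhds_unique tendsto_const_nhds h1
  have hsupp : ∀ g, A g ≠ 0 → ∃ k, g = H.z k := by
    intro g hg
    have hgU : g ∈ H.U := by
      obtain ⟨t, ht, hgt⟩ := Finset.exists_ne_zero_of_sum_ne_zero hg
      exact D.supp_V (hFV t ht) g hgt
    obtain ⟨a, b, c, rfl⟩ := hgU
    have hb : b = 0 := by
      by_contra hb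
      apply hg
      refine const_zero (fun m => H.z (c + m * b) * H.x a * H.y b) ?_ _ ?_
      · intro m m' hmm
        have := (H.form_inj hmm).2.2
        have h2 : m * b = m' * b := by linear_combination this
        exact mul_right_cancel₀ hb h2
      · intro m
        rw [← H.conj_x m a b c]
        exact hcommX m _
    have ha : a = 0 := by
      by_contra ha
      apply hg
      refine const_zero (fun m => H.z (c - m * a) * H.x a * H.y b) ?_ _ ?_
      · intro m m' hmm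
        have := (H.form_inj hmm).2.2
        have h2 : m * a = m' * a := by linear_combination -this
        exact mul_right_cancel₀ ha h2
      · intro m
        rw [← H.conj_y m a b c]
        exact hcommY m _
    subst ha hb
    exact ⟨c, by rw [H.x_zero, H.y_zero]; simp⟩
  -- nonvanishing
  have hone : HasSum (fun g => ∑ t ∈ F, conj (C.c g s) * C.c g t)
      (∑ t ∈ F, if t = s then (1 : ℂ) else 0) := by
    refine hasSum_sum (fun t _ => ?_)
    by_cases hts : t = s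
    · subst hts; rw [if_pos rfl]; exact C.swap.row_self t
    · rw [if_neg hts]; exact C.swap.row_orth (Ne.symm hts)
  rw [Finset.sum_ite_eq' F s, if_pos hsF] at hone
  have hex : ∃ g, conj (C.c g s) * A g ≠ 0 := by
    by_contra hcon
    push Not at hcon
    have : HasSum (fun g => ∑ t ∈ F, conj (C.c g s) * C.c g t) 0 := by
      convert hasSum_zero using 2 with g
      rw [← Finset.mul_sum]
      exact hcon g
    exact one_ne_zero (hone.unique this)
  obtain ⟨g, hg⟩ := hex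
  have hg1 : C.c g s ≠ 0 := by
    intro h; apply hg; rw [h]; simp
  obtain ⟨k, rfl⟩ := hsupp g (right_ne_zero_of_mul hg)
  exact ⟨k, hg1⟩

/-- P4 -/
lemma prod_eq_one {y z : Λ} (hy : y ∈ D.Y1) (hz : z ∈ D.Y2) {k : R}
    (h : C.c (H.z k) (y * z) ≠ 0) : y = 1 ∧ z = 1 := by
  obtain ⟨t, ht, ht'⟩ := C.exists_of_mul_ne_zero' h
  obtain ⟨a, rfl⟩ := D.h1 y hy t ht
  obtain ⟨b, hb⟩ := D.h2 z hz _ ht'
  have h1 : H.z k * H.x 0 * H.y 0 = H.z 0 * H.x a * H.y b := by
    rw [← hb, H.x_zero, H.y_zero, H.z_zero]; group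
  obtain ⟨h2, h3, h4⟩ := H.form_inj h1
  subst h4
  rw [← h2, H.x_zero] at ht ht'
  rw [H.z_zero, inv_one, one_mul] at ht'
  exact ⟨by_contra fun h => ht (C.oneL _ h), by_contra fun h => ht' (C.oneL _ h)⟩

/-- P5 -/
lemma supp_finConj [Infinite R] [NoZeroDivisors R] {s : Λ} (hs : s ∈ D.V)
    (hfin : Coef.FinConj D.V s) {g : Γ} (hg : C.c g s ≠ 0) : ∃ k, g = H.z k := by
  obtain ⟨a, b, c, rfl⟩ := D.supp_V hs g hg
  obtain ⟨t, ht, ht'⟩ := C.exists_of_mul_ne_zero hg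
  obtain ⟨r, hr, hr'⟩ := C.exists_of_mul_ne_zero ht
  have hz := D.h2' b _ ht'
  have hy := D.h1' a _ hr'
  have hrfin : Coef.FinConj D.V r := D.finConj_of_z hr
  have e : (r⁻¹ * t) * (t⁻¹ * s) = r⁻¹ * s := by group
  have hyz : Coef.FinConj D.V ((r⁻¹ * t) * (t⁻¹ * s)) := by
    rw [e]; exact hrfin.inv.mul hfin
  have hmem : (r⁻¹ * t) * (t⁻¹ * s) ∈ D.V := D.V.mul_mem (D.Y1_le hy) (D.Y2_le hz)
  obtain ⟨k, hk⟩ := D.exists_z_of_finConj hmem hyz
  obtain ⟨h1, h2⟩ := D.prod_eq_one hy hz hk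
  rw [h1] at hr'
  rw [h2] at ht'
  have ha : H.x a = 1 := by_contra fun h => hr' (C.oneR _ h)
  have hb : H.y b = 1 := by_contra fun h => ht' (C.oneR _ h)
  exact ⟨c, by rw [ha, hb]; simp⟩

lemma c_xy {y z : Λ} (hy : y ∈ D.Y1) (hz : z ∈ D.Y2) (m n : R) :
    C.c (H.x m * H.y n) (y * z) = C.c (H.x m) y * C.c (H.y n) z := by
  have h := C.mulR (H.x m * H.y n) y z
  refine h.unique ?_
  have := hasSum_single (f := fun t => C.c t y * C.c (t⁻¹ * (H.x m * H.y n)) z) (H.x m) ?_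
  · simpa using this
  · intro t ht
    by_contra hne
    have h1 := left_ne_zero_of_mul hne
    have h2 := right_ne_zero_of_mul hne
    obtain ⟨a, rfl⟩ := D.h1 y hy t h1
    obtain ⟨b, hb⟩ := D.h2 z hz _ h2
    apply ht
    have h3 : H.z 0 * H.x m * H.y n = H.z 0 * H.x a * H.y b := by
      rw [← hb, H.z_zero]; group
    rw [(H.form_inj h3).1]

lemma c_yx {y z : Λ} (hy : y ∈ D.Y1) (hz : z ∈ D.Y2) (m n : R) :
    C.c (H.y n * H.x m) (z * y) = C.c (H.y n) z * C.c (H.x m) y := by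
  have h := C.mulR (H.y n * H.x m) z y
  refine h.unique ?_
  have := hasSum_single (f := fun t => C.c t z * C.c (t⁻¹ * (H.y n * H.x m)) y) (H.y n) ?_
  · simpa using this
  · intro t ht
    by_contra hne
    have h1 := left_ne_zero_of_mul hne
    have h2 := right_ne_zero_of_mul hne
    obtain ⟨b, rfl⟩ := D.h2 z hz t h1
    obtain ⟨a, ha⟩ := D.h1 y hy _ h2
    apply ht
    have h3 : H.z (-(m * n)) * H.x m * H.y n = H.z (-(a * b)) * H.x a * H.y b := by
      rw [mul_assoc, mul_assoc, ← H.y_x, ← H.y_x, ← ha]; group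
    rw [(H.form_inj h3).2.1]

lemma supp_yx {y z : Λ} (hy : y ∈ D.Y1) (hz : z ∈ D.Y2) {g : Γ} (hg : C.c g (z * y) ≠ 0) :
    ∃ m n, g = H.y n * H.x m ∧ C.c (H.y n) z ≠ 0 ∧ C.c (H.x m) y ≠ 0 := by
  obtain ⟨t, ht, ht'⟩ := C.exists_of_mul_ne_zero' hg
  obtain ⟨b, rfl⟩ := D.h2 z hz t ht
  obtain ⟨a, ha⟩ := D.h1 y hy _ ht'
  refine ⟨a, b, ?_, ht, ?_⟩
  · rw [← ha]; group
  · rwa [← ha]

lemma supp_xy {y z : Λ} (hy : y ∈ D.Y1) (hz : z ∈ D.Y2) {g : Γ} (hg : C.c g (y * z) ≠ 0) :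
    ∃ m n, g = H.x m * H.y n ∧ C.c (H.x m) y ≠ 0 ∧ C.c (H.y n) z ≠ 0 := by
  obtain ⟨t, ht, ht'⟩ := C.exists_of_mul_ne_zero' hg
  obtain ⟨a, rfl⟩ := D.h1 y hy t ht
  obtain ⟨b, hb⟩ := D.h2 z hz _ ht'
  refine ⟨a, b, ?_, ht, ?_⟩
  · rw [← hb]; group
  · rwa [← hb]

/-- P6 -/
lemma comm_ne_zero {y z : Λ} (hy : y ∈ D.Y1) (hz : z ∈ D.Y2) {m n : R}
    (hm : C.c (H.x m) y ≠ 0) (hn : C.c (H.y n) z ≠ 0) :
    C.c (H.z (m * n)) (y * z * (z * y)⁻¹) ≠ 0 := by
  have h := C.mulR (H.z (m * n)) (y * z) (z * y)⁻¹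
  intro h0
  rw [h0] at h
  have hre := Complex.hasSum_re h
  rw [Complex.zero_re] at hre
  have hterm : ∀ g, C.c g (y * z) * C.c (g⁻¹ * H.z (m * n)) (z * y)⁻¹ =
      C.c g (y * z) * conj (C.c ((H.z (m * n))⁻¹ * g) (z * y)) := by
    intro g
    congr 1
    rw [← C.conj_inv]
    congr 1
    group
  have hval : ∀ a b : R, a * b = m * n →
      C.c (H.x a * H.y b) (y * z) * conj (C.c ((H.z (m * n))⁻¹ * (H.x a * H.y b)) (z * y)) =
      ((‖C.c (H.x a) y * C.c (H.y b) z‖ ^ 2 : ℝ) : ℂ) := by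
    intro a b hab
    have e : (H.z (m * n))⁻¹ * (H.x a * H.y b) = H.y b * H.x a := by
      rw [← hab, H.x_y]; group
    rw [e, D.c_xy hy hz, D.c_yx hy hz, mul_comm (C.c (H.y b) z), Complex.mul_conj,
      Complex.normSq_eq_norm_sq]
  have hnn : ∀ g, 0 ≤ (C.c g (y * z) * C.c (g⁻¹ * H.z (m * n)) (z * y)⁻¹).re := by
    intro g
    rw [hterm]
    by_cases hg : C.c g (y * z) = 0
    · simp [hg]
    by_cases hg' : C.c ((H.z (m * n))⁻¹ * g) (z * y) = 0
    · simp [hg']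
    obtain ⟨a, b, rfl, -, -⟩ := D.supp_xy hy hz hg
    obtain ⟨a', b', hab, -, -⟩ := D.supp_yx hy hz hg'
    have e : H.z 0 * H.x a * H.y b = H.z (m * n + -(a' * b')) * H.x a' * H.y b' := by
      rw [H.z_add, mul_assoc, mul_assoc, mul_assoc, ← H.y_x, ← hab, H.z_zero]; group
    obtain ⟨e1, e2, e3⟩ := H.form_inj e
    rw [hval a b (by rw [e1, e2]; linear_combination e3), Complex.ofReal_re]
    positivity
  have hzero := (hasSum_zero_iff_of_nonneg hnn).1 hre
  have h1 := congrFun hzero (H.x m * H.y n)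
  simp only [Pi.zero_apply] at h1
  rw [hterm, hval m n rfl, Complex.ofReal_re] at h1
  have h2 : 0 < ‖C.c (H.x m) y * C.c (H.y n) z‖ := norm_pos_iff.mpr (mul_ne_zero hm hn)
  have h3 : 0 < ‖C.c (H.x m) y * C.c (H.y n) z‖ ^ 2 := by positivity
  linarith

/-- P7 -/
lemma comm_pt [Infinite R] [NoZeroDivisors R] {y z : Λ} (hy : y ∈ D.Y1) (hz : z ∈ D.Y2)
    {m n : R} (hm : C.c (H.x m) y ≠ 0) (hn : C.c (H.y n) z ≠ 0) :
    C.Pt (H.z (m * n)) (y * z * (z * y)⁻¹) := by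
  have h1 := D.comm_ne_zero hy hz hm hn
  have hfin := D.finConj_of_z h1
  have hV : y * z * (z * y)⁻¹ ∈ D.V :=
    D.V.mul_mem (D.V.mul_mem (D.Y1_le hy) (D.Y2_le hz))
      (D.V.inv_mem (D.V.mul_mem (D.Y2_le hz) (D.Y1_le hy)))
  set t := y * z * (z * y)⁻¹ with ht
  have hyz : y * z = t * (z * y) := by rw [ht]; group
  have h2 := C.mulR (H.x m * H.y n) t (z * y)
  rw [← hyz, D.c_xy hy hz] at h2
  have h3 : HasSum (fun h => C.c h t * C.c (h⁻¹ * (H.x m * H.y n)) (z * y))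
      (C.c (H.z (m * n)) t * (C.c (H.y n) z * C.c (H.x m) y)) := by
    have := hasSum_single (f := fun h => C.c h t * C.c (h⁻¹ * (H.x m * H.y n)) (z * y))
      (H.z (m * n)) ?_
    · have e : (H.z (m * n))⁻¹ * (H.x m * H.y n) = H.y n * H.x m := by
        rw [H.x_y]; group
      rw [e, D.c_yx hy hz] at this
      exact this
    · intro h hh
      by_contra hne
      obtain ⟨k, rfl⟩ := D.supp_finConj hV hfin (left_ne_zero_of_mul hne)
      obtain ⟨a', b', hab, -, -⟩ := D.supp_yx hy hz (right_ne_zero_of_mul hne)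
      apply hh
      have e : H.z 0 * H.x m * H.y n = H.z (k + -(a' * b')) * H.x a' * H.y b' := by
        rw [H.z_add, mul_assoc, mul_assoc, mul_assoc, ← H.y_x, ← hab, H.z_zero]; group
      obtain ⟨e1, e2, e3⟩ := H.form_inj e
      rw [e1, e2]
      congr 1
      linear_combination -e3
  have h4 := h2.unique h3
  have h5 : C.c (H.z (m * n)) t = 1 := by
    have hne : C.c (H.x m) y * C.c (H.y n) z ≠ 0 := mul_ne_zero hm hn
    have : (C.c (H.z (m * n)) t - 1) * (C.c (H.x m) y * C.c (H.y n) z) = 0 := by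
      linear_combination -h4
    rcases mul_eq_zero.mp this with h | h
    · linear_combination h
    · exact absurd h hne
  unfold Coef.Pt
  rw [h5]; simp

/-- P8 -/
lemma unique_x [Infinite R] [NoZeroDivisors R] {y : Λ} (hy : y ∈ D.Y1)
    {m m' : R} (hm : C.c (H.x m) y ≠ 0) (hm' : C.c (H.x m') y ≠ 0) : m = m' := by
  -- choose a nontrivial element of Y2
  obtain ⟨b, hb⟩ := exists_ne (0 : R)
  obtain ⟨z, hz⟩ := C.row_ne_zero (H.y b)
  have hz2 := D.h2' b z hz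
  have h1 := D.comm_pt hy hz2 hm hz
  have h2 := D.comm_pt hy hz2 hm' hz
  have h3 := h1.eq_of_ne_zero' h2.ne_zero
  have h4 := H.z_inj h3
  exact (mul_right_cancel₀ hb h4).symm

lemma unique_y [Infinite R] [NoZeroDivisors R] {z : Λ} (hz : z ∈ D.Y2)
    {n n' : R} (hn : C.c (H.y n) z ≠ 0) (hn' : C.c (H.y n') z ≠ 0) : n = n' := by
  obtain ⟨a, ha⟩ := exists_ne (0 : R)
  obtain ⟨y, hy⟩ := C.row_ne_zero (H.x a)
  have hy2 := D.h1' a y hy
  have h1 := D.comm_pt hy2 hz hy hn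
  have h2 := D.comm_pt hy2 hz hy hn'
  have h3 := h1.eq_of_ne_zero' h2.ne_zero
  have h4 := H.z_inj h3
  exact (mul_left_cancel₀ ha h4).symm

include D in
theorem pt_x [Infinite R] [NoZeroDivisors R] (a : R) : ∃ s, C.Pt (H.x a) s := by
  obtain ⟨s, hs⟩ := C.row_ne_zero (H.x a)
  have hsY := D.h1' a s hs
  refine ⟨s, C.pt_of_unique' ?_⟩
  intro g hg
  by_contra hne
  obtain ⟨b, rfl⟩ := D.h1 s hsY g hne
  exact hg (by rw [D.unique_x hsY hne hs])

include D in
theorem pt_y [Infinite R] [NoZeroDivisors R] (a : R) : ∃ s, C.Pt (H.y a) s := by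
  obtain ⟨s, hs⟩ := C.row_ne_zero (H.y a)
  have hsY := D.h2' a s hs
  refine ⟨s, C.pt_of_unique' ?_⟩
  intro g hg
  by_contra hne
  obtain ⟨b, rfl⟩ := D.h2 s hsY g hne
  exact hg (by rw [D.unique_y hsY hne hs])

end StepData

end Vale.Agent.P092
end
end

section

section

namespace Vale.Agent.P092

open scoped ComplexConjugate
open Filter

/-- The combinatorial data of `SL₃(R)` used in the proof. -/
structure SL3Data (R Γ : Type*) [CommRing R] [Group Γ] extends Heis R Γ where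
  w1 : Γ
  w2 : Γ
  w1_sq : w1 * w1 = 1
  w2_sq : w2 * w2 = 1
  braid : w1 * w2 * w1 = w2 * w1 * w2
  w1_x : ∀ a, w1 * x a * w1 = z (-a)
  w1_z : ∀ a, w1 * z a * w1 = x (-a)
  w2_y : ∀ a, w2 * y a * w2 = z (-a)
  w2_z : ∀ a, w2 * z a * w2 = y (-a)
  cent1 : ∀ g a b, a ≠ 0 → b ≠ 0 → g * x a = x a * g → g * z b = z b * g → ∃ c d, g = x c * z d
  cent2 : ∀ g a b, a ≠ 0 → b ≠ 0 → g * y a = y a * g → g * z b = z b * g → ∃ c d, g = y c * z d
  bruhat : ∀ k k' l l', k ∈ toHeis.U → k' ∈ toHeis.U → l ∈ toHeis.U → l' ∈ toHeis.U →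
    k * (w1 * w2 * w1) * k' = l * (w1 * w2 * w1) * l' → k = l ∧ k' = l'
  opp : ∀ m n c d, w2 * x m * w2 * x n = y c * z d → m = 0 ∧ n = 0
  gen : ∀ K : Subgroup Γ, (∀ a, x a ∈ K) → (∀ a, y a ∈ K) → w1 * w2 * w1 ∈ K → K = ⊤

/-- A pair of compatible Heisenberg groups, all whose elements are group-like. -/
structure PtHeis (R Γ Λ : Type*) [CommRing R] [Group Γ] [Group Λ] (C : Coef Γ Λ)
    (H : Heis R Γ) where
  L : Heis R Λ
  px : ∀ a, C.Pt (H.x a) (L.x a)
  py : ∀ a, C.Pt (H.y a) (L.y a)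
  pz : ∀ a, C.Pt (H.z a) (L.z a)

namespace StepData

variable {R Γ Λ : Type*} [CommRing R] [Infinite R] [NoZeroDivisors R] [Group Γ] [Group Λ]
  {C : Coef Γ Λ} {H : Heis R Γ} (D : StepData R Γ Λ C H)

include D in
theorem pt_z (a : R) : ∃ s, C.Pt (H.z a) s := by
  obtain ⟨s, hs⟩ := D.pt_x a
  obtain ⟨t, ht⟩ := D.pt_y 1
  refine ⟨s * t * (t * s)⁻¹, ?_⟩
  have : H.z a = H.x a * H.y 1 * (H.y 1 * H.x a)⁻¹ := by
    rw [H.x_y, mul_one]; group
  rw [this]
  exact (hs.mul ht).mul (ht.mul hs).inv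

/-- The group-like Heisenberg group. -/
noncomputable def ptHeis : PtHeis R Γ Λ C H := by
  have hx := D.pt_x
  have hy := D.pt_y
  have hz := D.pt_z
  choose X hX using hx
  choose Y hY using hy
  choose Z hZ using hz
  refine ⟨⟨X, Y, Z, ?_, ?_, ?_, ?_, ?_, ?_, ?_⟩, hX, hY, hZ⟩
  · intro a b
    have h := (hX a).mul (hX b)
    rw [← H.x_add] at h
    exact h.eq_of_ne_zero (hX (a + b)).ne_zero
  · intro a b
    have h := (hY a).mul (hY b)
    rw [← H.y_add] at h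
    exact h.eq_of_ne_zero (hY (a + b)).ne_zero
  · intro a b
    have h := (hZ a).mul (hZ b)
    rw [← H.z_add] at h
    exact h.eq_of_ne_zero (hZ (a + b)).ne_zero
  · intro a b
    have h := (hZ a).mul (hX b)
    rw [H.z_x] at h
    exact ((hX b).mul (hZ a)).eq_of_ne_zero h.ne_zero
  · intro a b
    have h := (hZ a).mul (hY b)
    rw [H.z_y] at h
    exact ((hY b).mul (hZ a)).eq_of_ne_zero h.ne_zero
  · intro a b
    have h := (hX a).mul (hY b)
    rw [H.x_y] at h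
    exact ((hZ (a * b)).mul ((hY b).mul (hX a))).eq_of_ne_zero h.ne_zero
  · intro a b c h
    have h1 := ((hZ c).mul (hX a)).mul (hY b)
    rw [h] at h1
    have h2 := (C.pt_one).eq_of_ne_zero' h1.ne_zero
    exact H.inj a b c h2

end StepData

namespace Coef

variable {Γ Λ : Type*} [Group Γ] [Group Λ] (C : Coef Γ Λ)

/-- An infinite family of points of constant positive modulus in a row has an infinite fibre. -/
lemma exists_infinite_fiber {I : Type*} [Infinite I] (g : Γ) (φ : I → Λ) {r : ℝ} (hr : 0 < r)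
    (h : ∀ i, ‖C.c g (φ i)‖ = r) : ∃ s, {i | φ i = s}.Infinite := by
  have hfin := C.finite_norm_eq g hr
  have : Finite {s | ‖C.c g s‖ = r} := hfin.to_subtype
  let ψ : I → {s | ‖C.c g s‖ = r} := fun i => ⟨φ i, h i⟩
  obtain ⟨y, hy⟩ := Finite.exists_infinite_fiber ψ
  refine ⟨y.1, ?_⟩
  have : (ψ ⁻¹' {y}).Infinite := Set.infinite_coe_iff.mp hy
  refine this.mono ?_
  intro i hi
  have : ψ i = y := hi
  simp only [Set.mem_ofPred_eq]
  rw [← this]

lemma exists_infinite_fiber₂ {I : Type*} [Infinite I] (g g' : Γ) (φ φ' : I → Λ) {r r' : ℝ}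
    (hr : 0 < r) (hr' : 0 < r')
    (h : ∀ i, ‖C.c g (φ i)‖ = r) (h' : ∀ i, ‖C.c g' (φ' i)‖ = r') :
    ∃ s s', {i | φ i = s ∧ φ' i = s'}.Infinite := by
  obtain ⟨s, hs⟩ := C.exists_infinite_fiber g φ hr h
  have : Infinite {i | φ i = s} := hs.to_subtype
  obtain ⟨s', hs'⟩ := C.exists_infinite_fiber g' (fun i : {i | φ i = s} => φ' i.1) hr'
    (fun i => h' i.1)
  refine ⟨s, s', ?_⟩
  have := hs'.image (f := fun i : {i | φ i = s} => i.1) (Set.injOn_of_injective Subtype.val_injective)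
  refine this.mono ?_
  rintro _ ⟨i, hi, rfl⟩
  exact ⟨i.2, hi⟩

end Coef

/-- Coset lemma. `p, p'` are additive one-parameter families of group-like elements with
`p' a * g = g * p a`; two elements of the support of the row `g` differ by an element `r` commuting
with infinitely many `P a`. -/
lemma coset_commute {R Γ Λ : Type*} [CommRing R] [Infinite R] [Group Γ] [Group Λ] (C : Coef Γ Λ)
    {g : Γ} (p p' : R → Γ) (P P' : R → Λ)
    (hp : ∀ a, C.Pt (p a) (P a)) (hp' : ∀ a, C.Pt (p' a) (P' a))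
    (hP : ∀ a b, P (a + b) = P a * P b) (hP' : ∀ a b, P' (a + b) = P' a * P' b)
    (hg : ∀ a, p' a * g = g * p a) {s s' : Λ} (hs : C.c g s ≠ 0) (hs' : C.c g s' ≠ 0) :
    {a | P' a * s = s * P a ∧ P' a * s' = s' * P a}.Infinite := by
  have key : ∀ t : Λ, ∀ a, ‖C.c g (P' a * t * (P a)⁻¹)‖ = ‖C.c g t‖ := by
    intro t a
    have h1 : g = p' a * g * (p a)⁻¹ := by rw [hg]; group
    conv_lhs => rw [h1]
    rw [(hp a).inv.mul_right, (hp' a).mul_left, norm_mul, norm_mul, (hp a).inv, hp' a]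
    simp
  obtain ⟨t, t', ht⟩ := C.exists_infinite_fiber₂ g g (fun a => P' a * s * (P a)⁻¹)
    (fun a => P' a * s' * (P a)⁻¹) (norm_pos_iff.mpr hs) (norm_pos_iff.mpr hs')
    (key s) (key s')
  obtain ⟨a₀, ha₀⟩ := ht.nonempty
  have himg := ht.image (f := fun a => a - a₀) (fun a _ b _ hab => sub_left_injective hab)
  refine himg.mono ?_
  rintro _ ⟨a, ha, rfl⟩
  have Pz : P 0 = 1 := by
    have := hP 0 0; rw [add_zero] at this; exact (mul_eq_left.mp this.symm)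
  have Pz' : P' 0 = 1 := by
    have := hP' 0 0; rw [add_zero] at this; exact (mul_eq_left.mp this.symm)
  have e1 : P (a - a₀) = (P a₀)⁻¹ * P a := by
    have := hP a₀ (a - a₀)
    rw [add_sub_cancel] at this
    rw [this]; group
  have e2 : P' (a - a₀) = (P' a₀)⁻¹ * P' a := by
    have := hP' a₀ (a - a₀)
    rw [add_sub_cancel] at this
    rw [this]; group
  have aux : ∀ t : Λ, P' a * t * (P a)⁻¹ = P' a₀ * t * (P a₀)⁻¹ →
      P' (a - a₀) * t = t * P (a - a₀) := by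
    intro t ht
    rw [e1, e2]
    have : P' a * t = P' a₀ * t * (P a₀)⁻¹ * P a := by rw [← ht]; group
    calc (P' a₀)⁻¹ * P' a * t = (P' a₀)⁻¹ * (P' a * t) := by group
      _ = t * ((P a₀)⁻¹ * P a) := by rw [this]; group
  exact ⟨aux s (ha.1.trans ha₀.1.symm), aux s' (ha.2.trans ha₀.2.symm)⟩

/-- If `r` commutes with infinitely many `P a`, then any element of its support commutes with
`p b` for some `b ≠ 0`. -/
lemma supp_commute {R Γ Λ : Type*} [CommRing R] [Group Γ] [Group Λ] (C : Coef Γ Λ)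
    (p : R → Γ) (P : R → Λ)
    (hp : ∀ a, C.Pt (p a) (P a)) (hpadd : ∀ a b, p (a + b) = p a * p b)
    {r : Λ} (hr : {a | P a * r = r * P a}.Infinite) {g : Γ} (hg : C.c g r ≠ 0) :
    ∃ b, b ≠ 0 ∧ g * p b = p b * g := by
  have : Infinite {a | P a * r = r * P a} := hr.to_subtype
  have key0 : ∀ a : R, P a * r = r * P a → ‖C.c (p a * g * (p a)⁻¹) r‖ = ‖C.c g r‖ := by
    intro a ha
    have h1 : P a * r * (P a)⁻¹ = r := by rw [ha]; group
    have h2 := (hp a).inv.mul_right (p a * g) (P a * r)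
    rw [h1] at h2
    rw [h2, (hp a).mul_left, norm_mul, norm_mul, (hp a).inv, hp a]
    simp
  have key : ∀ a : {a | P a * r = r * P a}, ‖C.swap.c r (p a.1 * g * (p a.1)⁻¹)‖ = ‖C.c g r‖ :=
    fun a => key0 a.1 a.2
  obtain ⟨t, ht⟩ := C.swap.exists_infinite_fiber r
    (fun a : {a | P a * r = r * P a} => p a.1 * g * (p a.1)⁻¹) (norm_pos_iff.mpr hg) key
  obtain ⟨a, ha, b, hb, hab⟩ := ht.nontrivial
  refine ⟨b.1 - a.1, ?_, ?_⟩
  · intro h
    apply hab
    exact Subtype.ext (by linear_combination -h)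
  · have e1 : p (b.1 - a.1) = (p a.1)⁻¹ * p b.1 := by
      have := hpadd a.1 (b.1 - a.1)
      rw [add_sub_cancel] at this
      rw [this]; group
    have h1 : p a.1 * g * (p a.1)⁻¹ = p b.1 * g * (p b.1)⁻¹ := by
      exact (ha : _ = _).trans (hb : _ = _).symm
    rw [e1]
    have : g * (p a.1)⁻¹ * p b.1 = (p a.1)⁻¹ * p b.1 * g := by
      calc g * (p a.1)⁻¹ * p b.1 = (p a.1)⁻¹ * (p a.1 * g * (p a.1)⁻¹) * p b.1 := by group
        _ = _ := by rw [h1]; group
    rw [← mul_assoc]; exact this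

end Vale.Agent.P092
end
end

section

section

namespace Vale.Agent.P092

open scoped ComplexConjugate
open Filter

/-- An involution exchanging two commuting one-parameter groups of group-like elements. -/
structure WPair (R Γ Λ : Type*) [CommRing R] [Group Γ] [Group Λ] (C : Coef Γ Λ) where
  w : Γ
  p : R → Γ
  q : R → Γ
  P : R → Λ
  Q : R → Λ
  pt_p : ∀ a, C.Pt (p a) (P a)
  pt_q : ∀ a, C.Pt (q a) (Q a)
  p_add : ∀ a b, p (a + b) = p a * p b
  q_add : ∀ a b, q (a + b) = q a * q b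
  P_add : ∀ a b, P (a + b) = P a * P b
  Q_add : ∀ a b, Q (a + b) = Q a * Q b
  PQ : ∀ a b, P a * Q b = Q b * P a
  w_sq : w * w = 1
  w_p : ∀ a, w * p a * w = q (-a)
  w_q : ∀ a, w * q a * w = p (-a)
  cent : ∀ g a b, a ≠ 0 → b ≠ 0 → g * p a = p a * g → g * q b = q b * g →
    ∃ c d, g = p c * q d

namespace WPair

variable {R Γ Λ : Type*} [CommRing R] [Infinite R] [Group Γ] [Group Λ] {C : Coef Γ Λ}
  (W : WPair R Γ Λ C)

lemma w_inv : W.w⁻¹ = W.w := by rw [inv_eq_iff_mul_eq_one, W.w_sq]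

lemma wp (a : R) : W.q (-a) * W.w = W.w * W.p a := by
  rw [← W.w_p, mul_assoc, W.w_sq, mul_one]

lemma wq (a : R) : W.p (-a) * W.w = W.w * W.q a := by
  rw [← W.w_q, mul_assoc, W.w_sq, mul_one]

lemma PP (a b : R) : W.P a * W.P b = W.P b * W.P a := by
  rw [← W.P_add, ← W.P_add, add_comm]

lemma QQ (a b : R) : W.Q a * W.Q b = W.Q b * W.Q a := by
  rw [← W.Q_add, ← W.Q_add, add_comm]

/-- WA1 -/
lemma coset {s s' : Λ} (hs : C.c W.w s ≠ 0) (hs' : C.c W.w s' ≠ 0) :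
    ∃ c d, s' = s * (W.P c * W.Q d) := by
  have h1 := coset_commute C W.p (fun a => W.q (-a)) W.P (fun a => W.Q (-a)) W.pt_p
    (fun a => W.pt_q (-a)) W.P_add (fun a b => by rw [neg_add, W.Q_add]) W.wp hs hs'
  have h2 := coset_commute C W.q (fun a => W.p (-a)) W.Q (fun a => W.P (-a)) W.pt_q
    (fun a => W.pt_p (-a)) W.Q_add (fun a b => by rw [neg_add, W.P_add]) W.wq hs hs'
  have aux : ∀ (A B : R → Λ), {a | A a * s = s * B a ∧ A a * s' = s' * B a}.Infinite →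
      {a | B a * (s⁻¹ * s') = (s⁻¹ * s') * B a}.Infinite := by
    intro A B h
    refine h.mono ?_
    rintro a ⟨e1, e2⟩
    have e3 : B a = s⁻¹ * (A a * s) := by rw [e1]; group
    have e4 : s' * B a = A a * s' := e2.symm
    change B a * (s⁻¹ * s') = (s⁻¹ * s') * B a
    calc B a * (s⁻¹ * s') = s⁻¹ * (A a * s) * (s⁻¹ * s') := by rw [← e3]
      _ = s⁻¹ * (A a * s') := by group
      _ = (s⁻¹ * s') * B a := by rw [← e4]; group
  obtain ⟨g, hg⟩ := C.swap.row_ne_zero (s⁻¹ * s')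
  obtain ⟨a, ha, hga⟩ := supp_commute C W.p W.P W.pt_p W.p_add (aux _ _ h1) hg
  obtain ⟨b, hb, hgb⟩ := supp_commute C W.q W.Q W.pt_q W.q_add (aux _ _ h2) hg
  obtain ⟨c, d, rfl⟩ := W.cent g a b ha hb hga hgb
  refine ⟨c, d, ?_⟩
  have := ((W.pt_p c).mul (W.pt_q d)).eq_of_ne_zero hg
  rw [← this]; group

/-- exact relation -/
lemma exact_aux {k k' : Γ} {r r' : Λ} (hk : C.Pt k r) (hk' : C.Pt k' r') (hkw : k' * W.w = W.w * k)
    (hrc : ∀ c d, (W.P c * W.Q d) * r = r * (W.P c * W.Q d)) {s : Λ} (hs : C.c W.w s ≠ 0) :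
    r' * s = s * r := by
  -- r'⁻¹ s r is in the support
  have hinv : ∀ t, C.c W.w (r'⁻¹ * t * r) = (C.c k'⁻¹ r'⁻¹ * C.c k r) * C.c W.w t := by
    intro t
    have h1 : W.w = k'⁻¹ * W.w * k := by
      rw [mul_assoc, ← hkw]; group
    conv_lhs => rw [h1]
    rw [hk.mul_right, hk'.inv.mul_left]; ring
  set κ := C.c k'⁻¹ r'⁻¹ * C.c k r with hκ
  have hκ0 : κ ≠ 0 := mul_ne_zero hk'.inv.ne_zero hk.ne_zero
  have h2 : C.c W.w (r'⁻¹ * s * r) ≠ 0 := by rw [hinv]; exact mul_ne_zero hκ0 hs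
  obtain ⟨c, d, hcd⟩ := W.coset hs h2
  set l := W.P c * W.Q d with hl
  have hptl : C.Pt (W.p c * W.q d) l := (W.pt_p c).mul (W.pt_q d)
  have hcomm : ∀ a b, l * (W.P a * W.Q b) = (W.P a * W.Q b) * l := by
    intro a b
    rw [hl]
    calc W.P c * W.Q d * (W.P a * W.Q b) = W.P c * (W.Q d * W.P a) * W.Q b := by group
      _ = (W.P c * W.P a) * (W.Q d * W.Q b) := by rw [← W.PQ]; group
      _ = (W.P a * W.P c) * (W.Q b * W.Q d) := by rw [W.PP, W.QQ]
      _ = W.P a * (W.P c * W.Q b) * W.Q d := by group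
      _ = _ := by rw [W.PQ]; group
  have hmain : ∀ t, C.c W.w (t * l) = κ * C.c W.w t := by
    have hcos : ∀ a b, C.c W.w (s * (W.P a * W.Q b) * l) = κ * C.c W.w (s * (W.P a * W.Q b)) := by
      intro a b
      rw [← hinv]
      congr 1
      calc s * (W.P a * W.Q b) * l = s * ((W.P a * W.Q b) * l) := by group
        _ = s * l * (W.P a * W.Q b) := by rw [← hcomm]; group
        _ = r'⁻¹ * s * (r * (W.P a * W.Q b)) := by rw [← hcd]; group
        _ = r'⁻¹ * s * ((W.P a * W.Q b) * r) := by rw [hrc]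
        _ = _ := by group
    intro t
    by_cases ht : C.c W.w t = 0
    · rw [ht, mul_zero]
      by_contra hne
      obtain ⟨a, b, hab⟩ := W.coset hs hne
      have h3 : t = s * (W.P a * W.Q b) * l⁻¹ := by rw [← hab]; group
      have h4 : t = s * (W.P (a - c) * W.Q (b - d)) := by
        have e1 : W.P a = W.P (a - c) * W.P c := by rw [← W.P_add]; congr 1; ring
        have e2 : W.Q b = W.Q (b - d) * W.Q d := by rw [← W.Q_add]; congr 1; ring
        rw [h3, hl, e1, e2]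
        calc s * (W.P (a - c) * W.P c * (W.Q (b - d) * W.Q d)) * (W.P c * W.Q d)⁻¹
            = s * (W.P (a - c) * (W.P c * W.Q (b - d)) * W.Q d) * (W.P c * W.Q d)⁻¹ := by group
          _ = s * (W.P (a - c) * W.Q (b - d)) * (W.P c * W.Q d) * (W.P c * W.Q d)⁻¹ := by
              rw [W.PQ]; group
          _ = _ := by group
      rw [h4] at hne ht
      rw [hcos, ht, mul_zero] at hne
      exact hne rfl
    · obtain ⟨a, b, rfl⟩ := W.coset hs ht
      exact hcos a b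
  -- orthogonality
  have hl1 : W.w * (W.p c * W.q d) = W.w := by
    by_contra hne
    have h5 := C.row_orth (g := W.w) (g' := W.w * (W.p c * W.q d)) (Ne.symm hne)
    have h6 := (Equiv.mulRight l).hasSum_iff.mpr h5
    have h7 : HasSum (fun t => (conj κ * C.c (W.p c * W.q d) l) * (conj (C.c W.w t) * C.c W.w t))
        ((conj κ * C.c (W.p c * W.q d) l) * 1) := (C.row_self W.w).mul_left _
    have h8 : ((fun t => conj (C.c W.w t) * C.c (W.w * (W.p c * W.q d)) t) ∘ (Equiv.mulRight l)) =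
        (fun t => (conj κ * C.c (W.p c * W.q d) l) * (conj (C.c W.w t) * C.c W.w t)) := by
      funext t
      simp only [Function.comp, Equiv.coe_mulRight]
      rw [hmain, hptl.mul_right, map_mul]; ring
    rw [h8] at h6
    have h9 := h6.unique h7
    rw [mul_one] at h9
    exact mul_ne_zero ((map_ne_zero _).mpr hκ0) hptl.ne_zero h9.symm
  have hl2 : W.p c * W.q d = 1 := by
    exact mul_eq_left.mp hl1
  rw [hl2] at hptl
  have hl3 : l = 1 := C.pt_one.eq_of_ne_zero hptl.ne_zero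
  rw [hl3, mul_one] at hcd
  rw [← mul_right_inj (r'⁻¹), ← mul_assoc, inv_mul_cancel, one_mul, ← mul_assoc, hcd]

/-- WA2 -/
lemma exact_P {s : Λ} (hs : C.c W.w s ≠ 0) (a : R) : W.Q (-a) * s = s * W.P a := by
  refine W.exact_aux (W.pt_p a) (W.pt_q (-a)) (W.wp a) ?_ hs
  intro c d
  calc W.P c * W.Q d * W.P a = W.P c * (W.Q d * W.P a) := by group
    _ = W.P c * W.P a * W.Q d := by rw [← W.PQ]; group
    _ = _ := by rw [W.PP]; group

lemma exact_Q {s : Λ} (hs : C.c W.w s ≠ 0) (a : R) : W.P (-a) * s = s * W.Q a := by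
  refine W.exact_aux (W.pt_q a) (W.pt_p (-a)) (W.wq a) ?_ hs
  intro c d
  calc W.P c * W.Q d * W.Q a = W.P c * (W.Q d * W.Q a) := by group
    _ = W.P c * W.Q a * W.Q d := by rw [W.QQ]; group
    _ = _ := by rw [W.PQ]; group

/-- WA3 -/
lemma coset' {s : Λ} (hs : C.c W.w s ≠ 0) {g : Γ} (hg : C.c g s ≠ 0) :
    ∃ c d, g = W.w * (W.p c * W.q d) := by
  have h1 := coset_commute C.swap (g := s) W.P (fun a => W.Q (-a)) W.p (fun a => W.q (-a)) W.pt_p
    (fun a => W.pt_q (-a)) W.p_add (fun a b => by rw [neg_add, W.q_add])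
    (fun a => W.exact_P hs a) (s := W.w) (s' := g) hs hg
  have h2 := coset_commute C.swap (g := s) W.Q (fun a => W.P (-a)) W.q (fun a => W.p (-a)) W.pt_q
    (fun a => W.pt_p (-a)) W.q_add (fun a b => by rw [neg_add, W.p_add])
    (fun a => W.exact_Q hs a) (s := W.w) (s' := g) hs hg
  have aux : ∀ (A B : R → Γ), {a | A a * W.w = W.w * B a ∧ A a * g = g * B a}.Infinite →
      ∃ a, a ≠ 0 ∧ (W.w⁻¹ * g) * B a = B a * (W.w⁻¹ * g) := by
    intro A B h
    obtain ⟨a, ha, ha0⟩ := (h.diff (Set.finite_singleton (0 : R))).nonempty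
    refine ⟨a, fun h => ha0 h, ?_⟩
    obtain ⟨e1, e2⟩ := ha
    have e3 : B a = W.w⁻¹ * (A a * W.w) := by rw [e1]; group
    calc (W.w⁻¹ * g) * B a = W.w⁻¹ * (A a * g) := by rw [e2]; group
      _ = W.w⁻¹ * (A a * W.w) * (W.w⁻¹ * g) := by group
      _ = _ := by rw [← e3]
  obtain ⟨a, ha, hga⟩ := aux _ _ h1
  obtain ⟨b, hb, hgb⟩ := aux _ _ h2
  obtain ⟨c, d, hcd⟩ := W.cent _ a b ha hb hga hgb
  exact ⟨c, d, by rw [← hcd]; group⟩

end WPair

end Vale.Agent.P092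
end
end

section

section

namespace Vale.Agent.P092

open scoped ComplexConjugate InnerProductSpace ENNReal

theorem rank_one_aux {R H : Type*} [NormedAddCommGroup H] [InnerProductSpace ℂ H]
    (A B : R → H) (ξ : R → R → ℂ)
    (sA : Summable (fun m => ‖A m‖ ^ 2)) (tA : ∑' m, ‖A m‖ ^ 2 ≤ 1)
    (sB : Summable (fun m => ‖B m‖ ^ 2)) (tB : ∑' m, ‖B m‖ ^ 2 ≤ 1)
    (hξ : HasSum (fun p : R × R => ‖ξ p.1 p.2‖ ^ 2) 1)
    (inn : ∀ m n, ⟪A m, B n⟫_ℂ = ξ m n) :
    ∃ f g : R → ℂ, ∀ m n, ξ m n = f m * g n := by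
  have sAB : Summable (fun p : R × R => ‖A p.1‖ ^ 2 * ‖B p.2‖ ^ 2) :=
    sA.mul_of_nonneg sB (fun _ => by positivity) (fun _ => by positivity)
  have tAB : ∑' p : R × R, ‖A p.1‖ ^ 2 * ‖B p.2‖ ^ 2 ≤ 1 := by
    rw [← sA.tsum_mul_tsum sB sAB]
    have h0 : 0 ≤ ∑' n, ‖B n‖ ^ 2 := tsum_nonneg (fun _ => by positivity)
    have h1 : 0 ≤ ∑' n, ‖A n‖ ^ 2 := tsum_nonneg (fun _ => by positivity)
    nlinarith
  have hle : ∀ p : R × R, ‖ξ p.1 p.2‖ ^ 2 ≤ ‖A p.1‖ ^ 2 * ‖B p.2‖ ^ 2 := by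
    intro p
    rw [← inn, ← mul_pow]
    have := norm_inner_le_norm (𝕜 := ℂ) (A p.1) (B p.2)
    gcongr
  have hdiff := sAB.hasSum.sub hξ
  have hdiff0 : ∑' p : R × R, ‖A p.1‖ ^ 2 * ‖B p.2‖ ^ 2 - 1 = 0 := by
    have := hdiff.nonneg (fun p => sub_nonneg.mpr (hle p))
    linarith
  rw [hdiff0] at hdiff
  have hz := (hasSum_zero_iff_of_nonneg (fun p => sub_nonneg.mpr (hle p))).1 hdiff
  have heq : ∀ m n, ‖ξ m n‖ = ‖A m‖ * ‖B n‖ := by
    intro m n
    have := congrFun hz (m, n)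
    simp only [Pi.zero_apply] at this
    have h1 : ‖ξ m n‖ ^ 2 = (‖A m‖ * ‖B n‖) ^ 2 := by rw [mul_pow]; linarith
    exact (pow_left_inj₀ (norm_nonneg _) (by positivity) (by norm_num)).1 h1
  -- choose n₀
  have hex : ∃ n₀, B n₀ ≠ 0 := by
    by_contra hcon
    push Not at hcon
    have : ∀ p : R × R, ‖ξ p.1 p.2‖ ^ 2 = 0 := by
      intro p; rw [heq, hcon]; simp
    have h0 : HasSum (fun p : R × R => ‖ξ p.1 p.2‖ ^ 2) 0 := by
      simp only [this]; exact hasSum_zero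
    exact one_ne_zero (hξ.unique h0)
  obtain ⟨n₀, hn₀⟩ := hex
  have hprop : ∀ m, ∃ r : ℂ, A m = r • B n₀ := by
    intro m
    by_cases hA : A m = 0
    · exact ⟨0, by rw [hA]; simp⟩
    · have h1 : ‖⟪B n₀, A m⟫_ℂ‖ = ‖B n₀‖ * ‖A m‖ := by
        rw [norm_inner_symm, inn, heq, mul_comm]
      obtain ⟨r, -, hr⟩ := (norm_inner_eq_norm_iff hn₀ hA).1 h1
      exact ⟨r, hr⟩
  choose r hr using hprop
  refine ⟨fun m => conj (r m), fun n => ⟪B n₀, B n⟫_ℂ, ?_⟩
  intro m n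
  rw [← inn, hr, inner_smul_left]

/-- the vector of `ℓ²` with given coordinates -/
noncomputable def mkL2 {R : Type*} (f : R → ℂ) (h : Summable (fun b => ‖f b‖ ^ 2)) :
    lp (fun _ : R => ℂ) 2 :=
  ⟨f, memℓp_gen (by simpa using h)⟩

lemma norm_mkL2 {R : Type*} (f : R → ℂ) (h : Summable (fun b => ‖f b‖ ^ 2)) :
    ‖mkL2 f h‖ ^ 2 = ∑' b, ‖f b‖ ^ 2 := by
  have := lp.norm_rpow_eq_tsum (p := 2) (by norm_num) (mkL2 f h)
  simpa [mkL2] using this

lemma hasSum_inner_mkL2 {R : Type*} (f g : R → ℂ) (hf : Summable (fun b => ‖f b‖ ^ 2))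
    (hg : Summable (fun b => ‖g b‖ ^ 2)) :
    HasSum (fun b => conj (f b) * g b) ⟪mkL2 f hf, mkL2 g hg⟫_ℂ := by
  have h1 := lp.hasSum_inner (𝕜 := ℂ) (mkL2 f hf) (mkL2 g hg)
  have e : (fun i => ⟪mkL2 f hf i, mkL2 g hg i⟫_ℂ) = fun b => conj (f b) * g b := by
    funext b
    simp [mkL2, mul_comm]
  rw [e] at h1
  exact h1

/-- Equality in Cauchy-Schwarz forces a product of Hilbert-Schmidt matrices of norm at most one,
with product of norm one, to have rank one. -/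
theorem rank_one {R : Type*} (α E ξ : R → R → ℂ)
    (hα : Summable (fun p : R × R => ‖α p.1 p.2‖ ^ 2))
    (hα1 : ∑' p : R × R, ‖α p.1 p.2‖ ^ 2 ≤ 1)
    (hE : Summable (fun p : R × R => ‖E p.1 p.2‖ ^ 2))
    (hE1 : ∑' p : R × R, ‖E p.1 p.2‖ ^ 2 ≤ 1)
    (hξ : HasSum (fun p : R × R => ‖ξ p.1 p.2‖ ^ 2) 1)
    (hsum : ∀ m n, HasSum (fun b => α m b * E b n) (ξ m n)) :
    ∃ f g : R → ℂ, ∀ m n, ξ m n = f m * g n := by
  have hE' : Summable (fun p : R × R => ‖E p.2 p.1‖ ^ 2) :=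
    (Equiv.prodComm R R).summable_iff.mpr hE
  have hE1' : ∑' p : R × R, ‖E p.2 p.1‖ ^ 2 ≤ 1 := by
    rw [← (Equiv.prodComm R R).tsum_eq] at hE1
    exact hE1
  have memA : ∀ m, Summable (fun b => ‖conj (α m b)‖ ^ 2) := by
    intro m
    simp only [Complex.norm_conj]
    exact hα.prod_factor m
  have memE : ∀ n, Summable (fun b => ‖E b n‖ ^ 2) := fun n => hE'.prod_factor n
  have normA : ∀ m, ‖mkL2 _ (memA m)‖ ^ 2 = ∑' b, ‖α m b‖ ^ 2 := by
    intro m
    rw [norm_mkL2]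
    simp only [Complex.norm_conj]
  have normB : ∀ n, ‖mkL2 _ (memE n)‖ ^ 2 = ∑' b, ‖E b n‖ ^ 2 := fun n => norm_mkL2 _ _
  refine rank_one_aux (fun m => mkL2 _ (memA m)) (fun n => mkL2 _ (memE n)) ξ ?_ ?_ ?_ ?_ hξ ?_
  · simp only [normA]; exact hα.prod
  · simp only [normA]
    rw [← hα.tsum_prod]; exact hα1
  · simp only [normB]; exact hE'.prod
  · simp only [normB]
    rw [← hE'.tsum_prod]; exact hE1'
  · intro m n
    have h1 := hasSum_inner_mkL2 _ _ (memA m) (memE n)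
    simp only [Complex.conj_conj] at h1
    exact h1.unique (hsum m n)

/-- A product of two summable families with zero sum over pairs. -/
lemma sum_zero_of_mul {R : Type*} {F G : R → ℂ} {a : ℂ} (hF : HasSum F a)
    (hFn : Summable (fun m => ‖F m‖)) (hGn : Summable (fun m => ‖G m‖)) (ha : a ≠ 0)
    (h : HasSum (fun p : R × R => F p.1 * G p.2) 0) : HasSum G 0 := by
  have h1 := tsum_mul_tsum_of_summable_norm hFn hGn
  rw [h.tsum_eq, hF.tsum_eq] at h1
  have h2 : ∑' y, G y = 0 := by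
    rcases mul_eq_zero.mp h1 with h | h
    · exact absurd h ha
    · exact h
  rw [← h2]
  exact (summable_norm_iff.mp hGn).hasSum

end Vale.Agent.P092
end
end

section

section

namespace Vale.Agent.P092

open scoped ComplexConjugate
open Filter

section triple

variable {R G : Type*} [CommRing R] [Group G]

/-- the rewriting formula of the big cell -/
lemma triple_formula (P P' Q : R → G) (s s' s'' : G)
    (P_add : ∀ a b, P (a + b) = P a * P b)
    (e1 : ∀ a, Q (-a) * s = s * P a) (e2 : ∀ a, P (-a) * s = s * Q a)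
    (e3 : ∀ a, Q (-a) * s' = s' * P' a)
    (_ : ∀ a, P (-a) * s'' = s'' * Q a) (e5 : ∀ a, Q (-a) * s'' = s'' * P a)
    (α β γ ε μ ν : R) :
    (s * (P α * Q β)) * (s' * (P' γ * Q ε)) * (s'' * (P μ * Q ν)) =
      (Q (-α) * P (γ - β)) * (s * s' * s'') * (P (μ - ε) * Q ν) := by
  have f1 : s * Q (-γ) = P γ * s := by
    have := e2 (-γ); rw [neg_neg] at this; exact this.symm
  have f2 : Q ε * s'' = s'' * P (-ε) := by
    have := e5 (-ε); rw [neg_neg] at this; exact this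
  calc (s * (P α * Q β)) * (s' * (P' γ * Q ε)) * (s'' * (P μ * Q ν))
      = (s * P α) * Q β * (s' * P' γ) * (Q ε * s'') * P μ * Q ν := by group
    _ = Q (-α) * (s * Q β) * Q (-γ) * s' * s'' * (P (-ε) * P μ) * Q ν := by
        rw [← e1, ← e3, f2]; group
    _ = Q (-α) * P (-β) * (s * Q (-γ)) * s' * s'' * P (-ε + μ) * Q ν := by
        rw [← e2, ← P_add]; group
    _ = Q (-α) * (P (-β) * P γ) * s * s' * s'' * P (-ε + μ) * Q ν := by
        rw [f1]; group
    _ = _ := by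
        rw [← P_add, show -β + γ = γ - β by ring, show -ε + μ = μ - ε by ring]; group

end triple

namespace SL3Data

variable {R Γ Λ : Type*} [CommRing R] [Infinite R] [Group Γ] [Group Λ] {C : Coef Γ Λ}
  (S : SL3Data R Γ) (T : PtHeis R Γ Λ C S.toHeis)

/-- the pair of `w₁` -/
def W1 : WPair R Γ Λ C where
  w := S.w1
  p := S.x
  q := S.z
  P := T.L.x
  Q := T.L.z
  pt_p := T.px
  pt_q := T.pz
  p_add := S.x_add
  q_add := S.z_add
  P_add := T.L.x_add
  Q_add := T.L.z_add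
  PQ := fun a b => (T.L.z_x b a).symm
  w_sq := S.w1_sq
  w_p := S.w1_x
  w_q := S.w1_z
  cent := S.cent1

/-- the pair of `w₂` -/
def W2 : WPair R Γ Λ C where
  w := S.w2
  p := S.y
  q := S.z
  P := T.L.y
  Q := T.L.z
  pt_p := T.py
  pt_q := T.pz
  p_add := S.y_add
  q_add := S.z_add
  P_add := T.L.y_add
  Q_add := T.L.z_add
  PQ := fun a b => (T.L.z_y b a).symm
  w_sq := S.w2_sq
  w_p := S.w2_y
  w_q := S.w2_z
  cent := S.cent2

/-- the longest Weyl element -/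
def w0 : Γ := S.w1 * S.w2 * S.w1

omit [Infinite R] in
lemma w0_eq : S.w0 = S.w2 * S.w1 * S.w2 := S.braid

omit [Infinite R] in
lemma w0_inv : S.w0⁻¹ = S.w0 := by
  rw [inv_eq_iff_mul_eq_one, w0]
  calc S.w1 * S.w2 * S.w1 * (S.w1 * S.w2 * S.w1) = S.w1 * S.w2 * (S.w1 * S.w1) * S.w2 * S.w1 := by
        group
    _ = S.w1 * (S.w2 * S.w2) * S.w1 := by rw [S.w1_sq]; group
    _ = 1 := by rw [S.w2_sq, mul_one, S.w1_sq]

omit [Infinite R] in
lemma decomp1 {t : Λ} (ht : C.c S.w0 t ≠ 0) : ∃ s s' s'', t = s * s' * s'' ∧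
    C.c S.w1 s ≠ 0 ∧ C.c S.w2 s' ≠ 0 ∧ C.c S.w1 s'' ≠ 0 := by
  obtain ⟨u, hu, hu'⟩ := C.exists_of_mul_ne_zero ht
  obtain ⟨v, hv, hv'⟩ := C.exists_of_mul_ne_zero hu
  exact ⟨v, v⁻¹ * u, u⁻¹ * t, by group, hv, hv', hu'⟩

omit [Infinite R] in
lemma decomp2 {t : Λ} (ht : C.c S.w0 t ≠ 0) : ∃ s s' s'', t = s * s' * s'' ∧
    C.c S.w2 s ≠ 0 ∧ C.c S.w1 s' ≠ 0 ∧ C.c S.w2 s'' ≠ 0 := by
  rw [S.w0_eq] at ht
  obtain ⟨u, hu, hu'⟩ := C.exists_of_mul_ne_zero ht
  obtain ⟨v, hv, hv'⟩ := C.exists_of_mul_ne_zero hu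
  exact ⟨v, v⁻¹ * u, u⁻¹ * t, by group, hv, hv', hu'⟩

lemma triple1 {s s' s'' : Λ} (h : C.c S.w1 s ≠ 0) (h' : C.c S.w2 s' ≠ 0) (h'' : C.c S.w1 s'' ≠ 0)
    (α β γ ε μ ν : R) :
    (s * (T.L.x α * T.L.z β)) * (s' * (T.L.y γ * T.L.z ε)) * (s'' * (T.L.x μ * T.L.z ν)) =
      (T.L.z (-α) * T.L.x (γ - β)) * (s * s' * s'') * (T.L.x (μ - ε) * T.L.z ν) :=
  triple_formula T.L.x T.L.y T.L.z s s' s'' T.L.x_add ((W1 S T).exact_P h) ((W1 S T).exact_Q h)
    ((W2 S T).exact_P h') ((W1 S T).exact_Q h'') ((W1 S T).exact_P h'') α β γ ε μ ν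

lemma triple2 {s s' s'' : Λ} (h : C.c S.w2 s ≠ 0) (h' : C.c S.w1 s' ≠ 0) (h'' : C.c S.w2 s'' ≠ 0)
    (α β γ ε μ ν : R) :
    (s * (T.L.y α * T.L.z β)) * (s' * (T.L.x γ * T.L.z ε)) * (s'' * (T.L.y μ * T.L.z ν)) =
      (T.L.z (-α) * T.L.y (γ - β)) * (s * s' * s'') * (T.L.y (μ - ε) * T.L.z ν) :=
  triple_formula T.L.y T.L.x T.L.z s s' s'' T.L.y_add ((W2 S T).exact_P h) ((W2 S T).exact_Q h)
    ((W1 S T).exact_P h') ((W2 S T).exact_Q h'') ((W2 S T).exact_P h'') α β γ ε μ ν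

omit [Infinite R] in
lemma triple1' (α β γ ε μ ν : R) :
    (S.w1 * (S.x α * S.z β)) * (S.w2 * (S.y γ * S.z ε)) * (S.w1 * (S.x μ * S.z ν)) =
      (S.z (-α) * S.x (γ - β)) * S.w0 * (S.x (μ - ε) * S.z ν) := by
  have h1 : ∀ a, S.z (-a) * S.w1 = S.w1 * S.x a := fun a => by
    rw [← S.w1_x, mul_assoc, S.w1_sq, mul_one]
  have h2 : ∀ a, S.x (-a) * S.w1 = S.w1 * S.z a := fun a => by
    rw [← S.w1_z, mul_assoc, S.w1_sq, mul_one]
  have h3 : ∀ a, S.z (-a) * S.w2 = S.w2 * S.y a := fun a => by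
    rw [← S.w2_y, mul_assoc, S.w2_sq, mul_one]
  exact triple_formula S.x S.y S.z S.w1 S.w2 S.w1 S.x_add h1 h2 h3 h2 h1 α β γ ε μ ν

omit [Infinite R] in
lemma triple2' (α β γ ε μ ν : R) :
    (S.w2 * (S.y α * S.z β)) * (S.w1 * (S.x γ * S.z ε)) * (S.w2 * (S.y μ * S.z ν)) =
      (S.z (-α) * S.y (γ - β)) * S.w0 * (S.y (μ - ε) * S.z ν) := by
  have h1 : ∀ a, S.z (-a) * S.w1 = S.w1 * S.x a := fun a => by
    rw [← S.w1_x, mul_assoc, S.w1_sq, mul_one]
  have h3 : ∀ a, S.z (-a) * S.w2 = S.w2 * S.y a := fun a => by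
    rw [← S.w2_y, mul_assoc, S.w2_sq, mul_one]
  have h4 : ∀ a, S.y (-a) * S.w2 = S.w2 * S.z a := fun a => by
    rw [← S.w2_z, mul_assoc, S.w2_sq, mul_one]
  rw [S.w0_eq]
  exact triple_formula S.y S.x S.z S.w2 S.w1 S.w2 S.y_add h3 h4 h1 h4 h3 α β γ ε μ ν

include T in
/-- The column of an element of the support of `w₀` is supported in the big cell (`A`-form). -/
lemma col1 {t : Λ} (ht : C.c S.w0 t ≠ 0) {g : Γ} (hg : C.c g t ≠ 0) :
    ∃ a b c d, g = (S.z a * S.x b) * S.w0 * (S.x c * S.z d) := by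
  obtain ⟨s, s', s'', rfl, h, h', h''⟩ := S.decomp1 ht
  obtain ⟨u, hu, hu'⟩ := C.exists_of_mul_ne_zero' hg
  obtain ⟨v, hv, hv'⟩ := C.exists_of_mul_ne_zero' hu
  obtain ⟨c1, d1, e1⟩ := (W1 S T).coset' h hv
  obtain ⟨c2, d2, e2⟩ := (W2 S T).coset' h' hv'
  obtain ⟨c3, d3, e3⟩ := (W1 S T).coset' h'' hu'
  refine ⟨-c1, c2 - d1, c3 - d2, d3, ?_⟩
  rw [← triple1' S c1 d1 c2 d2 c3 d3]
  change v = S.w1 * (S.x c1 * S.z d1) at e1
  change v⁻¹ * u = S.w2 * (S.y c2 * S.z d2) at e2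
  change u⁻¹ * g = S.w1 * (S.x c3 * S.z d3) at e3
  rw [← e1, ← e2, ← e3]; group

include T in
lemma col2 {t : Λ} (ht : C.c S.w0 t ≠ 0) {g : Γ} (hg : C.c g t ≠ 0) :
    ∃ a b c d, g = (S.z a * S.y b) * S.w0 * (S.y c * S.z d) := by
  obtain ⟨s, s', s'', rfl, h, h', h''⟩ := S.decomp2 ht
  obtain ⟨u, hu, hu'⟩ := C.exists_of_mul_ne_zero' hg
  obtain ⟨v, hv, hv'⟩ := C.exists_of_mul_ne_zero' hu
  obtain ⟨c1, d1, e1⟩ := (W2 S T).coset' h hv
  obtain ⟨c2, d2, e2⟩ := (W1 S T).coset' h' hv'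
  obtain ⟨c3, d3, e3⟩ := (W2 S T).coset' h'' hu'
  refine ⟨-c1, c2 - d1, c3 - d2, d3, ?_⟩
  rw [← triple2' S c1 d1 c2 d2 c3 d3]
  change v = S.w2 * (S.y c1 * S.z d1) at e1
  change v⁻¹ * u = S.w1 * (S.x c2 * S.z d2) at e2
  change u⁻¹ * g = S.w2 * (S.y c3 * S.z d3) at e3
  rw [← e1, ← e2, ← e3]; group

include T in
/-- Freeness of the two-sided action of `U` on points of the support of `w₀`. -/
lemma free {t : Λ} (ht : C.c S.w0 t ≠ 0) {k k' : Γ} {κ κ' : Λ} (hk : k ∈ S.toHeis.U)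
    (hk' : k' ∈ S.toHeis.U) (hκ : C.Pt k κ) (hκ' : C.Pt k' κ') (hmain : κ * t * κ' = t) :
    k = 1 ∧ k' = 1 := by
  have h1 : C.c (k * S.w0 * k') t ≠ 0 := by
    rw [← hmain, hκ'.mul_right, hκ.mul_left]
    exact mul_ne_zero (mul_ne_zero hκ.ne_zero ht) hκ'.ne_zero
  obtain ⟨a, b, c, d, e⟩ := S.col1 T ht h1
  obtain ⟨a', b', c', d', e'⟩ := S.col2 T ht h1
  have m1 : ∀ a b : R, S.z a * S.x b ∈ S.toHeis.U := fun a b =>
    S.toHeis.U.mul_mem (S.toHeis.z_mem a) (S.toHeis.x_mem b)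
  have m2 : ∀ a b : R, S.x a * S.z b ∈ S.toHeis.U := fun a b =>
    S.toHeis.U.mul_mem (S.toHeis.x_mem a) (S.toHeis.z_mem b)
  have m3 : ∀ a b : R, S.z a * S.y b ∈ S.toHeis.U := fun a b =>
    S.toHeis.U.mul_mem (S.toHeis.z_mem a) (S.toHeis.y_mem b)
  have m4 : ∀ a b : R, S.y a * S.z b ∈ S.toHeis.U := fun a b =>
    S.toHeis.U.mul_mem (S.toHeis.y_mem a) (S.toHeis.z_mem b)
  obtain ⟨f1, f2⟩ := S.bruhat _ _ _ _ hk hk' (m1 a b) (m2 c d) e
  obtain ⟨f3, f4⟩ := S.bruhat _ _ _ _ hk hk' (m3 a' b') (m4 c' d') e'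
  have g1 : S.z a * S.x b * S.y 0 = S.z a' * S.x 0 * S.y b' := by
    rw [S.toHeis.y_zero, S.toHeis.x_zero, mul_one, mul_one, ← f1, f3]
  obtain ⟨hb, -, -⟩ := S.toHeis.form_inj g1
  have g2 : S.z d * S.x c * S.y 0 = S.z d' * S.x 0 * S.y c' := by
    rw [S.toHeis.y_zero, S.toHeis.x_zero, mul_one, mul_one, S.z_x, ← f2, f4, S.z_y]
  obtain ⟨hc, -, -⟩ := S.toHeis.form_inj g2
  rw [hb, S.toHeis.x_zero, mul_one] at f1
  rw [hc, S.toHeis.x_zero, one_mul] at f2
  subst f1 f2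
  -- values
  have v1 : κ = T.L.z a := (T.pz a).eq_of_ne_zero hκ.ne_zero
  have v2 : κ' = T.L.z d := (T.pz d).eq_of_ne_zero hκ'.ne_zero
  subst v1 v2
  obtain ⟨s, s', s'', rfl, h, h', h''⟩ := S.decomp1 ht
  have r1 : T.L.z a * s = s * T.L.x (-a) := by
    have := (W1 S T).exact_P h (-a); rw [neg_neg] at this; exact this
  have r2 : s'' * T.L.z d = T.L.x (-d) * s'' := ((W1 S T).exact_Q h'' d).symm
  have r3 : T.L.x (-a) * s' * T.L.x (-d) = s' := by
    have q1 : s * (T.L.x (-a) * s' * T.L.x (-d)) * s'' = s * s' * s'' := by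
      calc s * (T.L.x (-a) * s' * T.L.x (-d)) * s''
          = (s * T.L.x (-a)) * s' * (T.L.x (-d) * s'') := by group
        _ = T.L.z a * (s * s' * s'') * T.L.z d := by rw [← r1, ← r2]; group
        _ = _ := hmain
    exact mul_left_cancel (mul_right_cancel q1)
  have r4 : C.c (S.x (-a) * S.w2 * S.x (-d)) s' ≠ 0 := by
    rw [← r3, (T.px _).mul_right, (T.px _).mul_left]
    exact mul_ne_zero (mul_ne_zero (T.px _).ne_zero h') (T.px _).ne_zero
  obtain ⟨c1, d1, e1⟩ := (W2 S T).coset' h' r4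
  change S.x (-a) * S.w2 * S.x (-d) = S.w2 * (S.y c1 * S.z d1) at e1
  have e2 : S.w2 * S.x (-a) * S.w2 * S.x (-d) = S.y c1 * S.z d1 := by
    calc S.w2 * S.x (-a) * S.w2 * S.x (-d) = S.w2 * (S.x (-a) * S.w2 * S.x (-d)) := by group
      _ = (S.w2 * S.w2) * (S.y c1 * S.z d1) := by rw [e1]; group
      _ = _ := by rw [S.w2_sq, one_mul]
  obtain ⟨e3, e4⟩ := S.opp _ _ _ _ e2
  rw [neg_eq_zero] at e3 e4
  rw [e3, e4, S.toHeis.z_zero]
  exact ⟨rfl, rfl⟩

/-- Two points of the support of `w₀`. -/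
lemma two_points {t t' : Λ} (ht : C.c S.w0 t ≠ 0) (ht' : C.c S.w0 t' ≠ 0) :
    ∃ a b, t' = T.L.z a * t * T.L.z b := by
  -- A-form
  have hA : ∃ a b c d, t' = (T.L.z a * T.L.x b) * t * (T.L.x c * T.L.z d) := by
    obtain ⟨s, s', s'', rfl, h, h', h''⟩ := S.decomp1 ht
    obtain ⟨r, r', r'', rfl, k, k', k''⟩ := S.decomp1 ht'
    obtain ⟨c1, d1, e1⟩ := (W1 S T).coset h k
    obtain ⟨c2, d2, e2⟩ := (W2 S T).coset h' k'
    obtain ⟨c3, d3, e3⟩ := (W1 S T).coset h'' k''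
    refine ⟨-c1, c2 - d1, c3 - d2, d3, ?_⟩
    rw [← triple1 S T h h' h'' c1 d1 c2 d2 c3 d3, e1, e2, e3]
    rfl
  have hB : ∃ a b c d, t' = (T.L.z a * T.L.y b) * t * (T.L.y c * T.L.z d) := by
    obtain ⟨s, s', s'', rfl, h, h', h''⟩ := S.decomp2 ht
    obtain ⟨r, r', r'', rfl, k, k', k''⟩ := S.decomp2 ht'
    obtain ⟨c1, d1, e1⟩ := (W2 S T).coset h k
    obtain ⟨c2, d2, e2⟩ := (W1 S T).coset h' k'
    obtain ⟨c3, d3, e3⟩ := (W2 S T).coset h'' k''
    refine ⟨-c1, c2 - d1, c3 - d2, d3, ?_⟩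
    rw [← triple2 S T h h' h'' c1 d1 c2 d2 c3 d3, e1, e2, e3]
    rfl
  obtain ⟨a, b, c, d, hA⟩ := hA
  obtain ⟨a', b', c', d', hB⟩ := hB
  have h1 : ((T.L.z a' * T.L.y b')⁻¹ * (T.L.z a * T.L.x b)) * t *
      ((T.L.x c * T.L.z d) * (T.L.y c' * T.L.z d')⁻¹) = t := by
    calc ((T.L.z a' * T.L.y b')⁻¹ * (T.L.z a * T.L.x b)) * t *
          ((T.L.x c * T.L.z d) * (T.L.y c' * T.L.z d')⁻¹)
        = (T.L.z a' * T.L.y b')⁻¹ * ((T.L.z a * T.L.x b) * t * (T.L.x c * T.L.z d)) *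
          (T.L.y c' * T.L.z d')⁻¹ := by group
      _ = t := by rw [← hA, hB]; group
  have p1 : C.Pt ((S.z a' * S.y b')⁻¹ * (S.z a * S.x b))
      ((T.L.z a' * T.L.y b')⁻¹ * (T.L.z a * T.L.x b)) :=
    ((T.pz a').mul (T.py b')).inv.mul ((T.pz a).mul (T.px b))
  have p2 : C.Pt ((S.x c * S.z d) * (S.y c' * S.z d')⁻¹)
      ((T.L.x c * T.L.z d) * (T.L.y c' * T.L.z d')⁻¹) :=
    ((T.px c).mul (T.pz d)).mul ((T.py c').mul (T.pz d')).inv
  have zm := S.toHeis.z_mem
  have xm := S.toHeis.x_mem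
  have ym := S.toHeis.y_mem
  obtain ⟨q1, q2⟩ := S.free T ht
    (S.toHeis.U.mul_mem (S.toHeis.U.inv_mem (S.toHeis.U.mul_mem (zm a') (ym b')))
      (S.toHeis.U.mul_mem (zm a) (xm b)))
    (S.toHeis.U.mul_mem (S.toHeis.U.mul_mem (xm c) (zm d))
      (S.toHeis.U.inv_mem (S.toHeis.U.mul_mem (ym c') (zm d')))) p1 p2 h1
  have g1 : S.z a' * S.x 0 * S.y b' = S.z a * S.x b * S.y 0 := by
    rw [S.toHeis.y_zero, S.toHeis.x_zero, mul_one, mul_one]
    exact (inv_mul_eq_one.mp q1)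
  have g2 : S.z d * S.x c * S.y 0 = S.z d' * S.x 0 * S.y c' := by
    rw [S.toHeis.y_zero, S.toHeis.x_zero, mul_one, mul_one, S.z_x, S.z_y]
    exact (mul_inv_eq_one.mp q2)
  obtain ⟨hb, -, -⟩ := S.toHeis.form_inj g1
  obtain ⟨hc, -, -⟩ := S.toHeis.form_inj g2
  refine ⟨a, d, ?_⟩
  rw [hA, ← hb, hc, T.L.x_zero]; group

end SL3Data

end Vale.Agent.P092
end
end

section

section

namespace Vale.Agent.P092

open scoped ComplexConjugate
open Filter

namespace SL3Data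

variable {R Γ Λ : Type*} [CommRing R] [Infinite R] [Group Γ] [Group Λ] {C : Coef Γ Λ}
  (S : SL3Data R Γ) (T : PtHeis R Γ Λ C S.toHeis)

include T in
/-- The map `(m, n) ↦ Z m * t * Z n` is injective. -/
lemma zz_inj {t : Λ} (ht : C.c S.w0 t ≠ 0) {m n m' n' : R}
    (h : T.L.z m * t * T.L.z n = T.L.z m' * t * T.L.z n') : m = m' ∧ n = n' := by
  have h1 : ((T.L.z m')⁻¹ * T.L.z m) * t * (T.L.z n * (T.L.z n')⁻¹) = t := by
    calc ((T.L.z m')⁻¹ * T.L.z m) * t * (T.L.z n * (T.L.z n')⁻¹)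
        = (T.L.z m')⁻¹ * (T.L.z m * t * T.L.z n) * (T.L.z n')⁻¹ := by group
      _ = t := by rw [h]; group
  obtain ⟨q1, q2⟩ := S.free T ht
    (S.toHeis.U.mul_mem (S.toHeis.U.inv_mem (S.toHeis.z_mem m')) (S.toHeis.z_mem m))
    (S.toHeis.U.mul_mem (S.toHeis.z_mem n) (S.toHeis.U.inv_mem (S.toHeis.z_mem n')))
    ((T.pz m').inv.mul (T.pz m)) ((T.pz n).mul (T.pz n').inv) h1
  exact ⟨(S.toHeis.z_inj (inv_mul_eq_one.mp q1)).symm, S.toHeis.z_inj (mul_inv_eq_one.mp q2)⟩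

/-- Support claim for `η = c (w₂ w₁)`. -/
lemma eta_claim {t s1 : Λ} (ht : C.c S.w0 t ≠ 0) (hs1 : C.c S.w1 s1 ≠ 0)
    (ht1 : C.c (S.w2 * S.w1) (s1⁻¹ * t) ≠ 0) {i j n : R}
    (h : C.c (S.w2 * S.w1) (T.L.z j * T.L.x i * (s1⁻¹ * t) * T.L.z n) ≠ 0) : i = 0 := by
  obtain ⟨a, ha, ha'⟩ := C.exists_of_mul_ne_zero ht1
  obtain ⟨b, hb, hb'⟩ := C.exists_of_mul_ne_zero h
  obtain ⟨γ, ε, e1⟩ := (W2 S T).coset ha hb
  obtain ⟨μ, ν, e2⟩ := (W1 S T).coset ha' hb'
  change b = a * (T.L.y γ * T.L.z ε) at e1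
  change b⁻¹ * (T.L.z j * T.L.x i * (s1⁻¹ * t) * T.L.z n) =
    a⁻¹ * (s1⁻¹ * t) * (T.L.x μ * T.L.z ν) at e2
  have h1 := triple1 S T hs1 ha ha' 0 0 γ ε μ ν
  rw [← e1, ← e2] at h1
  have r1 : s1 * T.L.z j = T.L.x (-j) * s1 := ((W1 S T).exact_Q hs1 j).symm
  have r2 : s1 * T.L.x i = T.L.z (-i) * s1 := ((W1 S T).exact_P hs1 i).symm
  have h2 : s1 * (T.L.x 0 * T.L.z 0) * b * (b⁻¹ * (T.L.z j * T.L.x i * (s1⁻¹ * t) * T.L.z n)) =
      T.L.x (-j) * T.L.z (-i) * t * T.L.z n := by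
    rw [T.L.x_zero, T.L.z_zero]
    calc s1 * (1 * 1) * b * (b⁻¹ * (T.L.z j * T.L.x i * (s1⁻¹ * t) * T.L.z n))
        = (s1 * T.L.z j) * T.L.x i * (s1⁻¹ * t) * T.L.z n := by group
      _ = T.L.x (-j) * (s1 * T.L.x i) * (s1⁻¹ * t) * T.L.z n := by rw [r1]; group
      _ = _ := by rw [r2]; group
  rw [h2] at h1
  have e3 : s1 * a * (a⁻¹ * (s1⁻¹ * t)) = t := by group
  rw [e3] at h1
  -- h1 : X(-j) Z(-i) t Z n = (Z (-0) * X (γ - 0)) * t * (X (μ - ε) * Z ν)
  have h3 : ((T.L.z (-0) * T.L.x (γ - 0))⁻¹ * (T.L.x (-j) * T.L.z (-i))) * t *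
      (T.L.z n * (T.L.x (μ - ε) * T.L.z ν)⁻¹) = t := by
    calc ((T.L.z (-0) * T.L.x (γ - 0))⁻¹ * (T.L.x (-j) * T.L.z (-i))) * t *
          (T.L.z n * (T.L.x (μ - ε) * T.L.z ν)⁻¹)
        = (T.L.z (-0) * T.L.x (γ - 0))⁻¹ * (T.L.x (-j) * T.L.z (-i) * t * T.L.z n) *
          (T.L.x (μ - ε) * T.L.z ν)⁻¹ := by group
      _ = t := by rw [h1]; group
  have zm := S.toHeis.z_mem
  have xm := S.toHeis.x_mem
  obtain ⟨q1, -⟩ := S.free T ht
    (S.toHeis.U.mul_mem (S.toHeis.U.inv_mem (S.toHeis.U.mul_mem (zm (-0)) (xm (γ - 0))))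
      (S.toHeis.U.mul_mem (xm (-j)) (zm (-i))))
    (S.toHeis.U.mul_mem (zm n) (S.toHeis.U.inv_mem (S.toHeis.U.mul_mem (xm (μ - ε)) (zm ν))))
    (((T.pz (-0)).mul (T.px (γ - 0))).inv.mul ((T.px (-j)).mul (T.pz (-i))))
    ((T.pz n).mul ((T.px (μ - ε)).mul (T.pz ν)).inv) h3
  have q2 := inv_mul_eq_one.mp q1
  rw [neg_zero, sub_zero, ← S.z_x] at q2
  have q3 : S.z 0 * S.x γ * S.y 0 = S.z (-i) * S.x (-j) * S.y 0 := by
    rw [S.toHeis.y_zero, mul_one, mul_one]; exact q2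
  obtain ⟨-, -, h4⟩ := S.toHeis.form_inj q3
  exact (neg_eq_zero.mp h4.symm)

omit [Infinite R] in
lemma xz_eq (L : Heis R Λ) {a b c d : R} (h : L.x a * L.z b = L.x c * L.z d) : a = c ∧ b = d := by
  have : L.z b * L.x a * L.y 0 = L.z d * L.x c * L.y 0 := by
    rw [L.y_zero, mul_one, mul_one, L.z_x, L.z_x, h]
  obtain ⟨h1, -, h2⟩ := L.form_inj this
  exact ⟨h1, h2⟩

/-- The row of `w₀` has rank one. -/
lemma rank_one_w0 {t : Λ} (ht : C.c S.w0 t ≠ 0) :
    HasSum (fun p : R × R => ‖C.c S.w0 (T.L.z p.1 * t * T.L.z p.2)‖ ^ 2) 1 ∧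
    ∃ f g : R → ℂ, ∀ m n, C.c S.w0 (T.L.z m * t * T.L.z n) = f m * g n := by
  have hξ : HasSum (fun p : R × R => ‖C.c S.w0 (T.L.z p.1 * t * T.L.z p.2)‖ ^ 2) 1 := by
    have hinj : Function.Injective (fun p : R × R => T.L.z p.1 * t * T.L.z p.2) := by
      intro p q h
      obtain ⟨h1, h2⟩ := S.zz_inj T ht h
      exact Prod.ext h1 h2
    have h1 := (hinj.hasSum_iff (f := fun s => ‖C.c S.w0 s‖ ^ 2) (a := 1) (by
      intro s hs
      by_contra hne
      apply hs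
      have : C.c S.w0 s ≠ 0 := by
        intro h0; apply hne; rw [h0]; simp
      obtain ⟨a, b, e⟩ := S.two_points T ht this
      exact ⟨(a, b), e.symm⟩)).mpr (C.row_sq S.w0)
    exact h1
  refine ⟨hξ, ?_⟩
  -- decomposition
  have hw0 : S.w0 = S.w1 * (S.w2 * S.w1) := by rw [w0, mul_assoc]
  obtain ⟨s1, hs1, ht1⟩ := C.exists_of_mul_ne_zero (hw0 ▸ ht)
  have i1 : Function.Injective
      (fun p : R × R => s1 * (T.L.x (-p.1) * T.L.z p.2)) := by
    intro p q h
    obtain ⟨h1, h2⟩ := xz_eq T.L (mul_left_cancel h)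
    exact Prod.ext (neg_injective h1) h2
  have i2 : Function.Injective
      (fun p : R × R => T.L.z (-p.1) * (s1⁻¹ * t) * T.L.z p.2) := by
    intro p q h
    have r1 : ∀ a, s1 * T.L.z a = T.L.x (-a) * s1 := fun a => ((W1 S T).exact_Q hs1 a).symm
    have h1 : T.L.x p.1 * t * T.L.z p.2 = T.L.x q.1 * t * T.L.z q.2 := by
      have e : ∀ p : R × R, s1 * (T.L.z (-p.1) * (s1⁻¹ * t) * T.L.z p.2) =
          T.L.x p.1 * t * T.L.z p.2 := by
        intro p
        calc s1 * (T.L.z (-p.1) * (s1⁻¹ * t) * T.L.z p.2)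
            = (s1 * T.L.z (-p.1)) * (s1⁻¹ * t) * T.L.z p.2 := by group
          _ = _ := by rw [r1, neg_neg]; group
      rw [← e, ← e]; exact congrArg (fun y => s1 * y) h
    have h2 : ((T.L.x q.1)⁻¹ * T.L.x p.1) * t * (T.L.z p.2 * (T.L.z q.2)⁻¹) = t := by
      calc ((T.L.x q.1)⁻¹ * T.L.x p.1) * t * (T.L.z p.2 * (T.L.z q.2)⁻¹)
          = (T.L.x q.1)⁻¹ * (T.L.x p.1 * t * T.L.z p.2) * (T.L.z q.2)⁻¹ := by group
        _ = t := by rw [h1]; group
    obtain ⟨q1, q2⟩ := S.free T ht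
      (S.toHeis.U.mul_mem (S.toHeis.U.inv_mem (S.toHeis.x_mem q.1)) (S.toHeis.x_mem p.1))
      (S.toHeis.U.mul_mem (S.toHeis.z_mem p.2) (S.toHeis.U.inv_mem (S.toHeis.z_mem q.2)))
      ((T.px q.1).inv.mul (T.px p.1)) ((T.pz p.2).mul (T.pz q.2).inv) h2
    exact Prod.ext (S.toHeis.x_inj (inv_mul_eq_one.mp q1)).symm
      (S.toHeis.z_inj (mul_inv_eq_one.mp q2))
  have s1' : Summable (fun p : R × R => ‖C.c S.w1 (s1 * (T.L.x (-p.1) * T.L.z p.2))‖ ^ 2) :=
    (C.row_sq S.w1).summable.comp_injective i1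
  have s2' : Summable (fun p : R × R =>
      ‖C.c (S.w2 * S.w1) (T.L.z (-p.1) * (s1⁻¹ * t) * T.L.z p.2)‖ ^ 2) :=
    (C.row_sq (S.w2 * S.w1)).summable.comp_injective i2
  refine rank_one (fun m b => C.c S.w1 (s1 * (T.L.x (-m) * T.L.z b)))
    (fun b n => C.c (S.w2 * S.w1) (T.L.z (-b) * (s1⁻¹ * t) * T.L.z n))
    (fun m n => C.c S.w0 (T.L.z m * t * T.L.z n)) s1' ?_ s2' ?_ hξ ?_
  · rw [← (C.row_sq S.w1).tsum_eq]
    exact Summable.tsum_le_tsum_of_inj _ i1 (fun s _ => by positivity) (fun _ => le_rfl) s1'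
      (C.row_sq S.w1).summable
  · rw [← (C.row_sq (S.w2 * S.w1)).tsum_eq]
    exact Summable.tsum_le_tsum_of_inj _ i2 (fun s _ => by positivity) (fun _ => le_rfl) s2'
      (C.row_sq (S.w2 * S.w1)).summable
  · intro m n
    have h1 := C.mulL S.w1 (S.w2 * S.w1) (T.L.z m * t * T.L.z n)
    rw [← hw0] at h1
    have i3 : Function.Injective (fun b : R => s1 * (T.L.x (-m) * T.L.z b)) := by
      intro b b' h
      exact (xz_eq T.L (mul_left_cancel h)).2
    have r1 : s1⁻¹ * T.L.z m = T.L.x (-m) * s1⁻¹ := by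
      have := (W1 S T).exact_P hs1 (-m)
      rw [neg_neg] at this
      change T.L.z m * s1 = s1 * T.L.x (-m) at this
      calc s1⁻¹ * T.L.z m = s1⁻¹ * (T.L.z m * s1) * s1⁻¹ := by group
        _ = _ := by rw [this]; group
    have r2 : ∀ c d, (s1 * (T.L.x c * T.L.z d))⁻¹ * (T.L.z m * t * T.L.z n) =
        T.L.z (-d) * T.L.x (-c - m) * (s1⁻¹ * t) * T.L.z n := by
      intro c d
      calc (s1 * (T.L.x c * T.L.z d))⁻¹ * (T.L.z m * t * T.L.z n)
          = (T.L.z d)⁻¹ * (T.L.x c)⁻¹ * (s1⁻¹ * T.L.z m) * t * T.L.z n := by group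
        _ = T.L.z (-d) * (T.L.x (-c) * T.L.x (-m)) * (s1⁻¹ * t) * T.L.z n := by
            rw [r1, T.L.z_neg, T.L.x_neg c]; group
        _ = _ := by rw [← T.L.x_add, ← sub_eq_add_neg]
    have h2 := (i3.hasSum_iff (f := fun s => C.c S.w1 s *
        C.c (S.w2 * S.w1) (s⁻¹ * (T.L.z m * t * T.L.z n))) (a := C.c S.w0 (T.L.z m * t * T.L.z n)) (by
      intro s hs
      by_contra hne
      apply hs
      obtain ⟨h3, h4⟩ := mul_ne_zero_iff.mp hne
      obtain ⟨c, d, e⟩ := (W1 S T).coset hs1 h3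
      change s = s1 * (T.L.x c * T.L.z d) at e
      rw [e, r2] at h4
      have h5 := S.eta_claim T ht hs1 ht1 h4
      refine ⟨d, ?_⟩
      have h6 : -m = c := by linear_combination h5
      simp only [h6]
      exact e.symm)).mpr h1
    convert h2 using 1
    funext b
    simp only [Function.comp]
    rw [r2]
    congr 3
    rw [neg_neg, sub_self, T.L.x_zero, mul_one]

/-- The row of `w₀` in normal form, first version. -/
structure OmegaPre (S : SL3Data R Γ) (T : PtHeis R Γ Λ C S.toHeis) where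
  t : Λ
  κ : ℂ
  g : R → ℂ
  norm_κ : ‖κ‖ = 1
  sq : HasSum (fun n => ‖g n‖ ^ 2) 1
  form : ∀ m n, C.c S.w0 (T.L.z m * t * T.L.z n) = κ * (conj (g (-m)) * g n)
  supp : ∀ s, C.c S.w0 s ≠ 0 → ∃ m n, s = T.L.z m * t * T.L.z n
  inj : ∀ m n m' n', T.L.z m * t * T.L.z n = T.L.z m' * t * T.L.z n' → m = m' ∧ n = n'

omit [Infinite R] in
lemma normalize {f g0 : R → ℂ} {a : R} {κ' : ℂ} (hfn : ∀ n, f (a - n) = κ' * conj (g0 n))
    (hf0 : f 0 ≠ 0) (hg0 : g0 0 ≠ 0)
    (hξ : HasSum (fun p : R × R => ‖f p.1 * g0 p.2‖ ^ 2) 1) :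
    ∃ (κ : ℂ) (g : R → ℂ), ‖κ‖ = 1 ∧ HasSum (fun n => ‖g n‖ ^ 2) 1 ∧
      ∀ m n, f (a - m) * g0 n = κ * (conj (g m) * g n) := by
  have sg : Summable (fun n => ‖g0 n‖ ^ 2) := by
    have h1 := hξ.summable.prod_factor 0
    have h2 : (fun n => ‖f 0 * g0 n‖ ^ 2) =
        fun n => ‖f 0‖ ^ 2 * ‖g0 n‖ ^ 2 := by
      funext n; rw [norm_mul, mul_pow]
    change Summable (fun n => ‖f 0 * g0 n‖ ^ 2) at h1
    rw [h2] at h1
    exact (summable_mul_left_iff (by positivity)).mp h1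
  obtain ⟨N, hgN⟩ := sg
  have hNpos : 0 < N := by
    have h1 : ‖g0 0‖ ^ 2 ≤ N := le_hasSum hgN 0 (fun _ _ => by positivity)
    have : 0 < ‖g0 0‖ ^ 2 := by positivity
    linarith
  have hfN : HasSum (fun m => ‖f m‖ ^ 2) (‖κ'‖ ^ 2 * N) := by
    rw [← (Equiv.subLeft a).hasSum_iff]
    have h1 := hgN.mul_left (‖κ'‖ ^ 2)
    have h2 : ((fun m => ‖f m‖ ^ 2) ∘ ⇑(Equiv.subLeft a)) = fun n => ‖κ'‖ ^ 2 * ‖g0 n‖ ^ 2 := by
      funext n
      simp only [Function.comp, Equiv.subLeft_apply]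
      rw [hfn, norm_mul, mul_pow, Complex.norm_conj]
    rw [h2]; exact h1
  have hprod : ‖κ'‖ ^ 2 * N * N = 1 := by
    have sm : Summable (fun p : R × R => ‖f p.1‖ ^ 2 * ‖g0 p.2‖ ^ 2) :=
      hfN.summable.mul_of_nonneg hgN.summable (fun _ => by positivity) (fun _ => by positivity)
    have h1 := hfN.mul hgN sm
    have h2 : (fun p : R × R => ‖f p.1 * g0 p.2‖ ^ 2) =
        (fun p : R × R => ‖f p.1‖ ^ 2 * ‖g0 p.2‖ ^ 2) := by
      funext p
      rw [norm_mul, mul_pow]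
    rw [h2] at hξ
    exact h1.unique hξ
  have hκN : ‖κ'‖ * N = 1 := by
    have h1 : (‖κ'‖ * N) ^ 2 = 1 := by rw [← hprod]; ring
    have h2 : 0 ≤ ‖κ'‖ * N := by positivity
    nlinarith
  have hν2 : (Real.sqrt N) ^ 2 = N := Real.sq_sqrt hNpos.le
  have hνpos : 0 < Real.sqrt N := Real.sqrt_pos.mpr hNpos
  generalize Real.sqrt N = ν at hν2 hνpos
  have hνC : (ν : ℂ) ≠ 0 := by exact_mod_cast hνpos.ne'
  have hgg : ∀ n, g0 n = ν * (g0 n / ν) := by
    intro n; field_simp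
  refine ⟨κ' * N, fun n => g0 n / ν, ?_, ?_, ?_⟩
  · rw [norm_mul, Complex.norm_real, Real.norm_eq_abs, abs_of_pos hNpos, hκN]
  · have h1 := hgN.mul_left (N⁻¹)
    rw [inv_mul_cancel₀ hNpos.ne'] at h1
    have h2 : (fun n => ‖g0 n / ν‖ ^ 2) = fun n => N⁻¹ * ‖g0 n‖ ^ 2 := by
      funext n
      simp only [norm_div, Complex.norm_real, Real.norm_eq_abs, abs_of_pos hνpos, div_pow]
      rw [hν2]; ring
    rw [h2]; exact h1
  · intro m n
    rw [hfn]
    conv_lhs => rw [hgg n, hgg m]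
    rw [map_mul, Complex.conj_ofReal]
    have : (N : ℂ) = (ν : ℂ) ^ 2 := by rw [← hν2]; push_cast; ring
    rw [this]; ring

theorem exists_omegaPre : Nonempty (OmegaPre S T) := by
  obtain ⟨t, ht⟩ := C.row_ne_zero S.w0
  obtain ⟨hξ, f, g0, hfg⟩ := S.rank_one_w0 T ht
  have hti : C.c S.w0 t⁻¹ ≠ 0 := by
    have := C.conj_inv S.w0 t
    rw [S.w0_inv] at this
    rw [this]
    simpa using ht
  obtain ⟨a, b, hab⟩ := S.two_points T ht hti
  have hsym : ∀ m n, f (a - n) * g0 (b - m) = conj (f m) * conj (g0 n) := by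
    intro m n
    have h1 := C.conj_inv S.w0 (T.L.z m * t * T.L.z n)
    rw [S.w0_inv] at h1
    have e : (T.L.z m * t * T.L.z n)⁻¹ = T.L.z (a - n) * t * T.L.z (b - m) := by
      calc (T.L.z m * t * T.L.z n)⁻¹ = (T.L.z n)⁻¹ * t⁻¹ * (T.L.z m)⁻¹ := by group
        _ = (T.L.z (-n) * T.L.z a) * t * (T.L.z b * T.L.z (-m)) := by
            rw [hab, T.L.z_neg, T.L.z_neg]; group
        _ = _ := by
            rw [← T.L.z_add, ← T.L.z_add, show -n + a = a - n by ring, ← sub_eq_add_neg]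
    rw [e, hfg, hfg, map_mul] at h1
    exact h1
  have h00 : f 0 * g0 0 ≠ 0 := by
    rw [← hfg, T.L.z_zero]; simpa using ht
  obtain ⟨hf0, hg0⟩ := mul_ne_zero_iff.mp h00
  have hgb : g0 b ≠ 0 := by
    intro h0
    have := hsym 0 0
    rw [sub_zero, sub_zero, h0, mul_zero] at this
    exact mul_ne_zero ((map_ne_zero _).mpr hf0) ((map_ne_zero _).mpr hg0) this.symm
  have hfn : ∀ n, f (a - n) = (conj (f 0) / g0 b) * conj (g0 n) := by
    intro n
    have := hsym 0 n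
    rw [sub_zero] at this
    field_simp
    exact this
  have hξ' : HasSum (fun p : R × R => ‖f p.1 * g0 p.2‖ ^ 2) 1 := by
    have h2 : (fun p : R × R => ‖f p.1 * g0 p.2‖ ^ 2) =
        fun p : R × R => ‖C.c S.w0 (T.L.z p.1 * t * T.L.z p.2)‖ ^ 2 := by
      funext p; rw [hfg]
    rw [h2]; exact hξ
  obtain ⟨κ, g, hκ, hsq, hform⟩ := normalize hfn hf0 hg0 hξ'
  have hform' : ∀ m n, C.c S.w0 (T.L.z m * (T.L.z a * t) * T.L.z n) =
      κ * (conj (g (-m)) * g n) := by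
    intro m n
    have e : T.L.z m * (T.L.z a * t) * T.L.z n = T.L.z (a - -m) * t * T.L.z n := by
      rw [sub_neg_eq_add, T.L.z_add a m, show T.L.z a * T.L.z m = T.L.z m * T.L.z a by
        rw [← T.L.z_add, ← T.L.z_add, add_comm]]
      group
    rw [e, hfg, hform]
  have hinj : ∀ m n m' n', T.L.z m * (T.L.z a * t) * T.L.z n =
      T.L.z m' * (T.L.z a * t) * T.L.z n' → m = m' ∧ n = n' := by
    intro m n m' n' h
    have e : ∀ m n, T.L.z m * (T.L.z a * t) * T.L.z n = T.L.z (m + a) * t * T.L.z n := by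
      intro m n; rw [T.L.z_add]; group
    rw [e, e] at h
    obtain ⟨h1, h2⟩ := S.zz_inj T ht h
    exact ⟨add_right_cancel h1, h2⟩
  have hsupp : ∀ s, C.c S.w0 s ≠ 0 → ∃ m n, s = T.L.z m * (T.L.z a * t) * T.L.z n := by
    intro s hs
    obtain ⟨m, n, e⟩ := S.two_points T ht hs
    refine ⟨m - a, n, ?_⟩
    rw [e, sub_eq_add_neg, T.L.z_add, T.L.z_neg]; group
  exact ⟨⟨T.L.z a * t, κ, g, hκ, hsq, hform', hsupp, hinj⟩⟩

variable {S T}

lemma OmegaPre.auto (O : OmegaPre S T) (k : R) (hk : k ≠ 0) :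
    HasSum (fun n => conj (O.g n) * O.g (n - k)) 0 := by
  have hne : S.w0 ≠ S.w0 * S.z k := by
    intro h
    have h1 : S.z k = 1 := (mul_eq_left.mp h.symm)
    rw [← S.toHeis.z_zero] at h1
    exact hk (S.toHeis.z_inj h1)
  have h1 := C.row_orth hne
  have hinj' : Function.Injective (fun p : R × R => T.L.z p.1 * O.t * T.L.z p.2) := by
    intro p q h
    obtain ⟨e1, e2⟩ := O.inj _ _ _ _ h
    exact Prod.ext e1 e2
  have h2 := (hinj'.hasSum_iff (f := fun s => conj (C.c S.w0 s) * C.c (S.w0 * S.z k) s)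
    (a := 0) (by
      intro s hs
      by_contra hne
      apply hs
      obtain ⟨h3, -⟩ := mul_ne_zero_iff.mp hne
      obtain ⟨m, n, e⟩ := O.supp s ((map_ne_zero _).mp h3)
      exact ⟨(m, n), e.symm⟩)).mpr h1
  have h3 : ∀ m n, C.c (S.w0 * S.z k) (T.L.z m * O.t * T.L.z n) =
      O.κ * (conj (O.g (-m)) * O.g (n - k)) * C.c (S.z k) (T.L.z k) := by
    intro m n
    have e : T.L.z m * O.t * T.L.z n =
        T.L.z m * O.t * T.L.z (n - k) * T.L.z k := by
      rw [mul_assoc _ (T.L.z (n - k)), ← T.L.z_add, sub_add_cancel]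
    rw [e, (T.pz k).mul_right, O.form]
  have hneg : HasSum (fun m => ‖O.g (-m)‖ ^ 2) 1 :=
    ((Equiv.neg R).hasSum_iff (f := fun n => ‖O.g n‖ ^ 2)).mpr O.sq
  have hFs : HasSum (fun m => (((‖O.g (-m)‖ ^ 2 : ℝ) : ℂ) * C.c (S.z k) (T.L.z k)))
      (((1 : ℝ) : ℂ) * C.c (S.z k) (T.L.z k)) := by
    refine HasSum.mul_right _ ?_
    exact Complex.hasSum_ofReal.mpr hneg
  have hGn : Summable (fun n => ‖conj (O.g n) * O.g (n - k)‖) := by
    have q1 : Summable (fun n => ‖O.g (n - k)‖ ^ 2) :=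
      ((Equiv.subRight k).summable_iff (f := fun n => ‖O.g n‖ ^ 2)).mpr O.sq.summable
    refine Summable.of_nonneg_of_le (fun _ => norm_nonneg _) ?_ (O.sq.summable.add q1)
    intro n
    rw [norm_mul, Complex.norm_conj]
    nlinarith [sq_nonneg (‖O.g n‖ - ‖O.g (n - k)‖), sq_nonneg (‖O.g n‖ + ‖O.g (n - k)‖)]
  have hFn : Summable (fun m => ‖(((‖O.g (-m)‖ ^ 2 : ℝ) : ℂ) * C.c (S.z k) (T.L.z k))‖) := by
    have h4 := hneg.summable.mul_right ‖C.c (S.z k) (T.L.z k)‖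
    have h5 : (fun m => ‖(((‖O.g (-m)‖ ^ 2 : ℝ) : ℂ) * C.c (S.z k) (T.L.z k))‖) =
        fun m => ‖O.g (-m)‖ ^ 2 * ‖C.c (S.z k) (T.L.z k)‖ := by
      funext m
      simp
    rw [h5]; exact h4
  have hc : conj O.κ * O.κ = 1 := by
    rw [mul_comm, Complex.mul_conj, Complex.normSq_eq_norm_sq, O.norm_κ]; simp
  have hmul : HasSum (fun p : R × R => (((‖O.g (-p.1)‖ ^ 2 : ℝ) : ℂ) * C.c (S.z k) (T.L.z k)) *
      (conj (O.g p.2) * O.g (p.2 - k))) 0 := by
    have h6 : (fun p : R × R => (((‖O.g (-p.1)‖ ^ 2 : ℝ) : ℂ) * C.c (S.z k) (T.L.z k)) *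
        (conj (O.g p.2) * O.g (p.2 - k))) =
        ((fun s => conj (C.c S.w0 s) * C.c (S.w0 * S.z k) s) ∘
          fun p : R × R => T.L.z p.1 * O.t * T.L.z p.2) := by
      funext p
      simp only [Function.comp]
      rw [h3, O.form, map_mul, map_mul, Complex.conj_conj]
      have hd : ((‖O.g (-p.1)‖ ^ 2 : ℝ) : ℂ) = O.g (-p.1) * conj (O.g (-p.1)) := by
        rw [Complex.mul_conj, Complex.normSq_eq_norm_sq]
      rw [hd]
      calc O.g (-p.1) * conj (O.g (-p.1)) * C.c (S.z k) (T.L.z k) *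
            (conj (O.g p.2) * O.g (p.2 - k))
          = 1 * (O.g (-p.1) * conj (O.g (-p.1)) * C.c (S.z k) (T.L.z k) *
            (conj (O.g p.2) * O.g (p.2 - k))) := by rw [one_mul]
        _ = _ := by rw [← hc]; ring
    rw [h6]; exact h2
  have ha : ((1 : ℝ) : ℂ) * C.c (S.z k) (T.L.z k) ≠ 0 := by
    rw [Complex.ofReal_one, one_mul]; exact (T.pz k).ne_zero
  exact sum_zero_of_mul hFs hFn hGn ha hmul

end SL3Data

end Vale.Agent.P092
end
end

section

section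

namespace Vale.Agent.P092

open scoped InnerProductSpace ENNReal ComplexConjugate

/-- The formal properties of the group von Neumann algebra used in the proof. -/
structure GAlg (G A : Type*) [Group G] [Ring A] [StarRing A] [Algebra ℂ A] [StarModule ℂ A] where
  u : G → A
  cf : A → G → ℂ
  u_mul : ∀ g h, u (g * h) = u g * u h
  u_one : u 1 = 1
  star_u : ∀ g, star (u g) = u g⁻¹
  cf_ext : ∀ x y, (∀ s, cf x s = cf y s) → x = y
  cf_mul : ∀ x y s, HasSum (fun t => cf x t * cf y (t⁻¹ * s)) (cf (x * y) s)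
  cf_star : ∀ x s, cf (star x) s = conj (cf x s⁻¹)
  cf_u_self : ∀ g, cf (u g) g = 1
  cf_u_ne : ∀ g s, s ≠ g → cf (u g) s = 0
  cf_smul : ∀ (a : ℂ) x s, cf (a • x) s = a * cf x s
  ex_unitary : ∀ ω : G → ℂ, HasSum (fun s => ‖ω s‖ ^ 2) 1 →
    (∀ k, k ≠ 1 → HasSum (fun s => conj (ω s) * ω (s * k)) 0) →
    ∃ w : A, star w * w = 1 ∧ w * star w = 1 ∧ ∀ s, cf w s = ω s

namespace GAlg

section one

variable {G A : Type*} [Group G] [Ring A] [StarRing A] [Algebra ℂ A] [StarModule ℂ A]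
  (P : GAlg G A)

lemma cf_one_self : P.cf 1 1 = 1 := by rw [← P.u_one]; exact P.cf_u_self 1

lemma cf_one_ne {s : G} (hs : s ≠ 1) : P.cf 1 s = 0 := by
  rw [← P.u_one]; exact P.cf_u_ne 1 s hs

lemma cf_u_mul (g : G) (x : A) (s : G) : P.cf (P.u g * x) s = P.cf x (g⁻¹ * s) := by
  refine (P.cf_mul (P.u g) x s).unique ?_
  have := hasSum_single (f := fun t => P.cf (P.u g) t * P.cf x (t⁻¹ * s)) g
    (fun t ht => by rw [P.cf_u_ne g t ht, zero_mul])
  simpa [P.cf_u_self] using this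

lemma cf_mul_u (g : G) (x : A) (s : G) : P.cf (x * P.u g) s = P.cf x (s * g⁻¹) := by
  refine (P.cf_mul x (P.u g) s).unique ?_
  have := hasSum_single (f := fun t => P.cf x t * P.cf (P.u g) (t⁻¹ * s)) (s * g⁻¹)
    (fun t ht => by
      rw [P.cf_u_ne g (t⁻¹ * s), mul_zero]
      intro h
      apply ht
      rw [← h]; group)
  have e : (s * g⁻¹)⁻¹ * s = g := by group
  rw [e, P.cf_u_self, mul_one] at this
  exact this

lemma cf_mul_comm (x y : A) : P.cf (x * y) 1 = P.cf (y * x) 1 := by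
  have h1 := P.cf_mul x y 1
  have h2 := P.cf_mul y x 1
  have h3 := (Equiv.inv G).hasSum_iff.mpr h2
  refine h1.unique ?_
  convert h3 using 1
  funext t
  simp only [Function.comp, Equiv.inv_apply, mul_one, inv_inv]
  rw [mul_comm]

lemma u_inv_mul (g : G) : P.u g⁻¹ * P.u g = 1 := by
  rw [← P.u_mul, inv_mul_cancel, P.u_one]

end one

section two

variable {Γ Λ A B : Type*} [Group Γ] [Group Λ] [Ring A] [StarRing A] [Algebra ℂ A]
  [StarModule ℂ A] [Ring B] [StarRing B] [Algebra ℂ B] [StarModule ℂ B]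
  (PA : GAlg Γ A) (PB : GAlg Λ B)

lemma cf_symm (θ : A ≃⋆ₐ[ℂ] B) (htr : ∀ x, PB.cf (θ x) 1 = PA.cf x 1) (g : Γ) (s : Λ) :
    PB.cf (θ (PA.u g)) s = conj (PA.cf (θ.symm (PB.u s)) g) := by
  have h1 : PB.cf (θ (PA.u g)) s = PB.cf (PB.u s⁻¹ * θ (PA.u g)) 1 := by
    rw [cf_u_mul, inv_inv, mul_one]
  have h2 : PB.u s⁻¹ * θ (PA.u g) = θ (θ.symm (PB.u s⁻¹) * PA.u g) := by
    rw [map_mul, StarAlgEquiv.apply_symm_apply]
  rw [h1, h2, htr, cf_mul_u, one_mul, ← PB.star_u, map_star, PA.cf_star, inv_inv]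

/-- The coefficient matrix of a trace preserving isomorphism. -/
noncomputable def coef (θ : A ≃⋆ₐ[ℂ] B) (htr : ∀ x, PB.cf (θ x) 1 = PA.cf x 1) : Coef Γ Λ where
  c g s := PB.cf (θ (PA.u g)) s
  mulL g g' s := by
    have h := PB.cf_mul (θ (PA.u g)) (θ (PA.u g')) s
    rw [← map_mul, ← PA.u_mul] at h
    exact h
  mulR g s s' := by
    have h := PA.cf_mul (θ.symm (PB.u s)) (θ.symm (PB.u s')) g
    rw [← map_mul, ← PB.u_mul, ← Complex.hasSum_conj'] at h
    rw [cf_symm PA PB θ htr]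
    convert h using 1
    funext t
    rw [cf_symm PA PB θ htr, cf_symm PA PB θ htr, map_mul]
  conj_inv g s := by
    rw [← PA.star_u, map_star, PB.cf_star, inv_inv]
  oneL s hs := by
    rw [PA.u_one, map_one, PB.cf_one_ne hs]
  oneR g hg := by
    rw [htr, PA.cf_u_ne g 1 (Ne.symm hg)]
  one_one := by
    rw [PA.u_one, map_one, PB.cf_one_self]

lemma coef_c (θ : A ≃⋆ₐ[ℂ] B) (htr : ∀ x, PB.cf (θ x) 1 = PA.cf x 1) (g : Γ) (s : Λ) :
    (PA.coef PB θ htr).c g s = PB.cf (θ (PA.u g)) s := rfl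

lemma supp_of_map (θ : A ≃⋆ₐ[ℂ] B) (htr : ∀ x, PB.cf (θ x) 1 = PA.cf x 1) {X : Set Γ}
    {Y : Set Λ}
    (h : ∀ x, (∀ s, s ∉ X → PA.cf x s = 0) ↔ (∀ s, s ∉ Y → PB.cf (θ x) s = 0)) :
    (∀ s ∈ Y, ∀ g, (PA.coef PB θ htr).c g s ≠ 0 → g ∈ X) ∧
    (∀ g ∈ X, ∀ s, (PA.coef PB θ htr).c g s ≠ 0 → s ∈ Y) := by
  constructor
  · intro s hs g hg
    by_contra hgX
    apply hg
    have h1 : ∀ g, g ∉ X → PA.cf (θ.symm (PB.u s)) g = 0 := by
      rw [h, StarAlgEquiv.apply_symm_apply]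
      intro t ht
      apply PB.cf_u_ne
      rintro rfl
      exact ht hs
    rw [coef_c, cf_symm PA PB θ htr, h1 g hgX, map_zero]
  · intro g hg s hs
    by_contra hsY
    apply hs
    have h1 : ∀ s, s ∉ X → PA.cf (PA.u g) s = 0 := by
      intro t ht
      apply PA.cf_u_ne
      rintro rfl
      exact ht hg
    exact (h _).1 h1 s hsY

lemma eq_of_pt (θ : A ≃⋆ₐ[ℂ] B) (htr : ∀ x, PB.cf (θ x) 1 = PA.cf x 1) {g : Γ} {s : Λ}
    (h : (PA.coef PB θ htr).Pt g s) : ∃ a : ℂ, ‖a‖ = 1 ∧ θ (PA.u g) = a • PB.u s := by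
  refine ⟨PB.cf (θ (PA.u g)) s, h, ?_⟩
  apply PB.cf_ext
  intro t
  rw [PB.cf_smul]
  by_cases ht : t = s
  · subst ht; rw [PB.cf_u_self, mul_one]
  · rw [PB.cf_u_ne s t ht, mul_zero]
    exact h.row ht

end two

end GAlg

end Vale.Agent.P092
end
end

section

section

namespace Vale.Agent.P092

open scoped InnerProductSpace ENNReal ComplexConjugate

namespace GAlg

section conclude

variable {Γ Λ A B : Type*} [Group Γ] [Group Λ] [Ring A] [StarRing A] [Algebra ℂ A]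
  [StarModule ℂ A] [Ring B] [StarRing B] [Algebra ℂ B] [StarModule ℂ B]
  (PA : GAlg Γ A) (PB : GAlg Λ B)

lemma smul_u_inj {a b : ℂ} {s t : Λ} (ha : a ≠ 0) (h : a • PB.u s = b • PB.u t) :
    s = t ∧ a = b := by
  have h1 : s = t := by
    by_contra hne
    have := congrArg (fun x => PB.cf x s) h
    simp only [PB.cf_smul] at this
    rw [PB.cf_u_self, PB.cf_u_ne t s hne, mul_zero, mul_one] at this
    exact ha this
  subst h1
  refine ⟨rfl, ?_⟩
  have := congrArg (fun x => PB.cf x s) h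
  simp only [PB.cf_smul] at this
  rw [PB.cf_u_self, mul_one, mul_one] at this
  exact this

/-- From group-like images to a canonical isomorphism. -/
theorem canonical_of_grouplike (θ : A ≃⋆ₐ[ℂ] B) (htr : ∀ x, PB.cf (θ x) 1 = PA.cf x 1) (w : B)
    (hw1 : star w * w = 1) (hw2 : w * star w = 1)
    (h : ∀ g, ∃ (s : Λ) (a : ℂ), ‖a‖ = 1 ∧ star w * θ (PA.u g) * w = a • PB.u s) :
    ∃ (δ : Γ ≃* Λ) (χ : Γ →* Circle),
      ∀ g, θ (PA.u g) = (χ g : ℂ) • (w * PB.u (δ g) * star w) := by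
  choose δ χ hχ hδ using h
  have hχ0 : ∀ g, χ g ≠ 0 := fun g => by
    intro h0
    have := hχ g
    rw [h0, norm_zero] at this
    exact zero_ne_one this
  have hmul : ∀ g h, (δ g * δ h = δ (g * h)) ∧ χ g * χ h = χ (g * h) := by
    intro g h
    apply smul_u_inj PB (mul_ne_zero (hχ0 g) (hχ0 h))
    rw [← hδ, PA.u_mul, map_mul, PB.u_mul]
    calc (χ g * χ h) • (PB.u (δ g) * PB.u (δ h)) = (χ g • PB.u (δ g)) * (χ h • PB.u (δ h)) := by
          rw [smul_mul_smul_comm]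
      _ = (star w * θ (PA.u g) * w) * (star w * θ (PA.u h) * w) := by rw [hδ, hδ]
      _ = star w * θ (PA.u g) * (w * star w) * θ (PA.u h) * w := by noncomm_ring
      _ = _ := by rw [hw2]; noncomm_ring
  have hinv : ∀ g, θ (PA.u g) = χ g • (w * PB.u (δ g) * star w) := by
    intro g
    calc θ (PA.u g) = (w * star w) * θ (PA.u g) * (w * star w) := by rw [hw2]; noncomm_ring
      _ = w * (star w * θ (PA.u g) * w) * star w := by noncomm_ring
      _ = _ := by rw [hδ]; simp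
  have hinj : ∀ g, δ g = 1 → g = 1 := by
    intro g hg
    have h1 := hinv g
    rw [hg, PB.u_one, mul_one, hw2] at h1
    have h2 : θ (PA.u g) = θ (χ g • 1) := by rw [h1, map_smul, map_one]
    have h3 := θ.injective h2
    by_contra hne
    have h4 := congrArg (fun x => PA.cf x g) h3
    simp only [PA.cf_smul] at h4
    rw [PA.cf_u_self, PA.cf_one_ne hne, mul_zero] at h4
    exact one_ne_zero h4
  let δ' : Γ →* Λ := MonoidHom.mk' δ (fun g h => (hmul g h).1.symm)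
  have hinj' : Function.Injective δ' := by
    rw [injective_iff_map_eq_one]
    exact hinj
  have hδinv : ∀ g, δ g⁻¹ = (δ g)⁻¹ := fun g => map_inv δ' g
  have hsurj : Function.Surjective δ' := by
    intro s
    by_contra hs
    push Not at hs
    set x := θ.symm (w * PB.u s * star w) with hx
    have hθx : θ x = w * PB.u s * star w := by rw [hx, StarAlgEquiv.apply_symm_apply]
    have hx0 : x = 0 := by
      apply PA.cf_ext
      intro g
      have e1 : PA.cf x g = PA.cf (PA.u g⁻¹ * x) 1 := by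
        rw [PA.cf_u_mul, inv_inv, mul_one]
      have e2 : PA.cf (0 : A) g = 0 := by
        have := PA.cf_smul 0 1 g
        rwa [zero_smul, zero_mul] at this
      rw [e2, e1, ← htr, map_mul, hinv, hθx]
      have e3 : χ g⁻¹ • (w * PB.u (δ g⁻¹) * star w) * (w * PB.u s * star w) =
          χ g⁻¹ • ((w * PB.u (δ g⁻¹ * s)) * star w) := by
        rw [smul_mul_assoc, PB.u_mul]
        congr 1
        calc w * PB.u (δ g⁻¹) * star w * (w * PB.u s * star w)
            = w * PB.u (δ g⁻¹) * (star w * w) * PB.u s * star w := by noncomm_ring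
          _ = _ := by rw [hw1]; noncomm_ring
      rw [e3, PB.cf_smul, PB.cf_mul_comm, ← mul_assoc, hw1, one_mul, PB.cf_u_ne, mul_zero]
      intro h1
      apply hs g
      rw [hδinv] at h1
      change δ g = s
      exact (inv_mul_eq_one.mp h1.symm)
    have h5 : w * PB.u s * star w = 0 := by rw [← hθx, hx0, map_zero]
    have h6 : PB.u s = 0 := by
      calc PB.u s = (star w * w) * PB.u s * (star w * w) := by rw [hw1]; noncomm_ring
        _ = star w * (w * PB.u s * star w) * w := by noncomm_ring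
        _ = 0 := by rw [h5]; noncomm_ring
    have h7 := PB.cf_u_self s
    rw [h6] at h7
    have h8 := PB.cf_smul 0 1 s
    rw [zero_smul, zero_mul, h7] at h8
    exact one_ne_zero h8
  let χ' : Γ →* Circle := MonoidHom.mk' (fun g => ⟨χ g, by
    rw [Submonoid.unitSphere]
    exact mem_sphere_zero_iff_norm.2 (hχ g)⟩) (fun g h => by
      apply Subtype.ext
      exact (hmul g h).2.symm)
  exact ⟨MulEquiv.ofBijective δ' ⟨hinj', hsurj⟩, χ', fun g => hinv g⟩

end conclude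

section build

variable {R Γ Λ A B : Type*} [CommRing R] [Infinite R] [NoZeroDivisors R] [Group Γ] [Group Λ]
  [Ring A] [StarRing A] [Algebra ℂ A]
  [StarModule ℂ A] [Ring B] [StarRing B] [Algebra ℂ B] [StarModule ℂ B]
  (PA : GAlg Γ A) (PB : GAlg Λ B)

omit [Infinite R] [NoZeroDivisors R] in
/-- The function `ω` supported on `Z(R)`. -/
lemma exists_omega_fun (L : Heis R Λ) (g : R → ℂ) (sq : HasSum (fun n => ‖g n‖ ^ 2) 1)
    (auto : ∀ k, k ≠ 0 → HasSum (fun n => conj (g n) * g (n - k)) 0) :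
    ∃ ω : Λ → ℂ, (∀ n, ω (L.z n) = conj (g (-n))) ∧ (∀ s, ω s ≠ 0 → ∃ n, s = L.z n) ∧
      HasSum (fun s => ‖ω s‖ ^ 2) 1 ∧
      ∀ k, k ≠ 1 → HasSum (fun s => conj (ω s) * ω (s * k)) 0 := by
  classical
  have hinj : Function.Injective L.z := fun a b h => L.z_inj h
  refine ⟨Function.extend L.z (fun n => conj (g (-n))) 0, fun n => hinj.extend_apply _ _ _, ?_, ?_⟩
  · intro s hs
    by_contra hcon
    push Not at hcon
    apply hs
    rw [Function.extend_apply']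
    · rfl
    · rintro ⟨n, hn⟩; exact hcon n hn.symm
  set ω := Function.extend L.z (fun n => conj (g (-n))) 0 with hω
  have h1 : ∀ n, ω (L.z n) = conj (g (-n)) := fun n => hinj.extend_apply _ _ _
  have h0 : ∀ s, s ∉ Set.range L.z → ω s = 0 := fun s hs => by
    rw [hω, Function.extend_apply' _ _ _ hs]; rfl
  have hneg : HasSum (fun n => ‖g (-n)‖ ^ 2) 1 :=
    ((Equiv.neg R).hasSum_iff (f := fun n => ‖g n‖ ^ 2)).mpr sq
  refine ⟨?_, ?_⟩
  · rw [← hinj.hasSum_iff (f := fun s => ‖ω s‖ ^ 2) (fun s hs => by rw [h0 s hs]; simp)]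
    convert hneg using 1
    funext n
    simp only [Function.comp]
    rw [h1, Complex.norm_conj]
  · intro k hk
    rw [← hinj.hasSum_iff (f := fun s => conj (ω s) * ω (s * k))
      (fun s hs => by rw [h0 s hs]; simp)]
    by_cases hkz : ∃ m, k = L.z m
    · obtain ⟨m, rfl⟩ := hkz
      have hm : m ≠ 0 := by
        rintro rfl
        exact hk L.z_zero
      have h3 := auto m hm
      rw [← Complex.hasSum_conj'] at h3
      have h4 := ((Equiv.neg R).hasSum_iff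
        (f := fun n => conj (conj (g n) * g (n - m)))).mpr h3
      rw [map_zero] at h4
      convert h4 using 1
      funext n
      simp only [Function.comp, Equiv.neg_apply]
      rw [← L.z_add, h1, h1, map_mul, Complex.conj_conj,
        show -(n + m) = -n - m by ring]
    · have h5 : ((fun s => conj (ω s) * ω (s * k)) ∘ L.z) = fun _ => 0 := by
        funext n
        simp only [Function.comp]
        rw [h0 (L.z n * k), mul_zero]
        rintro ⟨m, hm⟩
        apply hkz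
        refine ⟨-n + m, ?_⟩
        rw [L.z_add, hm, L.z_neg]; group
      rw [h5]
      exact hasSum_zero

/-- The main construction. -/
theorem exists_canonical (S : SL3Data R Γ) (θ : A ≃⋆ₐ[ℂ] B)
    (htr : ∀ x, PB.cf (θ x) 1 = PA.cf x 1) (Y1 Y2 : Subgroup Λ)
    (h1 : ∀ x, (∀ s, s ∉ Set.range S.x → PA.cf x s = 0) ↔
      (∀ s, s ∉ (Y1 : Set Λ) → PB.cf (θ x) s = 0))
    (h2 : ∀ x, (∀ s, s ∉ Set.range S.y → PA.cf x s = 0) ↔
      (∀ s, s ∉ (Y2 : Set Λ) → PB.cf (θ x) s = 0)) :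
    ∃ (δ : Γ ≃* Λ) (χ : Γ →* Circle) (w : B), star w * w = 1 ∧ w * star w = 1 ∧
      ∀ g, θ (PA.u g) = (χ g : ℂ) • (w * PB.u (δ g) * star w) := by
  obtain ⟨p1, p2⟩ := supp_of_map PA PB θ htr h1
  obtain ⟨p3, p4⟩ := supp_of_map PA PB θ htr h2
  let D : StepData R Γ Λ (PA.coef PB θ htr) S.toHeis :=
    { Y1 := Y1
      Y2 := Y2
      h1 := fun s hs g hg => by
        obtain ⟨a, ha⟩ := p1 s hs g hg
        exact ⟨a, ha.symm⟩
      h1' := fun a s hs => p2 _ ⟨a, rfl⟩ s hs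
      h2 := fun s hs g hg => by
        obtain ⟨a, ha⟩ := p3 s hs g hg
        exact ⟨a, ha.symm⟩
      h2' := fun a s hs => p4 _ ⟨a, rfl⟩ s hs }
  let T := D.ptHeis
  obtain ⟨O⟩ := S.exists_omegaPre T
  obtain ⟨ω, hω, hωs, hω1, hω2⟩ := exists_omega_fun T.L O.g O.sq (fun k hk => O.auto k hk)
  obtain ⟨w, hw1, hw2, hwcf⟩ := PB.ex_unitary ω hω1 hω2
  -- `w` commutes with `u_s` for `s` commuting with `Z`
  have hcomm : ∀ s, (∀ n, T.L.z n * s = s * T.L.z n) → PB.u s * w = w * PB.u s := by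
    intro s hs
    apply PB.cf_ext
    intro r
    rw [PB.cf_u_mul, PB.cf_mul_u, hwcf, hwcf]
    by_cases hr : ∃ n, r * s⁻¹ = T.L.z n
    · obtain ⟨n, hn⟩ := hr
      have e : s⁻¹ * r = T.L.z n := by
        calc s⁻¹ * r = s⁻¹ * (r * s⁻¹) * s := by group
          _ = s⁻¹ * (T.L.z n * s) := by rw [hn]; group
          _ = _ := by rw [hs]; group
      rw [e, hn]
    · have e1 : ω (r * s⁻¹) = 0 := by
        by_contra h; exact hr (hωs _ h)
      have e2 : ω (s⁻¹ * r) = 0 := by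
        by_contra h
        obtain ⟨n, hn⟩ := hωs _ h
        apply hr
        refine ⟨n, ?_⟩
        calc r * s⁻¹ = s * (s⁻¹ * r) * s⁻¹ := by group
          _ = (s * T.L.z n) * s⁻¹ := by rw [hn]
          _ = _ := by rw [← hs]; group
      rw [e1, e2]
  -- the image of `w₀`
  have hw0 : θ (PA.u S.w0) = O.κ • (w * (PB.u O.t * star w)) := by
    apply PB.cf_ext
    intro s
    rw [PB.cf_smul]
    have hterm : ∀ r, PB.cf w r * PB.cf (PB.u O.t * star w) (r⁻¹ * s) =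
        ω r * conj (ω (s⁻¹ * r * O.t)) := by
      intro r
      rw [PB.cf_u_mul, PB.cf_star, hwcf, hwcf]
      congr 3
      group
    have hsum := PB.cf_mul w (PB.u O.t * star w) s
    simp only [hterm] at hsum
    by_cases hs : ∃ m n, s = T.L.z m * O.t * T.L.z n
    · obtain ⟨m, n, rfl⟩ := hs
      change (PA.coef PB θ htr).c S.w0 _ = _
      rw [O.form]
      congr 1
      refine HasSum.unique ?_ hsum
      have := hasSum_single (f := fun r => ω r *
        conj (ω ((T.L.z m * O.t * T.L.z n)⁻¹ * r * O.t))) (T.L.z m) ?_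
      · have e : (T.L.z m * O.t * T.L.z n)⁻¹ * T.L.z m * O.t = T.L.z (-n) := by
          rw [T.L.z_neg]; group
        rw [e, hω, hω, neg_neg, Complex.conj_conj] at this
        exact this
      · intro r hr
        by_contra hne
        obtain ⟨n', rfl⟩ := hωs r (left_ne_zero_of_mul hne)
        have h3 : ω ((T.L.z m * O.t * T.L.z n)⁻¹ * T.L.z n' * O.t) ≠ 0 := by
          intro h0; apply right_ne_zero_of_mul hne; rw [h0]; simp
        obtain ⟨j, hj⟩ := hωs _ h3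
        have h4 : T.L.z n' * O.t * T.L.z 0 = T.L.z m * O.t * T.L.z (n + j) := by
          rw [T.L.z_zero, mul_one, T.L.z_add, ← hj]; group
        apply hr
        rw [(O.inj _ _ _ _ h4).1]
    · have e1 : PB.cf (θ (PA.u S.w0)) s = 0 := by
        by_contra h
        exact hs (O.supp s h)
      rw [e1]
      have e2 : (fun r => ω r * conj (ω (s⁻¹ * r * O.t))) = fun _ => 0 := by
        funext r
        by_contra hne
        obtain ⟨m, rfl⟩ := hωs r (left_ne_zero_of_mul hne)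
        have h3 : ω (s⁻¹ * T.L.z m * O.t) ≠ 0 := by
          intro h0; apply right_ne_zero_of_mul hne; rw [h0]; simp
        obtain ⟨j, hj⟩ := hωs _ h3
        apply hs
        refine ⟨m, -j, ?_⟩
        rw [T.L.z_neg, ← hj]; group
      rw [e2] at hsum
      rw [← hasSum_zero.unique hsum, mul_zero]
  -- the subgroup of group-like elements
  let K : Subgroup Γ :=
    { carrier := {g | ∃ (s : Λ) (a : ℂ), ‖a‖ = 1 ∧ star w * θ (PA.u g) * w = a • PB.u s}
      one_mem' := ⟨1, 1, by simp, by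
        rw [PA.u_one, map_one, PB.u_one, one_smul, mul_one, hw1]⟩
      mul_mem' := by
        rintro g h ⟨s, a, ha, hs⟩ ⟨t, b, hb, ht⟩
        refine ⟨s * t, a * b, by rw [norm_mul, ha, hb, one_mul], ?_⟩
        rw [PA.u_mul, map_mul, PB.u_mul]
        calc star w * (θ (PA.u g) * θ (PA.u h)) * w
            = star w * θ (PA.u g) * 1 * θ (PA.u h) * w := by noncomm_ring
          _ = (star w * θ (PA.u g) * w) * (star w * θ (PA.u h) * w) := by
              rw [← hw2]; noncomm_ring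
          _ = (a • PB.u s) * (b • PB.u t) := by rw [hs, ht]
          _ = _ := by rw [smul_mul_smul_comm]
      inv_mem' := by
        rintro g ⟨s, a, ha, hs⟩
        refine ⟨s⁻¹, conj a, by rw [Complex.norm_conj, ha], ?_⟩
        have := congrArg star hs
        rw [star_mul, star_mul, star_star, ← map_star, PA.star_u, star_smul, PB.star_u,
          ← mul_assoc] at this
        exact this }
  have hKmem : ∀ g, g ∈ K ↔ ∃ (s : Λ) (a : ℂ), ‖a‖ = 1 ∧
    star w * θ (PA.u g) * w = a • PB.u s := fun g => Iff.rfl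
  have hK : K = ⊤ := by
    have aux : ∀ g s, (PA.coef PB θ htr).Pt g s → (∀ n, T.L.z n * s = s * T.L.z n) → g ∈ K := by
      intro g s hgs hs
      obtain ⟨a, ha, hθ⟩ := eq_of_pt PA PB θ htr hgs
      rw [hKmem]
      refine ⟨s, a, ha, ?_⟩
      rw [hθ]
      calc star w * (a • PB.u s) * w = a • (star w * (PB.u s * w)) := by
            rw [mul_smul_comm, smul_mul_assoc, mul_assoc]
        _ = a • ((star w * w) * PB.u s) := by rw [hcomm s hs, mul_assoc]
        _ = _ := by rw [hw1, one_mul]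
    refine S.gen K ?_ ?_ ?_
    · intro a
      exact aux _ _ (T.px a) (fun n => T.L.z_x n a)
    · intro a
      exact aux _ _ (T.py a) (fun n => T.L.z_y n a)
    · rw [hKmem]
      refine ⟨O.t, O.κ, O.norm_κ, ?_⟩
      change star w * θ (PA.u S.w0) * w = _
      rw [hw0]
      calc star w * (O.κ • (w * (PB.u O.t * star w))) * w
          = O.κ • ((star w * w) * PB.u O.t * (star w * w)) := by
            rw [mul_smul_comm, smul_mul_assoc]; congr 1; noncomm_ring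
        _ = _ := by rw [hw1, one_mul, mul_one]
  obtain ⟨δ, χ, hδ⟩ := canonical_of_grouplike PA PB θ htr w hw1 hw2 (fun g => by
    rw [← hKmem, hK]; trivial)
  exact ⟨δ, χ, w, hw1, hw2, hδ⟩

end build

end GAlg

end Vale.Agent.P092
end
end

section

section

namespace Vale.Agent.P092

open scoped InnerProductSpace ENNReal ComplexConjugate

namespace GAlg

section conv

variable {Γ Λ A B : Type*} [Group Γ] [Group Λ] [Ring A] [StarRing A] [Algebra ℂ A]
  [StarModule ℂ A] [Ring B] [StarRing B] [Algebra ℂ B] [StarModule ℂ B]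
  (PA : GAlg Γ A) (PB : GAlg Λ B)

lemma cf_conj_one {w : B} (hw1 : star w * w = 1) (x : B) :
    PB.cf (w * x * star w) 1 = PB.cf x 1 := by
  rw [PB.cf_mul_comm, ← mul_assoc, hw1, one_mul]

lemma cf_of_canonical (θ : A ≃⋆ₐ[ℂ] B) (htr : ∀ x, PB.cf (θ x) 1 = PA.cf x 1)
    (δ : Γ ≃* Λ) (χ : Γ →* Circle) (w : B) (hw1 : star w * w = 1) (hw2 : w * star w = 1)
    (h : ∀ g, θ (PA.u g) = (χ g : ℂ) • (w * PB.u (δ g) * star w)) (x : A) (g : Γ) :
    PB.cf (star w * θ x * w) (δ g) = (χ g : ℂ) * PA.cf x g := by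
  have e1 : PB.cf (star w * θ x * w) (δ g) = PB.cf (PB.u (δ g)⁻¹ * (star w * θ x * w)) 1 := by
    rw [PB.cf_u_mul, inv_inv, mul_one]
  have hχ : (χ g : ℂ) * (χ g⁻¹ : ℂ) = 1 := by
    rw [← Circle.coe_mul, ← map_mul, mul_inv_cancel, map_one, Circle.coe_one]
  have e2 : PB.u (δ g)⁻¹ = (χ g : ℂ) • (star w * θ (PA.u g⁻¹) * w) := by
    rw [h, mul_smul_comm, smul_mul_assoc, smul_smul, hχ, one_smul, map_inv δ]
    calc PB.u (δ g)⁻¹ = (star w * w) * PB.u (δ g)⁻¹ * (star w * w) := by rw [hw1]; noncomm_ring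
      _ = _ := by noncomm_ring
  have e3 : PB.u (δ g)⁻¹ * (star w * θ x * w) =
      (χ g : ℂ) • (star w * θ (PA.u g⁻¹ * x) * w) := by
    rw [e2, smul_mul_assoc, map_mul]
    congr 1
    calc star w * θ (PA.u g⁻¹) * w * (star w * θ x * w)
        = star w * θ (PA.u g⁻¹) * (w * star w) * θ x * w := by noncomm_ring
      _ = _ := by rw [hw2]; noncomm_ring
  rw [e1, e3, PB.cf_smul]
  congr 1
  have e4 : PB.cf (star w * θ (PA.u g⁻¹ * x) * w) 1 = PB.cf (θ (PA.u g⁻¹ * x)) 1 := by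
    have := cf_conj_one PB (w := star w) (by rw [star_star, hw2]) (θ (PA.u g⁻¹ * x))
    rwa [star_star] at this
  rw [e4, htr, PA.cf_u_mul, inv_inv, mul_one]

end conv

section iff

variable {R Γ Λ A B : Type*} [CommRing R] [Infinite R] [NoZeroDivisors R] [Group Γ] [Group Λ]
  [Ring A] [StarRing A] [Algebra ℂ A]
  [StarModule ℂ A] [Ring B] [StarRing B] [Algebra ℂ B] [StarModule ℂ B]
  (PA : GAlg Γ A) (PB : GAlg Λ B)

theorem abs_iff (S : SL3Data R Γ) (θ : A ≃⋆ₐ[ℂ] B)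
    (htr : ∀ x, PB.cf (θ x) 1 = PA.cf x 1) (X1 X2 : Subgroup Γ)
    (hX1 : (X1 : Set Γ) = Set.range S.x) (hX2 : (X2 : Set Γ) = Set.range S.y) :
    (∃ (δ : Γ ≃* Λ) (χ : Γ →* Circle) (w : B), star w * w = 1 ∧ w * star w = 1 ∧
      ∀ g, θ (PA.u g) = (χ g : ℂ) • (w * PB.u (δ g) * star w)) ↔
    ∃ (w : B) (Y1 Y2 : Subgroup Λ), star w * w = 1 ∧ w * star w = 1 ∧
      (∀ x, (∀ s, s ∉ X1 → PA.cf x s = 0) ↔ (∀ s, s ∉ Y1 → PB.cf (w * θ x * star w) s = 0)) ∧
      (∀ x, (∀ s, s ∉ X2 → PA.cf x s = 0) ↔ (∀ s, s ∉ Y2 → PB.cf (w * θ x * star w) s = 0)) := by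
  constructor
  · rintro ⟨δ, χ, w, hw1, hw2, h⟩
    have key : ∀ (X : Subgroup Γ) (x : A), (∀ s, s ∉ X → PA.cf x s = 0) ↔
        (∀ s, s ∉ X.map δ.toMonoidHom → PB.cf (star w * θ x * star (star w)) s = 0) := by
      intro X x
      rw [star_star]
      have hmem : ∀ g, δ g ∈ X.map δ.toMonoidHom ↔ g ∈ X := by
        intro g
        rw [Subgroup.mem_map]
        constructor
        · rintro ⟨g', hg', e⟩
          rwa [← δ.injective e]
        · intro hg
          exact ⟨g, hg, rfl⟩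
      constructor
      · intro hx s hs
        obtain ⟨g, rfl⟩ := δ.surjective s
        rw [cf_of_canonical PA PB θ htr δ χ w hw1 hw2 h, hx g, mul_zero]
        rwa [hmem] at hs
      · intro hx g hg
        have h1 := hx (δ g) (by rwa [hmem])
        rw [cf_of_canonical PA PB θ htr δ χ w hw1 hw2 h] at h1
        exact (mul_eq_zero.mp h1).resolve_left (Circle.coe_ne_zero _)
    exact ⟨star w, X1.map δ.toMonoidHom, X2.map δ.toMonoidHom, by rw [star_star, hw2],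
      by rw [star_star, hw1], key X1, key X2⟩
  · rintro ⟨w, Y1, Y2, hw1, hw2, h1, h2⟩
    let W : unitary B := ⟨w, Unitary.mem_iff.2 ⟨hw1, hw2⟩⟩
    let θ₁ : A ≃⋆ₐ[ℂ] B := θ.trans (Unitary.conjStarAlgAut ℂ B W)
    have hθ₁ : ∀ x, θ₁ x = w * θ x * star w := by
      intro x
      change Unitary.conjStarAlgAut ℂ B W (θ x) = _
      rw [Unitary.conjStarAlgAut_apply]
    have htr₁ : ∀ x, PB.cf (θ₁ x) 1 = PA.cf x 1 := by
      intro x
      rw [hθ₁, cf_conj_one PB hw1, htr]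
    obtain ⟨δ, χ, v, hv1, hv2, hv⟩ := exists_canonical PA PB S θ₁ htr₁ Y1 Y2
      (by
        intro x
        rw [← hX1, hθ₁]
        exact h1 x)
      (by
        intro x
        rw [← hX2, hθ₁]
        exact h2 x)
    refine ⟨δ, χ, star w * v, ?_, ?_, ?_⟩
    · rw [star_mul, star_star]
      calc star v * w * (star w * v) = star v * (w * star w) * v := by noncomm_ring
        _ = _ := by rw [hw2, mul_one, hv1]
    · rw [star_mul, star_star]
      calc star w * v * (star v * w) = star w * (v * star v) * w := by noncomm_ring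
        _ = _ := by rw [hv2, mul_one, hw1]
    · intro g
      have h3 := hv g
      rw [hθ₁] at h3
      calc θ (PA.u g) = (star w * w) * θ (PA.u g) * (star w * w) := by rw [hw1]; noncomm_ring
        _ = star w * (w * θ (PA.u g) * star w) * w := by noncomm_ring
        _ = (χ g : ℂ) • (star w * (v * PB.u (δ g) * star v) * w) := by
            rw [h3, mul_smul_comm, smul_mul_assoc]
        _ = _ := by
            rw [star_mul, star_star]
            congr 1
            noncomm_ring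

end iff

end GAlg

end Vale.Agent.P092
end
end

section

section

namespace Vale.Agent.P092

open Matrix

namespace SL3

variable {R : Type*} [CommRing R]

/-- `SL₃(R)` -/
abbrev G (R : Type*) [CommRing R] := Matrix.SpecialLinearGroup (Fin 3) R

def ex (a : R) : G R := ⟨!![1, a, 0; 0, 1, 0; 0, 0, 1], by simp [Matrix.det_fin_three]⟩
def ey (a : R) : G R := ⟨!![1, 0, 0; 0, 1, a; 0, 0, 1], by simp [Matrix.det_fin_three]⟩
def ez (a : R) : G R := ⟨!![1, 0, a; 0, 1, 0; 0, 0, 1], by simp [Matrix.det_fin_three]⟩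
def ww1 : G R := ⟨!![-1, 0, 0; 0, 0, 1; 0, 1, 0], by simp [Matrix.det_fin_three]⟩
def ww2 : G R := ⟨!![0, 1, 0; 1, 0, 0; 0, 0, -1], by simp [Matrix.det_fin_three]⟩

lemma vx (a : R) : (ex a).1 = !![1, a, 0; 0, 1, 0; 0, 0, 1] := rfl
lemma vy (a : R) : (ey a).1 = !![1, 0, 0; 0, 1, a; 0, 0, 1] := rfl
lemma vz (a : R) : (ez a).1 = !![1, 0, a; 0, 1, 0; 0, 0, 1] := rfl
lemma vw1 : (ww1 : G R).1 = !![-1, 0, 0; 0, 0, 1; 0, 1, 0] := rfl
lemma vw2 : (ww2 : G R).1 = !![0, 1, 0; 1, 0, 0; 0, 0, -1] := rfl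
lemma vm (A B : G R) : (A * B).1 = A.1 * B.1 := rfl
lemma v1 : (1 : G R).1 = !![1, 0, 0; 0, 1, 0; 0, 0, 1] := by
  rw [← Matrix.one_fin_three]; rfl

lemma ext3 {A B : G R} (h : ∀ i j, A.1 i j = B.1 i j) : A = B :=
  Subtype.ext (Matrix.ext h)

omit [CommRing R] in
lemma mat_inj {a b c d e f g h i a' b' c' d' e' f' g' h' i' : R}
    (H : !![a, b, c; d, e, f; g, h, i] = !![a', b', c'; d', e', f'; g', h', i']) :
    (a = a' ∧ b = b' ∧ c = c') ∧ (d = d' ∧ e = e' ∧ f = f') ∧ (g = g' ∧ h = h' ∧ i = i') := by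
  have h00 := congrFun (congrFun H 0) 0
  have h01 := congrFun (congrFun H 0) 1
  have h02 := congrFun (congrFun H 0) 2
  have h10 := congrFun (congrFun H 1) 0
  have h11 := congrFun (congrFun H 1) 1
  have h12 := congrFun (congrFun H 1) 2
  have h20 := congrFun (congrFun H 2) 0
  have h21 := congrFun (congrFun H 2) 1
  have h22 := congrFun (congrFun H 2) 2
  simp at h00 h01 h02 h10 h11 h12 h20 h21 h22
  exact ⟨⟨h00, h01, h02⟩, ⟨h10, h11, h12⟩, ⟨h20, h21, h22⟩⟩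

/-- the Heisenberg group of upper unitriangular matrices -/
def heis : Heis R (G R) where
  x := ex
  y := ey
  z := ez
  x_add a b := by
    apply Subtype.ext
    rw [vm]
    simp only [vx, vy, vz, Matrix.mul_fin_three]
    simp [add_comm]
  y_add a b := by
    apply Subtype.ext
    rw [vm]
    simp only [vx, vy, vz, Matrix.mul_fin_three]
    simp [add_comm]
  z_add a b := by
    apply Subtype.ext
    rw [vm]
    simp only [vx, vy, vz, Matrix.mul_fin_three]
    simp [add_comm]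
  z_x a b := by
    apply Subtype.ext
    rw [vm, vm]
    simp only [vx, vy, vz, Matrix.mul_fin_three]
    simp
  z_y a b := by
    apply Subtype.ext
    rw [vm, vm]
    simp only [vx, vy, vz, Matrix.mul_fin_three]
    simp
  x_y a b := by
    apply Subtype.ext
    rw [vm, vm, vm]
    simp only [vx, vy, vz, Matrix.mul_fin_three]
    simp
  inj a b c h := by
    have h1 := congrArg Subtype.val h
    rw [vm, vm, v1] at h1
    simp only [vx, vy, vz, Matrix.mul_fin_three] at h1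
    obtain ⟨⟨-, e1, e3⟩, ⟨-, -, e2⟩, -⟩ := mat_inj h1
    simp at e1 e2 e3
    subst e1 e2
    simp at e3
    exact ⟨rfl, rfl, e3⟩

lemma u_form (a b c : R) : (ez c * ex a * ey b : G R).1 = !![1, a, c + a * b; 0, 1, b; 0, 0, 1] := by
  rw [vm, vm]
  simp only [vx, vy, vz, Matrix.mul_fin_three]
  simp [add_comm]

lemma w0_val : (ww1 * ww2 * ww1 : G R).1 = !![0, 0, -1; 0, -1, 0; -1, 0, 0] := by
  rw [vm, vm]
  simp only [vw1, vw2, Matrix.mul_fin_three]
  simp

lemma exists_form (g : G R) : ∃ a b c d e f p q r : R, g.1 = !![a, b, c; d, e, f; p, q, r] :=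
  ⟨_, _, _, _, _, _, _, _, _, Matrix.eta_fin_three g.1⟩

/-- Sufficient data on `R` -/
theorem data_of [NoZeroDivisors R] (h3 : ∀ a : R, a ^ 3 = 1 → a = 1)
    (hgen : ∀ K : Subgroup (G R), (∀ a, ex a ∈ K) → (∀ a, ey a ∈ K) → ww1 * ww2 * ww1 ∈ K →
      K = ⊤) : ∃ S : SL3Data R (G R), S.toHeis = heis := by
  refine ⟨{ toHeis := heis
            w1 := ww1
            w2 := ww2
            w1_sq := ?_
            w2_sq := ?_
            braid := ?_
            w1_x := ?_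
            w1_z := ?_
            w2_y := ?_
            w2_z := ?_
            cent1 := ?_
            cent2 := ?_
            bruhat := ?_
            opp := ?_
            gen := hgen }, rfl⟩
  · apply Subtype.ext
    rw [vm, v1]
    simp only [vw1, Matrix.mul_fin_three]
    simp
  · apply Subtype.ext
    rw [vm, v1]
    simp only [vw2, Matrix.mul_fin_three]
    simp
  · apply Subtype.ext
    rw [w0_val, vm, vm]
    simp only [vw1, vw2, Matrix.mul_fin_three]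
    simp
  · intro a
    apply Subtype.ext
    change (ww1 * ex a * ww1 : G R).1 = (ez (-a)).1
    rw [vm, vm]
    simp only [vw1, vx, vz, Matrix.mul_fin_three]
    simp
  · intro a
    apply Subtype.ext
    change (ww1 * ez a * ww1 : G R).1 = (ex (-a)).1
    rw [vm, vm]
    simp only [vw1, vx, vz, Matrix.mul_fin_three]
    simp
  · intro a
    apply Subtype.ext
    change (ww2 * ey a * ww2 : G R).1 = (ez (-a)).1
    rw [vm, vm]
    simp only [vw2, vy, vz, Matrix.mul_fin_three]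
    simp
  · intro a
    apply Subtype.ext
    change (ww2 * ez a * ww2 : G R).1 = (ey (-a)).1
    rw [vm, vm]
    simp only [vw2, vy, vz, Matrix.mul_fin_three]
    simp
  · intro g a b ha hb h1 h2
    change g * ex a = ex a * g at h1
    change g * ez b = ez b * g at h2
    change ∃ c d, g = ex c * ez d
    obtain ⟨g1, g2, g3, g4, g5, g6, g7, g8, g9, hg⟩ := exists_form g
    have e1 := congrArg Subtype.val h1
    have e2 := congrArg Subtype.val h2
    rw [vm, vm, hg] at e1 e2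
    simp only [vx, vz, Matrix.mul_fin_three] at e1 e2
    obtain ⟨⟨a1, a2, a3⟩, ⟨-, -, -⟩, ⟨-, a8, -⟩⟩ := mat_inj e1
    obtain ⟨⟨-, b2, b3⟩, -, -⟩ := mat_inj e2
    have g4z : g4 = 0 := by
      have : a * g4 = 0 := by linear_combination -a1
      exact (mul_eq_zero.mp this).resolve_left ha
    have g5e : g5 = g1 := by
      have : a * (g5 - g1) = 0 := by linear_combination -a2
      exact sub_eq_zero.mp ((mul_eq_zero.mp this).resolve_left ha)
    have g6z : g6 = 0 := by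
      have : a * g6 = 0 := by linear_combination -a3
      exact (mul_eq_zero.mp this).resolve_left ha
    have g7z : g7 = 0 := by
      have : a * g7 = 0 := by linear_combination a8
      exact (mul_eq_zero.mp this).resolve_left ha
    have g8z : g8 = 0 := by
      have : b * g8 = 0 := by linear_combination -b2
      exact (mul_eq_zero.mp this).resolve_left hb
    have g9e : g9 = g1 := by
      have : b * (g9 - g1) = 0 := by linear_combination -b3
      exact sub_eq_zero.mp ((mul_eq_zero.mp this).resolve_left hb)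
    have hdet := g.2
    rw [hg, Matrix.det_fin_three] at hdet
    simp at hdet
    have g1e : g1 = 1 := by
      apply h3
      subst g4z g6z g7z g8z
      rw [g5e, g9e] at hdet
      linear_combination hdet
    refine ⟨g2, g3, Subtype.ext ?_⟩
    rw [hg, vm]
    simp only [vx, vz, Matrix.mul_fin_three]
    subst g4z g6z g7z g8z
    rw [g5e, g9e, g1e]
    simp
  · intro g a b ha hb h1 h2
    change g * ey a = ey a * g at h1
    change g * ez b = ez b * g at h2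
    change ∃ c d, g = ey c * ez d
    obtain ⟨g1, g2, g3, g4, g5, g6, g7, g8, g9, hg⟩ := exists_form g
    have e1 := congrArg Subtype.val h1
    have e2 := congrArg Subtype.val h2
    rw [vm, vm, hg] at e1 e2
    simp only [vy, vz, Matrix.mul_fin_three] at e1 e2
    obtain ⟨⟨-, -, a3⟩, ⟨a4, a5, a6⟩, -⟩ := mat_inj e1
    obtain ⟨⟨b1, -, b3⟩, ⟨-, -, b6⟩, -⟩ := mat_inj e2
    -- `g E₁₂ = E₁₂ g`
    have g2z : g2 = 0 := by
      have : a * g2 = 0 := by linear_combination a3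
      exact (mul_eq_zero.mp this).resolve_left ha
    have g7z : g7 = 0 := by
      have : a * g7 = 0 := by linear_combination -a4
      exact (mul_eq_zero.mp this).resolve_left ha
    have g8z : g8 = 0 := by
      have : a * g8 = 0 := by linear_combination -a5
      exact (mul_eq_zero.mp this).resolve_left ha
    have g9e : g9 = g5 := by
      have : a * (g9 - g5) = 0 := by linear_combination -a6
      exact sub_eq_zero.mp ((mul_eq_zero.mp this).resolve_left ha)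
    have g9e' : g9 = g1 := by
      have : b * (g9 - g1) = 0 := by linear_combination -b3
      exact sub_eq_zero.mp ((mul_eq_zero.mp this).resolve_left hb)
    have g4z : g4 = 0 := by
      have : b * g4 = 0 := by linear_combination b6
      exact (mul_eq_zero.mp this).resolve_left hb
    have hdet := g.2
    rw [hg, Matrix.det_fin_three] at hdet
    simp at hdet
    have g5e : g5 = g1 := by rw [← g9e, g9e']
    have g1e : g1 = 1 := by
      apply h3
      subst g2z g4z g7z g8z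
      rw [g5e, g9e'] at hdet
      linear_combination hdet
    refine ⟨g6, g3, Subtype.ext ?_⟩
    rw [hg, vm]
    simp only [vy, vz, Matrix.mul_fin_three]
    subst g2z g4z g7z g8z
    rw [g5e, g9e', g1e]
    simp
  · rintro _ _ _ _ ⟨a, b, c, rfl⟩ ⟨a', b', c', rfl⟩ ⟨p, q, r, rfl⟩ ⟨p', q', r', rfl⟩ h
    change (ez c * ex a * ey b) * (ww1 * ww2 * ww1) * (ez c' * ex a' * ey b') =
      (ez r * ex p * ey q) * (ww1 * ww2 * ww1) * (ez r' * ex p' * ey q') at h
    change (ez c * ex a * ey b) = (ez r * ex p * ey q) ∧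
      (ez c' * ex a' * ey b') = (ez r' * ex p' * ey q')
    have e := congrArg Subtype.val h
    rw [vm, vm, u_form, u_form, w0_val, vm, vm, u_form, u_form, w0_val] at e
    simp only [Matrix.mul_fin_three] at e
    obtain ⟨⟨a1, a2, a3⟩, ⟨a4, a5, a6⟩, ⟨a7, a8, a9⟩⟩ := mat_inj e
    have hb : b = q := by linear_combination -a4
    have ha' : a' = p' := by linear_combination -a8
    subst hb ha'
    have hca : c + a * b = r + p * b := by linear_combination -a1
    have hca' : c' + a' * b' = r' + a' * q' := by linear_combination -a9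
    have ha : a = p := by linear_combination -a2 - a' * hca
    have hb' : b' = q' := by linear_combination -a6 - b * hca'
    subst ha hb'
    have hc : c = r := by linear_combination hca
    have hc' : c' = r' := by linear_combination hca'
    subst hc hc'
    exact ⟨rfl, rfl⟩
  · intro m n c d h
    change ww2 * ex m * ww2 * ex n = ey c * ez d at h
    have e := congrArg Subtype.val h
    rw [vm, vm, vm, vm] at e
    simp only [vx, vy, vz, vw2, Matrix.mul_fin_three] at e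
    obtain ⟨⟨a1, a2, a3⟩, ⟨a4, a5, a6⟩, ⟨a7, a8, a9⟩⟩ := mat_inj e
    constructor
    · linear_combination a4
    · linear_combination a2

end SL3

end Vale.Agent.P092
end
end
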