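import Vale.Agent.P092.Defs
import Vale.Agent.P092.Bdl.B1
import Vale.Agent.P092.Root

set_option linter.all false

section

section

namespace Vale.Agent.P092

open scoped InnerProductSpace ComplexConjugate

section basic

variable {G H : Type*} [NormedAddCommGroup H] [InnerProductSpace ℂ H] [CompleteSpace H]
  (b : HilbertBasis G ℂ H)

/-- coordinates in the basis `b` -/
noncomputable def co (ξ : H) (s : G) : ℂ := ⟪b s, ξ⟫_ℂ

omit [CompleteSpace H] in
lemma co_self (g : G) : co b (b g) g = 1 := by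
  classical
  unfold co
  rw [orthonormal_iff_ite.1 b.orthonormal, if_pos rfl]

omit [CompleteSpace H] in
lemma co_ne {g h : G} (hne : h ≠ g) : co b (b g) h = 0 := by
  classical
  unfold co
  rw [orthonormal_iff_ite.1 b.orthonormal, if_neg hne]

omit [CompleteSpace H] in
lemma inner_right (g : G) (ξ : H) : ⟪ξ, b g⟫_ℂ = conj (co b ξ g) := by
  unfold co
  rw [inner_conj_symm]

omit [CompleteSpace H] in
lemma hasSum_co (ξ : H) : HasSum (fun g => co b ξ g • b g) ξ := by
  have h := b.hasSum_repr ξ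
  have h1 : (fun g => co b ξ g • b g) = fun g => b.repr ξ g • b g := by
    funext g
    rw [b.repr_apply_apply]
    rfl
  rw [h1]; exact h

omit [CompleteSpace H] in
lemma clm_ext {A B : H →L[ℂ] H} (h : ∀ s, A (b s) = B (b s)) : A = B := by
  ext1 ξ
  have h1 := (hasSum_co b ξ).mapL A
  have h2 := (hasSum_co b ξ).mapL B
  have h3 : (fun g => A (co b ξ g • b g)) = fun g => B (co b ξ g • b g) := by
    funext g
    rw [map_smul, map_smul, h]
  rw [h3] at h1
  exact h1.unique h2

omit [CompleteSpace H] in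
lemma vec_ext {ξ η : H} (h : ∀ s, co b ξ s = co b η s) : ξ = η := by
  have h1 := hasSum_co b ξ
  have h2 := hasSum_co b η
  have h3 : (fun g => co b ξ g • b g) = fun g => co b η g • b g := by
    funext g
    rw [h]
  rw [h3] at h1
  exact h1.unique h2

omit [CompleteSpace H] in
lemma clm_ext' {A B : H →L[ℂ] H} (h : ∀ s t, co b (A (b s)) t = co b (B (b s)) t) : A = B :=
  clm_ext b fun s => vec_ext b fun t => h s t

omit [CompleteSpace H] in
lemma co_add (ξ η : H) (s : G) : co b (ξ + η) s = co b ξ s + co b η s := inner_add_right _ _ _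

omit [CompleteSpace H] in
lemma co_sub (ξ η : H) (s : G) : co b (ξ - η) s = co b ξ s - co b η s := inner_sub_right _ _ _

omit [CompleteSpace H] in
lemma co_smul (c : ℂ) (ξ : H) (s : G) : co b (c • ξ) s = c * co b ξ s := inner_smul_right _ _ _

omit [CompleteSpace H] in
lemma co_zero (s : G) : co b 0 s = 0 := inner_zero_right _

omit [CompleteSpace H] in
lemma norm_co_le (ξ : H) (s : G) : ‖co b ξ s‖ ≤ ‖ξ‖ := by
  have h := norm_inner_le_norm (𝕜 := ℂ) (b s) ξ
  rwa [b.orthonormal.1 s, one_mul] at h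

omit [CompleteSpace H] in
lemma hasSum_inner (ξ η : H) : HasSum (fun s => conj (co b ξ s) * co b η s) ⟪ξ, η⟫_ℂ := by
  have h := b.hasSum_inner_mul_inner ξ η
  have h1 : (fun i => ⟪ξ, b i⟫_ℂ * ⟪b i, η⟫_ℂ) = fun s => conj (co b ξ s) * co b η s := by
    funext s
    rw [inner_right]
    rfl
  rw [h1] at h
  exact h

omit [CompleteSpace H] in
lemma hasSum_norm_sq (ξ : H) : HasSum (fun s => ‖co b ξ s‖ ^ 2) (‖ξ‖ ^ 2) := by
  have h := Complex.hasSum_re (hasSum_inner b ξ ξ)
  have h1 : (⟪ξ, ξ⟫_ℂ).re = ‖ξ‖ ^ 2 := inner_self_eq_norm_sq (𝕜 := ℂ) ξ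
  rw [h1] at h
  convert h using 1
  funext s
  rw [mul_comm, Complex.mul_conj, Complex.normSq_eq_norm_sq, Complex.ofReal_re]

lemma star_entry (A : H →L[ℂ] H) (s t : G) :
    co b ((star A) (b s)) t = conj (co b (A (b t)) s) := by
  unfold co
  rw [ContinuousLinearMap.star_eq_adjoint, ContinuousLinearMap.adjoint_inner_right,
    inner_conj_symm]

omit [CompleteSpace H] in
lemma comp_entry (A B : H →L[ℂ] H) (h k : G) :
    HasSum (fun j => co b (A (b j)) h * co b (B (b k)) j) (co b (A (B (b k))) h) := by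
  have h1 := ((hasSum_co b (B (b k))).mapL A).mapL (innerSL ℂ (b h))
  have h2 : (fun i => innerSL ℂ (b h) (A (co b (B (b k)) i • b i))) =
      fun j => co b (A (b j)) h * co b (B (b k)) j := by
    funext j
    rw [map_smul, innerSL_apply_apply, inner_smul_right, mul_comm]
    rfl
  rw [h2, innerSL_apply_apply] at h1
  exact h1

/-- The operator permuting the basis vectors. -/
theorem exists_perm (e : G ≃ G) :
    ∃ T : H →L[ℂ] H, (∀ s, T (b s) = b (e s)) ∧ ∀ ξ, ‖T ξ‖ = ‖ξ‖ :=
  exists_isom b (fun s => b (e s)) (b.orthonormal.comp _ e.injective)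

/-- The operator permuting the basis vectors. -/
noncomputable def perm (e : G ≃ G) : H →L[ℂ] H := Classical.choose (exists_perm b e)

lemma perm_apply (e : G ≃ G) (s : G) : perm b e (b s) = b (e s) :=
  (Classical.choose_spec (exists_perm b e)).1 s

lemma norm_perm (e : G ≃ G) (ξ : H) : ‖perm b e ξ‖ = ‖ξ‖ :=
  (Classical.choose_spec (exists_perm b e)).2 ξ

lemma star_perm (e : G ≃ G) : star (perm b e) = perm b e.symm := by
  apply clm_ext' b
  intro s t
  rw [star_entry, perm_apply, perm_apply]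
  by_cases h : s = e t
  · subst h
    rw [co_self, Equiv.symm_apply_apply, co_self, map_one]
  · rw [co_ne b h, co_ne, map_zero]
    intro h2
    apply h
    rw [h2, Equiv.apply_symm_apply]

lemma co_perm (e : G ≃ G) (ξ : H) (s : G) : co b (perm b e ξ) s = co b ξ (e.symm s) := by
  unfold co
  rw [← perm_apply, ← star_perm, ContinuousLinearMap.star_eq_adjoint,
    ContinuousLinearMap.adjoint_inner_left]

end basic

section group

variable {G H : Type*} [Group G] [NormedAddCommGroup H] [InnerProductSpace ℂ H] [CompleteSpace H]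
  (b : HilbertBasis G ℂ H)

lemma uu_apply (g h : G) : uu b g (b h) = b (g * h) :=
  Classical.choose_spec (exists_left b g) h

lemma uu_eq (g : G) : uu b g = perm b (Equiv.mulLeft g) := by
  apply clm_ext b
  intro s
  rw [uu_apply, perm_apply]
  rfl

/-- The right regular unitary `ρ_g b_h = b_{h g⁻¹}`. -/
noncomputable def rho (g : G) : H →L[ℂ] H := perm b (Equiv.mulRight g⁻¹)

lemma rho_apply (g h : G) : rho b g (b h) = b (h * g⁻¹) := perm_apply b _ _

lemma co_uu (g : G) (ξ : H) (h : G) : co b (uu b g ξ) h = co b ξ (g⁻¹ * h) := by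
  rw [uu_eq, co_perm]
  rfl

lemma co_rho (g : G) (ξ : H) (h : G) : co b (rho b g ξ) h = co b ξ (h * g) := by
  unfold rho
  rw [co_perm]
  simp

lemma uu_mul (g h : G) : uu b (g * h) = uu b g * uu b h := by
  apply clm_ext b
  intro s
  rw [mul_apply_eq_comp, uu_apply, uu_apply, uu_apply, mul_assoc]

lemma uu_one : uu b (1 : G) = 1 := by
  apply clm_ext b
  intro s
  rw [uu_apply, one_mul, one_apply_eq_self]

lemma star_uu (g : G) : star (uu b g) = uu b g⁻¹ := by
  rw [uu_eq, star_perm, uu_eq]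
  congr 1
  ext h
  simp

lemma star_rho (g : G) : star (rho b g) = rho b g⁻¹ := by
  unfold rho
  rw [star_perm]
  congr 1
  ext h
  simp

lemma uu_rho (g h : G) : rho b h * uu b g = uu b g * rho b h := by
  apply clm_ext b
  intro s
  rw [mul_apply_eq_comp, mul_apply_eq_comp, uu_apply, rho_apply, rho_apply,
    uu_apply, mul_assoc]

/-- The symmetry which is `1` on the span of the `b s`, `s ∈ Y`, and `-1` on the orthogonal
complement. -/
theorem exists_sgn (Y : Subgroup G) :
    ∃ T : H →L[ℂ] H, (∀ s ∈ Y, T (b s) = b s) ∧ ∀ s, s ∉ Y → T (b s) = - b s := by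
  classical
  obtain ⟨T, hT, -⟩ := exists_isom b (fun s => (if s ∈ Y then (1 : ℂ) else -1) • b s) (by
    rw [orthonormal_iff_ite]
    intro s t
    rw [inner_smul_left, inner_smul_right, orthonormal_iff_ite.1 b.orthonormal]
    by_cases hst : s = t
    · subst hst
      by_cases hs : s ∈ Y <;> simp [hs]
    · simp [hst])
  refine ⟨T, fun s hs => ?_, fun s hs => ?_⟩
  · rw [hT, if_pos hs, one_smul]
  · rw [hT, if_neg hs, neg_smul, one_smul]

lemma mem_LSub_def (Y : Subgroup G) (x : H →L[ℂ] H) :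
    x ∈ LSub b Y ↔ ∀ T : H →L[ℂ] H, (∀ y ∈ Y, uu b y * T = T * uu b y) → T * x = x * T := by
  unfold LSub
  rw [Set.mem_centralizer_iff]
  constructor
  · intro h T hT
    apply h T
    rw [Set.mem_centralizer_iff]
    rintro _ ⟨y, hy, rfl⟩
    exact hT y hy
  · intro h T hT
    rw [Set.mem_centralizer_iff] at hT
    exact h T fun y hy => hT _ ⟨y, hy, rfl⟩

/-- Description of `L(Y)`: operators commuting with the right translations, with coefficients
supported in `Y`. -/
theorem mem_LSub_iff (Y : Subgroup G) (x : H →L[ℂ] H) :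
    x ∈ LSub b Y ↔
      (∀ r, rho b r * x = x * rho b r) ∧ ∀ s, s ∉ Y → co b (x (b 1)) s = 0 := by
  rw [mem_LSub_def]
  constructor
  · intro h
    refine ⟨fun r => h (rho b r) fun y _ => (uu_rho b y r).symm, ?_⟩
    intro s hs
    obtain ⟨T, hT1, hT2⟩ := exists_sgn b Y
    have hc := h T (by
      intro y hy
      apply clm_ext b
      intro t
      rw [mul_apply_eq_comp, mul_apply_eq_comp, uu_apply]
      by_cases ht : t ∈ Y
      · rw [hT1 t ht, hT1 _ (Y.mul_mem hy ht), uu_apply]
      · rw [hT2 t ht, hT2, map_neg, uu_apply]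
        intro h2
        apply ht
        have := Y.mul_mem (Y.inv_mem hy) h2
        rwa [inv_mul_cancel_left] at this)
    have h1 : x (b 1) = T (x (b 1)) := by
      rw [← mul_apply_eq_comp, hc, mul_apply_eq_comp, hT1 1 Y.one_mem]
    have h2 : star T (b s) = - b s := by
      apply vec_ext b
      intro t
      rw [star_entry]
      have e0 : co b (-b s) t = - co b (b s) t := inner_neg_right _ _
      have e1 : co b (-b t) s = - co b (b t) s := inner_neg_right _ _
      rw [e0]
      by_cases hts : t = s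
      · subst hts
        rw [hT2 _ hs, e1, co_self, map_neg, map_one]
      · rw [co_ne b hts]
        by_cases ht : t ∈ Y
        · rw [hT1 t ht, co_ne b (Ne.symm hts)]; simp
        · rw [hT2 t ht, e1, co_ne b (Ne.symm hts)]; simp
    have h3 : co b (x (b 1)) s = - co b (x (b 1)) s := by
      conv_lhs => rw [h1]
      unfold co
      rw [← ContinuousLinearMap.adjoint_inner_left, ← ContinuousLinearMap.star_eq_adjoint, h2,
        inner_neg_left]
    have h4 : (2 : ℂ) * co b (x (b 1)) s = 0 := by linear_combination h3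
    exact (mul_eq_zero.mp h4).resolve_left two_ne_zero
  · rintro ⟨hx, hY⟩ T hT
    have hent : ∀ h s, co b (x (b s)) h = co b (x (b 1)) (h * s⁻¹) := by
      intro h s
      have h1 : b s = rho b s⁻¹ (b (1 : G)) := by rw [rho_apply]; simp
      rw [h1, ← mul_apply_eq_comp, ← hx, mul_apply_eq_comp, co_rho]
    apply clm_ext' b
    intro s h
    rw [mul_apply_eq_comp, mul_apply_eq_comp]
    have e1 := comp_entry b T x h s
    have e2 := comp_entry b x T h s
    have e1' := (Equiv.mulRight s).hasSum_iff.mpr e1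
    have e2' := ((Equiv.inv G).trans (Equiv.mulRight h)).hasSum_iff.mpr e2
    refine e1'.unique ?_
    convert e2' using 1
    funext y
    simp only [Function.comp, Equiv.coe_mulRight, Equiv.trans_apply, Equiv.inv_apply]
    rw [hent (y * s) s, hent h, mul_inv_cancel_right]
    have e3 : h * (y⁻¹ * h)⁻¹ = y := by group
    rw [e3]
    by_cases hy : y ∈ Y
    · have h4 := hT y hy
      have h5 : T (b (y * s)) = uu b y (T (b s)) := by
        rw [← uu_apply, ← mul_apply_eq_comp, ← h4, mul_apply_eq_comp]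
      rw [h5, co_uu, mul_comm]
    · rw [hY y hy]; simp

lemma LGrp_eq : LGrp b = LSub b (⊤ : Subgroup G) := by
  unfold LGrp LSub
  rw [Subgroup.coe_top, Set.image_univ]

theorem mem_LGrp_iff (x : H →L[ℂ] H) : x ∈ LGrp b ↔ ∀ r, rho b r * x = x * rho b r := by
  rw [LGrp_eq, mem_LSub_iff]
  simp

lemma LSub_le (Y : Subgroup G) {x : H →L[ℂ] H} (hx : x ∈ LSub b Y) : x ∈ LGrp b :=
  (mem_LGrp_iff b x).2 ((mem_LSub_iff b Y x).1 hx).1

/-- The group von Neumann algebra as a bundled von Neumann algebra. -/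
noncomputable def VG : VonNeumannAlgebra H where
  toStarSubalgebra := StarSubalgebra.centralizer ℂ (Set.range (rho b))
  centralizer_centralizer' := Set.centralizer_centralizer_centralizer _

lemma mem_VG (x : H →L[ℂ] H) : x ∈ (VG b).toStarSubalgebra ↔ x ∈ LGrp b := by
  rw [mem_LGrp_iff]
  change x ∈ StarSubalgebra.centralizer ℂ (Set.range (rho b)) ↔ _
  rw [StarSubalgebra.mem_centralizer_iff]
  constructor
  · intro h r
    exact (h _ ⟨r, rfl⟩).1
  · rintro h _ ⟨r, rfl⟩
    rw [star_rho]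
    exact ⟨h r, h r⁻¹⟩

lemma mem_VG_iff (x : H →L[ℂ] H) :
    x ∈ (VG b).toStarSubalgebra ↔ ∀ r, rho b r * x = x * rho b r := by
  rw [mem_VG, mem_LGrp_iff]

/-- `u_g` as an element of the algebra -/
noncomputable def ug (g : G) : (VG b).toStarSubalgebra :=
  ⟨uu b g, (mem_VG_iff b _).2 fun r => uu_rho b g r⟩

/-- The coefficient of `x` at `s`. -/
noncomputable def cf (x : (VG b).toStarSubalgebra) (s : G) : ℂ := co b (x.1 (b 1)) s

lemma entry (x : (VG b).toStarSubalgebra) (h s : G) :
    co b (x.1 (b s)) h = cf b x (h * s⁻¹) := by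
  have hx := (mem_VG_iff b x.1).1 x.2
  have h1 : b s = rho b s⁻¹ (b (1 : G)) := by rw [rho_apply]; simp
  rw [h1, ← mul_apply_eq_comp, ← hx, mul_apply_eq_comp, co_rho]
  rfl

lemma cf_ext {x y : (VG b).toStarSubalgebra} (h : ∀ s, cf b x s = cf b y s) : x = y := by
  apply Subtype.ext
  apply clm_ext' b
  intro s t
  rw [entry, entry, h]

lemma cf_mul (x y : (VG b).toStarSubalgebra) (s : G) :
    HasSum (fun t => cf b x t * cf b y (t⁻¹ * s)) (cf b (x * y) s) := by
  have h1 : HasSum (fun j => co b (x.1 (b j)) s * co b (y.1 (b 1)) j) (cf b (x * y) s) :=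
    comp_entry b x.1 y.1 s 1
  have h2 := ((Equiv.inv G).trans (Equiv.mulRight s)).hasSum_iff.mpr h1
  convert h2 using 1
  funext t
  simp only [Function.comp, Equiv.coe_mulRight, Equiv.trans_apply, Equiv.inv_apply]
  rw [entry]
  have e3 : s * (t⁻¹ * s)⁻¹ = t := by group
  rw [e3]
  rfl

lemma cf_star (x : (VG b).toStarSubalgebra) (s : G) : cf b (star x) s = conj (cf b x s⁻¹) := by
  have h1 := star_entry b x.1 1 s
  rw [entry, one_mul] at h1
  exact h1

lemma cf_one_self : cf b (1 : (VG b).toStarSubalgebra) 1 = 1 := co_self b 1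

lemma cf_one_ne {s : G} (hs : s ≠ 1) : cf b (1 : (VG b).toStarSubalgebra) s = 0 := co_ne b hs

lemma cf_ug_self (g : G) : cf b (ug b g) g = 1 := by
  change co b (uu b g (b 1)) g = 1
  rw [uu_apply, mul_one, co_self]

lemma cf_ug_ne {g s : G} (h : s ≠ g) : cf b (ug b g) s = 0 := by
  change co b (uu b g (b 1)) s = 0
  rw [uu_apply, mul_one, co_ne b h]

lemma cf_add (x y : (VG b).toStarSubalgebra) (s : G) :
    cf b (x + y) s = cf b x s + cf b y s := co_add b _ _ _

lemma cf_sub (x y : (VG b).toStarSubalgebra) (s : G) :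
    cf b (x - y) s = cf b x s - cf b y s := co_sub b _ _ _

lemma cf_smul (a : ℂ) (x : (VG b).toStarSubalgebra) (s : G) :
    cf b (a • x) s = a * cf b x s := co_smul b _ _ _

lemma ug_mul (g h : G) : ug b (g * h) = ug b g * ug b h := Subtype.ext (uu_mul b g h)

lemma ug_one : ug b (1 : G) = 1 := Subtype.ext (uu_one b)

lemma star_ug (g : G) : star (ug b g) = ug b g⁻¹ := Subtype.ext (star_uu b g)

/-- The trace property. -/
lemma cf_mul_comm (x y : (VG b).toStarSubalgebra) : cf b (x * y) 1 = cf b (y * x) 1 := by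
  have h1 := cf_mul b x y 1
  have h2 := cf_mul b y x 1
  have h3 := (Equiv.inv G).hasSum_iff.mpr h2
  refine h1.unique ?_
  convert h3 using 1
  funext t
  simp only [Function.comp, Equiv.inv_apply, mul_one, inv_inv]
  rw [mul_comm]

lemma mem_LSub_iff_cf (Y : Subgroup G) (x : (VG b).toStarSubalgebra) :
    x.1 ∈ LSub b Y ↔ ∀ s, s ∉ Y → cf b x s = 0 := by
  rw [mem_LSub_iff]
  exact ⟨fun h => h.2, fun h => ⟨(mem_VG_iff b x.1).1 x.2, h⟩⟩

lemma cf_star_mul_self (x : (VG b).toStarSubalgebra) :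
    HasSum (fun t => ‖cf b x t‖ ^ 2) (cf b (star x * x) 1).re := by
  have h1 := cf_mul b (star x) x 1
  have h2 := (Equiv.inv G).hasSum_iff.mpr h1
  have h3 := Complex.hasSum_re h2
  convert h3 using 1
  funext t
  simp only [Function.comp, Equiv.inv_apply, mul_one, inv_inv]
  rw [cf_star, inv_inv, mul_comm, Complex.mul_conj, Complex.normSq_eq_norm_sq, Complex.ofReal_re]

lemma eq_zero_of_cf_star_mul_self {x : (VG b).toStarSubalgebra}
    (h : cf b (star x * x) 1 = 0) : x = 0 := by
  apply cf_ext b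
  intro s
  have h1 := cf_star_mul_self b x
  rw [h, Complex.zero_re] at h1
  have h2 := (hasSum_zero_iff_of_nonneg (fun t => by positivity)).1 h1
  have h3 := congrFun h2 s
  simp only [Pi.zero_apply] at h3
  have h4 : cf b x s = 0 := by
    have : ‖cf b x s‖ = 0 := by
      exact pow_eq_zero_iff (two_ne_zero) |>.1 h3
    exact norm_eq_zero.1 this
  rw [h4]
  exact (co_zero b s).symm

end group

end Vale.Agent.P092
end
end

section

section

namespace Vale.Agent.P092

open scoped InnerProductSpace ComplexConjugate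

variable {Λ H : Type*} [Group Λ] [NormedAddCommGroup H] [InnerProductSpace ℂ H] [CompleteSpace H]
  (b : HilbertBasis Λ ℂ H)

omit [Group Λ] [CompleteSpace H] in
lemma exists_vec (ω : Λ → ℂ) (h1 : Summable (fun s => ‖ω s‖ ^ 2)) :
    ∃ Ω : H, ∀ s, co b Ω s = ω s := by
  let Ω : lp (fun _ : Λ => ℂ) 2 := ⟨ω, memℓp_gen (by simpa using h1)⟩
  refine ⟨b.repr.symm Ω, fun s => ?_⟩
  unfold co
  rw [← b.repr_apply_apply, LinearIsometryEquiv.apply_symm_apply]

/-- A square summable function with orthonormal translates gives a unitary of `L(Λ)`. -/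
theorem exists_unitary (ω : Λ → ℂ) (h1 : HasSum (fun s => ‖ω s‖ ^ 2) 1)
    (h2 : ∀ k, k ≠ 1 → HasSum (fun s => conj (ω s) * ω (s * k)) 0) :
    ∃ w : (VG b).toStarSubalgebra, star w * w = 1 ∧ w * star w = 1 ∧ ∀ s, cf b w s = ω s := by
  classical
  obtain ⟨Ω, hΩ⟩ := exists_vec b ω h1.summable
  let v : Λ → H := fun s => rho b s⁻¹ Ω
  have hv : ∀ s h, co b (v s) h = ω (h * s⁻¹) := by
    intro s h
    change co b (rho b s⁻¹ Ω) h = _
    rw [co_rho, hΩ]
  have hinner : ∀ s t, HasSum (fun h => conj (ω h) * ω (h * (s * t⁻¹))) ⟪v s, v t⟫_ℂ := by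
    intro s t
    have h3 := hasSum_inner b (v s) (v t)
    have h4 := (Equiv.mulRight s).hasSum_iff.mpr h3
    have h5 : ((fun i => conj (co b (v s) i) * co b (v t) i) ∘ ⇑(Equiv.mulRight s)) =
        fun h => conj (ω h) * ω (h * (s * t⁻¹)) := by
      funext h
      simp only [Function.comp, Equiv.coe_mulRight]
      rw [hv, hv, mul_inv_cancel_right, mul_assoc]
    rw [h5] at h4
    exact h4
  have hself : ∀ s, ⟪v s, v s⟫_ℂ = 1 := by
    intro s
    have h3 := hinner s s
    rw [mul_inv_cancel] at h3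
    have h4 := Complex.hasSum_ofReal.mpr h1
    have h5 : (fun h => conj (ω h) * ω (h * 1)) = fun s => ((‖ω s‖ ^ 2 : ℝ) : ℂ) := by
      funext h
      rw [mul_one, mul_comm, Complex.mul_conj, Complex.normSq_eq_norm_sq]
    rw [h5] at h3
    simpa using h3.unique h4
  have hvo : Orthonormal ℂ v := by
    rw [orthonormal_iff_ite]
    intro s t
    by_cases hst : s = t
    · subst hst
      rw [if_pos rfl, hself]
    · rw [if_neg hst]
      refine (hinner s t).unique (h2 _ ?_)
      intro h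
      exact hst (mul_inv_eq_one.mp h)
  obtain ⟨W, hW, hWn⟩ := exists_isom b v hvo
  have hWL : W ∈ (VG b).toStarSubalgebra := by
    rw [mem_VG_iff]
    intro r
    apply clm_ext b
    intro s
    rw [mul_apply_eq_comp, mul_apply_eq_comp, rho_apply, hW, hW]
    apply vec_ext b
    intro h
    rw [co_rho, hv, hv]
    congr 1
    group
  let w : (VG b).toStarSubalgebra := ⟨W, hWL⟩
  have hcf : ∀ s, cf b w s = ω s := by
    intro s
    change co b (W (b 1)) s = ω s
    rw [hW, hv, inv_one, mul_one]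
  have hw1 : star w * w = 1 := by
    apply Subtype.ext
    change star W * W = 1
    rw [ContinuousLinearMap.star_eq_adjoint]
    exact (ContinuousLinearMap.norm_map_iff_adjoint_comp_self _).1 hWn
  have hq : 1 - w * star w = 0 := by
    apply eq_zero_of_cf_star_mul_self b
    have e1 : star (1 - w * star w) * (1 - w * star w) = 1 - w * star w := by
      rw [star_sub, star_mul, star_star, star_one]
      have : w * star w * (w * star w) = w * star w := by
        calc w * star w * (w * star w) = w * (star w * w) * star w := by noncomm_ring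
          _ = _ := by rw [hw1, mul_one]
      calc (1 - w * star w) * (1 - w * star w)
          = 1 - w * star w - w * star w + w * star w * (w * star w) := by noncomm_ring
        _ = _ := by rw [this]; noncomm_ring
    rw [e1, cf_sub, cf_mul_comm, hw1, sub_self]
  exact ⟨w, hw1, (sub_eq_zero.mp hq).symm, hcf⟩

/-- `L(G)` satisfies the formal properties used in the abstract proof. -/
noncomputable def gAlg : GAlg Λ (VG b).toStarSubalgebra where
  u := ug b
  cf := cf b
  u_mul := ug_mul b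
  u_one := ug_one b
  star_u := star_ug b
  cf_ext := fun _ _ h => cf_ext b h
  cf_mul := cf_mul b
  cf_star := cf_star b
  cf_u_self := cf_ug_self b
  cf_u_ne := fun _ _ h => cf_ug_ne b h
  cf_smul := cf_smul b
  ex_unitary := exists_unitary b

end Vale.Agent.P092
end
end

section

section

namespace Vale.Agent.P092

open Matrix

namespace SL3

variable {R : Type*} [CommRing R]

lemma transvection_val {i j : Fin 3} (hij : i ≠ j) (b : R) :
    (Matrix.SpecialLinearGroup.transvection hij b).1 = Matrix.transvection i j b := rfl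

lemma ex_eq (a : R) : ex a = Matrix.SpecialLinearGroup.transvection (show (0 : Fin 3) ≠ 1 by decide) a := by
  apply ext3
  intro i j
  rw [vx, transvection_val]
  fin_cases i <;> fin_cases j <;> simp [Matrix.transvection, Matrix.single_apply, Matrix.one_apply]

lemma ey_eq (a : R) : ey a = Matrix.SpecialLinearGroup.transvection (show (1 : Fin 3) ≠ 2 by decide) a := by
  apply ext3
  intro i j
  rw [vy, transvection_val]
  fin_cases i <;> fin_cases j <;> simp [Matrix.transvection, Matrix.single_apply, Matrix.one_apply]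

lemma ez_eq (a : R) : ez a = Matrix.SpecialLinearGroup.transvection (show (0 : Fin 3) ≠ 2 by decide) a := by
  apply ext3
  intro i j
  rw [vz, transvection_val]
  fin_cases i <;> fin_cases j <;> simp [Matrix.transvection, Matrix.single_apply, Matrix.one_apply]

/-- lower root elements -/
def fx (a : R) : G R := ⟨!![1, 0, 0; a, 1, 0; 0, 0, 1], by simp [Matrix.det_fin_three]⟩
def fy (a : R) : G R := ⟨!![1, 0, 0; 0, 1, 0; 0, a, 1], by simp [Matrix.det_fin_three]⟩
def fz (a : R) : G R := ⟨!![1, 0, 0; 0, 1, 0; a, 0, 1], by simp [Matrix.det_fin_three]⟩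

lemma vfx (a : R) : (fx a).1 = !![1, 0, 0; a, 1, 0; 0, 0, 1] := rfl
lemma vfy (a : R) : (fy a).1 = !![1, 0, 0; 0, 1, 0; 0, a, 1] := rfl
lemma vfz (a : R) : (fz a).1 = !![1, 0, 0; 0, 1, 0; a, 0, 1] := rfl

lemma fx_eq (a : R) : fx a = Matrix.SpecialLinearGroup.transvection (show (1 : Fin 3) ≠ 0 by decide) a := by
  apply ext3
  intro i j
  rw [vfx, transvection_val]
  fin_cases i <;> fin_cases j <;> simp [Matrix.transvection, Matrix.single_apply, Matrix.one_apply]

lemma fy_eq (a : R) : fy a = Matrix.SpecialLinearGroup.transvection (show (2 : Fin 3) ≠ 1 by decide) a := by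
  apply ext3
  intro i j
  rw [vfy, transvection_val]
  fin_cases i <;> fin_cases j <;> simp [Matrix.transvection, Matrix.single_apply, Matrix.one_apply]

lemma fz_eq (a : R) : fz a = Matrix.SpecialLinearGroup.transvection (show (2 : Fin 3) ≠ 0 by decide) a := by
  apply ext3
  intro i j
  rw [vfz, transvection_val]
  fin_cases i <;> fin_cases j <;> simp [Matrix.transvection, Matrix.single_apply, Matrix.one_apply]

lemma w0_sq : (ww1 * ww2 * ww1 : G R) * (ww1 * ww2 * ww1) = 1 := by
  apply Subtype.ext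
  rw [vm, w0_val, v1]
  simp only [Matrix.mul_fin_three]
  simp

lemma w0_ey (a : R) : (ww1 * ww2 * ww1) * ey a * (ww1 * ww2 * ww1) = fx a := by
  apply Subtype.ext
  rw [vm, vm, w0_val]
  simp only [vy, vfx, Matrix.mul_fin_three]
  simp

lemma w0_ex (a : R) : (ww1 * ww2 * ww1) * ex a * (ww1 * ww2 * ww1) = fy a := by
  apply Subtype.ext
  rw [vm, vm, w0_val]
  simp only [vx, vfy, Matrix.mul_fin_three]
  simp

lemma w0_ez (a : R) : (ww1 * ww2 * ww1) * ez a * (ww1 * ww2 * ww1) = fz a := by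
  apply Subtype.ext
  rw [vm, vm, w0_val]
  simp only [vz, vfz, Matrix.mul_fin_three]
  simp

theorem gen_of (h : ElemGen R) (K : Subgroup (G R)) (hx : ∀ a, ex a ∈ K) (hy : ∀ a, ey a ∈ K)
    (hw : ww1 * ww2 * ww1 ∈ K) : K = ⊤ := by
  have hz : ∀ a, ez a ∈ K := by
    intro a
    have h1 := (heis (R := R)).x_y a 1
    change ex a * ey 1 = ez (a * 1) * (ey 1 * ex a) at h1
    rw [mul_one] at h1
    have h2 : ez a = ex a * ey 1 * (ey 1 * ex a)⁻¹ := by rw [h1]; group
    rw [h2]
    exact K.mul_mem (K.mul_mem (hx a) (hy 1)) (K.inv_mem (K.mul_mem (hy 1) (hx a)))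
  have hfx : ∀ a, fx a ∈ K := fun a => by
    rw [← w0_ey]; exact K.mul_mem (K.mul_mem hw (hy a)) hw
  have hfy : ∀ a, fy a ∈ K := fun a => by
    rw [← w0_ex]; exact K.mul_mem (K.mul_mem hw (hx a)) hw
  have hfz : ∀ a, fz a ∈ K := fun a => by
    rw [← w0_ez]; exact K.mul_mem (K.mul_mem hw (hz a)) hw
  rw [eq_top_iff, ← h, Subgroup.closure_le]
  rintro g ⟨i, j, hij, b, rfl⟩
  fin_cases i <;> fin_cases j
  · exact absurd rfl hij
  · have := hx b; rwa [ex_eq] at this
  · have := hz b; rwa [ez_eq] at this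
  · have := hfx b; rwa [fx_eq] at this
  · exact absurd rfl hij
  · have := hy b; rwa [ey_eq] at this
  · have := hfz b; rwa [fz_eq] at this
  · have := hfy b; rwa [fy_eq] at this
  · exact absurd rfl hij

end SL3

end Vale.Agent.P092
end
end

section

section

namespace Vale.Agent.P092

open Matrix

namespace SL3

section ring

variable {R : Type*} [CommRing R]

lemma tv_apply {i j : Fin 3} (hij : i ≠ j) (c : R) (v : Fin 3 → R) (k : Fin 3) :
    ((Matrix.SpecialLinearGroup.transvection hij c).1 *ᵥ v) k =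
      v k + (if k = i then c * v j else 0) := by
  rw [transvection_val, Matrix.transvection, Matrix.add_mulVec, Matrix.one_mulVec, Pi.add_apply]
  congr 1
  by_cases hk : k = i
  · subst hk
    rw [if_pos rfl, Matrix.mulVec, dotProduct, Finset.sum_eq_single j]
    · simp
    · intro b _ hb
      simp [Matrix.single_apply, hb.symm]
    · simp
  · rw [if_neg hk, Matrix.mulVec, dotProduct]
    apply Finset.sum_eq_zero
    intro b _
    simp [Matrix.single_apply, Ne.symm hk]

/-- the subgroup generated by two opposite root subgroups -/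
def E2 {i j : Fin 3} (hij : i ≠ j) : Subgroup (G R) :=
  Subgroup.closure (Set.range (Matrix.SpecialLinearGroup.transvection (F := R) hij) ∪
    Set.range (Matrix.SpecialLinearGroup.transvection (F := R) hij.symm))

/-- the subgroup generated by all root subgroups -/
def EE (R : Type*) [CommRing R] : Subgroup (G R) :=
  Subgroup.closure {g : Matrix.SpecialLinearGroup (Fin 3) R |
    ∃ (i j : Fin 3) (hij : i ≠ j) (b : R), g = Matrix.SpecialLinearGroup.transvection hij b}

lemma mem_EE {i j : Fin 3} (hij : i ≠ j) (b : R) :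
    Matrix.SpecialLinearGroup.transvection hij b ∈ EE R :=
  Subgroup.subset_closure ⟨i, j, hij, b, rfl⟩

lemma E2_le {i j : Fin 3} (hij : i ≠ j) : E2 hij ≤ EE R := by
  unfold E2
  rw [Subgroup.closure_le]
  rintro g (⟨b, rfl⟩ | ⟨b, rfl⟩)
  · exact mem_EE _ _
  · exact mem_EE _ _

lemma mem_E2 {i j : Fin 3} (hij : i ≠ j) (b : R) :
    Matrix.SpecialLinearGroup.transvection hij b ∈ E2 hij :=
  Subgroup.subset_closure (Or.inl ⟨b, rfl⟩)

lemma mem_E2' {i j : Fin 3} (hij : i ≠ j) (b : R) :
    Matrix.SpecialLinearGroup.transvection hij.symm b ∈ E2 hij :=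
  Subgroup.subset_closure (Or.inr ⟨b, rfl⟩)

lemma E2_symm {i j : Fin 3} (hij : i ≠ j) : (E2 hij.symm : Subgroup (G R)) = E2 hij := by
  unfold E2
  rw [Set.union_comm]

lemma mul_mulVec' (A B : G R) (v : Fin 3 → R) : (A * B).1 *ᵥ v = A.1 *ᵥ (B.1 *ᵥ v) := by
  rw [Matrix.mulVec_mulVec]; rfl

lemma one_mulVec' (v : Fin 3 → R) : (1 : G R).1 *ᵥ v = v := by
  change (1 : Matrix (Fin 3) (Fin 3) R) *ᵥ v = v
  rw [Matrix.one_mulVec]

lemma E2_fix {i j : Fin 3} (hij : i ≠ j) {e : G R} (he : e ∈ E2 hij) (k : Fin 3) (hki : k ≠ i)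
    (hkj : k ≠ j) : ∀ v : Fin 3 → R, (e.1 *ᵥ v) k = v k := by
  unfold E2 at he
  induction he using Subgroup.closure_induction with
  | mem g hg =>
    intro v
    rcases hg with ⟨b, rfl⟩ | ⟨b, rfl⟩
    · rw [tv_apply, if_neg hki, add_zero]
    · rw [tv_apply, if_neg hkj, add_zero]
  | one => intro v; rw [one_mulVec']
  | mul g h _ _ ihg ihh => intro v; rw [mul_mulVec', ihg, ihh]
  | inv g _ ih =>
    intro v
    have h1 := ih ((g⁻¹ : G R).1 *ᵥ v)
    rw [← mul_mulVec', mul_inv_cancel, one_mulVec'] at h1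
    exact h1.symm

lemma E2_fix' {i j : Fin 3} (hij : i ≠ j) {e : G R} (he : e ∈ E2 hij) :
    ∀ v : Fin 3 → R, v i = 0 → v j = 0 → e.1 *ᵥ v = v := by
  unfold E2 at he
  induction he using Subgroup.closure_induction with
  | mem g hg =>
    intro v hi hj
    funext k
    rcases hg with ⟨b, rfl⟩ | ⟨b, rfl⟩
    · rw [tv_apply, hj, mul_zero, ite_self, add_zero]
    · rw [tv_apply, hi, mul_zero, ite_self, add_zero]
  | one => intro v _ _; rw [one_mulVec']
  | mul g h _ _ ihg ihh => intro v hi hj; rw [mul_mulVec', ihh v hi hj, ihg v hi hj]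
  | inv g _ ih =>
    intro v hi hj
    conv_lhs => rw [← ih v hi hj]
    rw [← mul_mulVec', inv_mul_cancel, one_mulVec']

end ring

section euclid

variable {R : Type*} [EuclideanDomain R]

lemma clear_aux (a b : R) : ∀ (i j : Fin 3) (hij : i ≠ j) (v : Fin 3 → R), v i = a → v j = b →
    ∃ e ∈ E2 hij, (e.1 *ᵥ v) i = 0 ∨ (e.1 *ᵥ v) j = 0 := by
  classical
  induction a, b using EuclideanDomain.GCD.induction with
  | H0 x =>
    intro i j hij v hi hj
    exact ⟨1, (E2 hij).one_mem, Or.inl (by rw [one_mulVec', hi])⟩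
  | H1 a b ha ih =>
    intro i j hij v hi hj
    set v' : Fin 3 → R :=
      (Matrix.SpecialLinearGroup.transvection hij.symm (-(b / a))).1 *ᵥ v with hv'
    have h1 : v' j = b % a := by
      rw [hv', tv_apply, if_pos rfl, hi, hj]
      rw [EuclideanDomain.mod_eq_sub_mul_div]; ring
    have h2 : v' i = a := by
      rw [hv', tv_apply, if_neg hij, hi, add_zero]
    obtain ⟨e, he, h3⟩ := ih j i hij.symm v' h1 h2
    rw [E2_symm hij] at he
    refine ⟨e * Matrix.SpecialLinearGroup.transvection hij.symm (-(b / a)),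
      (E2 hij).mul_mem he (mem_E2' hij _), ?_⟩
    rw [mul_mulVec', ← hv']
    exact h3.symm

lemma clear {i j : Fin 3} (hij : i ≠ j) (v : Fin 3 → R) :
    ∃ e ∈ E2 hij, (e.1 *ᵥ v) j = 0 := by
  obtain ⟨e, he, h⟩ := clear_aux (v i) (v j) i j hij v rfl rfl
  rcases h with h | h
  · set c := (e.1 *ᵥ v) j with hc
    refine ⟨Matrix.SpecialLinearGroup.transvection hij.symm (-1) *
      (Matrix.SpecialLinearGroup.transvection hij 1 * e), (E2 hij).mul_mem (mem_E2' hij _)
      ((E2 hij).mul_mem (mem_E2 hij _) he), ?_⟩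
    rw [mul_mulVec', mul_mulVec', tv_apply, if_pos rfl, tv_apply, tv_apply, if_neg hij.symm,
      if_pos rfl, h, ← hc]
    ring
  · exact ⟨e, he, h⟩

lemma col_apply (g : G R) (i j : Fin 3) : (g.1 *ᵥ (Pi.single j 1)) i = g.1 i j := by
  simp

theorem elemGen_of_euclidean : ElemGen R := by
  change EE R = ⊤
  rw [eq_top_iff]
  rintro g -
  -- first column
  have n01 : (0 : Fin 3) ≠ 1 := by decide
  have n02 : (0 : Fin 3) ≠ 2 := by decide
  have n12 : (1 : Fin 3) ≠ 2 := by decide
  have hstep1 : ∃ e ∈ EE R, (e * g).1 0 0 = 1 ∧ (e * g).1 1 0 = 0 ∧ (e * g).1 2 0 = 0 := by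
    obtain ⟨e1, he1, h1⟩ := clear n01 (g.1 *ᵥ (Pi.single 0 1))
    obtain ⟨e2, he2, h2⟩ := clear n02 ((e1 * g).1 *ᵥ (Pi.single 0 1))
    have h1' : (e2 * (e1 * g)).1 1 0 = 0 := by
      rw [← col_apply, mul_mulVec', E2_fix n02 he2 1 (by decide) (by decide), mul_mulVec', h1]
    have h2' : (e2 * (e1 * g)).1 2 0 = 0 := by
      rw [← col_apply, mul_mulVec', h2]
    obtain ⟨g1, g2, g3, g4, g5, g6, g7, g8, g9, hg⟩ := exists_form (e2 * (e1 * g))
    rw [hg] at h1' h2'
    simp at h1' h2'
    subst h1' h2'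
    have hdet := (e2 * (e1 * g)).2
    rw [hg, Matrix.det_fin_three] at hdet
    simp at hdet
    have hm : g1 * (g5 * g9 - g6 * g8) = 1 := by linear_combination hdet
    set m := g5 * g9 - g6 * g8
    refine ⟨fx (-1) * (ex (1 - g1) * (fx m * (e2 * e1))), ?_, ?_⟩
    · refine (EE R).mul_mem ?_ ((EE R).mul_mem ?_ ((EE R).mul_mem ?_ ((EE R).mul_mem
        (E2_le _ he2) (E2_le _ he1))))
      · rw [fx_eq]; exact mem_EE _ _
      · rw [ex_eq]; exact mem_EE _ _
      · rw [fx_eq]; exact mem_EE _ _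
    · have e : fx (-1) * (ex (1 - g1) * (fx m * (e2 * e1))) * g =
          fx (-1) * (ex (1 - g1) * (fx m * (e2 * (e1 * g)))) := by
        simp only [mul_assoc]
      rw [e, vm, vm, vm, hg]
      simp only [vx, vfx, Matrix.mul_fin_three]
      simp
      constructor
      · linear_combination (1 - g1) * hm
      · linear_combination -(1 - g1) * hm + hm
  obtain ⟨e, he, ha, hb, hc⟩ := hstep1
  -- second column
  have hstep2 : ∃ e' ∈ EE R, ∃ p q r, (e' * (e * g)).1 = !![1, p, q; 0, 1, r; 0, 0, 1] := by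
    obtain ⟨e1, he1, h1⟩ := clear n12 ((e * g).1 *ᵥ (Pi.single 1 1))
    have hcol : ∀ k, (e1 * (e * g)).1 k 0 = (e * g).1 k 0 := by
      intro k
      rw [← col_apply, mul_mulVec', E2_fix' n12 he1, col_apply]
      · rw [col_apply]; exact hb
      · rw [col_apply]; exact hc
    have h1' : (e1 * (e * g)).1 2 1 = 0 := by
      rw [← col_apply, mul_mulVec', h1]
    have ha' := (hcol 0).trans ha
    have hb' := (hcol 1).trans hb
    have hc' := (hcol 2).trans hc
    obtain ⟨g1, g2, g3, g4, g5, g6, g7, g8, g9, hg⟩ := exists_form (e1 * (e * g))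
    rw [hg] at h1' ha' hb' hc'
    simp at h1' ha' hb' hc'
    subst h1' ha' hb' hc'
    have hdet := (e1 * (e * g)).2
    rw [hg, Matrix.det_fin_three] at hdet
    simp at hdet
    have hm : g5 * g9 = 1 := by linear_combination hdet
    refine ⟨fy (-1) * (ey (1 - g5) * (fy g9 * e1)), ?_, g2, g3,
      g6 + (1 - g5) * (g9 * g6 + g9), ?_⟩
    · refine (EE R).mul_mem ?_ ((EE R).mul_mem ?_ ((EE R).mul_mem ?_ (E2_le _ he1)))
      · rw [fy_eq]; exact mem_EE _ _
      · rw [ey_eq]; exact mem_EE _ _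
      · rw [fy_eq]; exact mem_EE _ _
    · have e : fy (-1) * (ey (1 - g5) * (fy g9 * e1)) * (e * g) =
          fy (-1) * (ey (1 - g5) * (fy g9 * (e1 * (e * g)))) := by
        simp only [mul_assoc]
      rw [e, vm, vm, vm, hg]
      simp only [vy, vfy, Matrix.mul_fin_three]
      have e1 : g5 + (1 - g5) * (g9 * g5) = 1 := by linear_combination (1 - g5) * hm
      have e2 : g9 * g5 - (g5 + (1 - g5) * (g9 * g5)) = 0 := by
        linear_combination hm - (1 - g5) * hm
      have e3 : g9 * g6 + g9 - (g6 + (1 - g5) * (g9 * g6 + g9)) = 1 := by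
        linear_combination (g6 + 1) * hm
      congr 1
      ext i j
      fin_cases i <;> fin_cases j <;> simp
      · linear_combination e1
      · linear_combination e2
      · linear_combination e3
  obtain ⟨e', he', p, q, r, hpqr⟩ := hstep2
  have hfin : e' * (e * g) = ez (q - p * r) * ex p * ey r := by
    apply Subtype.ext
    rw [hpqr, u_form]
    congr 1
    ext i j
    fin_cases i <;> fin_cases j <;> simp
  have hg : g = e⁻¹ * (e'⁻¹ * (ez (q - p * r) * ex p * ey r)) := by
    rw [← hfin]; group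
  rw [hg]
  refine (EE R).mul_mem ((EE R).inv_mem he) ((EE R).mul_mem ((EE R).inv_mem he')
    ((EE R).mul_mem ((EE R).mul_mem ?_ ?_) ?_))
  · rw [ez_eq]; exact mem_EE _ _
  · rw [ex_eq]; exact mem_EE _ _
  · rw [ey_eq]; exact mem_EE _ _

end euclid

end SL3

end Vale.Agent.P092
end
end

section

section

namespace Vale.Agent.P092

open scoped InnerProductSpace ComplexConjugate

lemma mem_rootSub (R : Type*) [CommRing R] {i j : Fin 3} (hij : i ≠ j)
    (g : Matrix.SpecialLinearGroup (Fin 3) R) :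
    g ∈ rootSub R hij ↔ ∃ b, Matrix.SpecialLinearGroup.transvection hij b = g := by
  constructor
  · intro hg
    unfold rootSub at hg
    induction hg using Subgroup.closure_induction with
    | mem g hg => exact hg
    | one => exact ⟨0, Matrix.SpecialLinearGroup.transvection_coeff_zero hij⟩
    | mul g h _ _ ihg ihh =>
      obtain ⟨a, rfl⟩ := ihg
      obtain ⟨b, rfl⟩ := ihh
      exact ⟨a + b, Matrix.SpecialLinearGroup.transvection_add hij a b⟩
    | inv g _ ih =>
      obtain ⟨a, rfl⟩ := ih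
      exact ⟨-a, (Matrix.SpecialLinearGroup.transvection_inv hij a).symm⟩
  · rintro ⟨b, rfl⟩
    exact Subgroup.subset_closure ⟨b, rfl⟩

section

variable {Γ Λ H K : Type*} [Group Γ] [Group Λ]
  [NormedAddCommGroup H] [InnerProductSpace ℂ H] [CompleteSpace H]
  [NormedAddCommGroup K] [InnerProductSpace ℂ K] [CompleteSpace K]
  {b : HilbertBasis Γ ℂ H} {b' : HilbertBasis Λ ℂ K} {θ : (H →L[ℂ] H) → (K →L[ℂ] K)}

/-- The `*`-isomorphism between the bundled algebras. -/
noncomputable def bundle (h : IsStarIso (LGrp b) (LGrp b') θ) :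
    (VG b).toStarSubalgebra ≃⋆ₐ[ℂ] (VG b').toStarSubalgebra where
  toEquiv := Equiv.ofBijective
    (fun x => ⟨θ x.1, (mem_VG b' _).2 (h.bij.mapsTo ((mem_VG b _).1 x.2))⟩) (by
    constructor
    · intro x y hxy
      apply Subtype.ext
      exact h.bij.injOn ((mem_VG b _).1 x.2) ((mem_VG b _).1 y.2) (congrArg Subtype.val hxy)
    · intro y
      obtain ⟨x, hx, hxy⟩ := h.bij.surjOn ((mem_VG b' _).1 y.2)
      exact ⟨⟨x, (mem_VG b _).2 hx⟩, Subtype.ext hxy⟩)
  map_mul' x y := Subtype.ext (h.mul _ ((mem_VG b _).1 x.2) _ ((mem_VG b _).1 y.2))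
  map_add' x y := Subtype.ext (h.add _ ((mem_VG b _).1 x.2) _ ((mem_VG b _).1 y.2))
  map_star' x := Subtype.ext (h.star _ ((mem_VG b _).1 x.2))
  map_smul' c x := Subtype.ext (h.smul c _ ((mem_VG b _).1 x.2))

lemma bundle_val (h : IsStarIso (LGrp b) (LGrp b') θ) (x : (VG b).toStarSubalgebra) :
    (bundle h x).1 = θ x.1 := rfl

lemma isCanonical_iff (h : IsStarIso (LGrp b) (LGrp b') θ) :
    IsCanonical b b' θ ↔ ∃ (δ : Γ ≃* Λ) (χ : Γ →* Circle) (w : (VG b').toStarSubalgebra),
      star w * w = 1 ∧ w * star w = 1 ∧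
      ∀ g, bundle h ((gAlg b).u g) = (χ g : ℂ) • (w * (gAlg b').u (δ g) * star w) := by
  constructor
  · rintro ⟨δ, χ, w, hw, hw1, hw2, h3⟩
    exact ⟨δ, χ, ⟨w, (mem_VG b' w).2 hw⟩, Subtype.ext hw1, Subtype.ext hw2,
      fun g => Subtype.ext (h3 g)⟩
  · rintro ⟨δ, χ, w, hw1, hw2, h3⟩
    exact ⟨δ, χ, w.1, (mem_VG b' w.1).1 w.2, congrArg Subtype.val hw1,
      congrArg Subtype.val hw2, fun g => congrArg Subtype.val (h3 g)⟩

lemma image_iff (h : IsStarIso (LGrp b) (LGrp b') θ) (w : (VG b').toStarSubalgebra)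
    (hw1 : star w * w = 1) (hw2 : w * star w = 1) (X : Subgroup Γ) (Y : Subgroup Λ) :
    (fun x => w.1 * θ x * star w.1) '' LSub b X = LSub b' Y ↔
      ∀ x, (∀ s, s ∉ X → (gAlg b).cf x s = 0) ↔
        (∀ s, s ∉ Y → (gAlg b').cf (w * bundle h x * star w) s = 0) := by
  have hw1' : star w.1 * w.1 = 1 := congrArg Subtype.val hw1
  have hw2' : w.1 * star w.1 = 1 := congrArg Subtype.val hw2
  have e1 : ∀ x : (VG b).toStarSubalgebra, (∀ s, s ∉ X → (gAlg b).cf x s = 0) ↔ x.1 ∈ LSub b X :=
    fun x => (mem_LSub_iff_cf b X x).symm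
  have e2 : ∀ x : (VG b').toStarSubalgebra, (∀ s, s ∉ Y → (gAlg b').cf x s = 0) ↔
      x.1 ∈ LSub b' Y := fun x => (mem_LSub_iff_cf b' Y x).symm
  have e3 : ∀ x : (VG b).toStarSubalgebra, (w * bundle h x * star w).1 =
      w.1 * θ x.1 * star w.1 := fun _ => rfl
  constructor
  · intro him x
    rw [e1, e2, e3]
    constructor
    · intro hx
      rw [← him]
      exact ⟨x.1, hx, rfl⟩
    · intro hx
      rw [← him] at hx
      obtain ⟨x', hx', hxx⟩ := hx
      have h1 : θ x' = θ x.1 := by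
        have h2 : w.1 * θ x' * star w.1 = w.1 * θ x.1 * star w.1 := hxx
        calc θ x' = (star w.1 * w.1) * θ x' * (star w.1 * w.1) := by rw [hw1']; simp
          _ = star w.1 * (w.1 * θ x' * star w.1) * w.1 := by noncomm_ring
          _ = star w.1 * (w.1 * θ x.1 * star w.1) * w.1 := by rw [h2]
          _ = (star w.1 * w.1) * θ x.1 * (star w.1 * w.1) := by noncomm_ring
          _ = _ := by rw [hw1']; simp
      have h2 := h.bij.injOn (LSub_le b X hx') ((mem_VG b _).1 x.2) h1
      rw [← h2]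
      exact hx'
  · intro hiff
    apply Set.Subset.antisymm
    · rintro _ ⟨x, hx, rfl⟩
      have h1 := (hiff ⟨x, (mem_VG b _).2 (LSub_le b X hx)⟩)
      rw [e1, e2, e3] at h1
      exact h1.1 hx
    · intro y hy
      have hyV : y ∈ (VG b').toStarSubalgebra := (mem_VG b' _).2 (LSub_le b' Y hy)
      have hz : star w.1 * y * w.1 ∈ (VG b').toStarSubalgebra :=
        (star w * (⟨y, hyV⟩ : (VG b').toStarSubalgebra) * w).2
      obtain ⟨x, hx, hxz⟩ := h.bij.surjOn ((mem_VG b' _).1 hz)
      have h3 : w.1 * θ x * star w.1 = y := by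
        rw [hxz]
        calc w.1 * (star w.1 * y * w.1) * star w.1
            = (w.1 * star w.1) * y * (w.1 * star w.1) := by noncomm_ring
          _ = y := by rw [hw2']; simp
      have h1 := (hiff ⟨x, (mem_VG b _).2 hx⟩)
      rw [e1, e2, e3] at h1
      refine ⟨x, h1.2 ?_, h3⟩
      change w.1 * θ x * star w.1 ∈ LSub b' Y
      rw [h3]
      exact hy

end

variable {R Λ H K : Type*} [CommRing R] [Group Λ]
  [NormedAddCommGroup H] [InnerProductSpace ℂ H] [CompleteSpace H]
  [NormedAddCommGroup K] [InnerProductSpace ℂ K] [CompleteSpace K]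
  {b : HilbertBasis (Matrix.SpecialLinearGroup (Fin 3) R) ℂ H} {b' : HilbertBasis Λ ℂ K}
  {θ : (H →L[ℂ] H) → (K →L[ℂ] K)}

lemma rootCondition_iff (h : IsStarIso (LGrp b) (LGrp b') θ) :
    RootCondition b b' θ ↔ ∃ (w : (VG b').toStarSubalgebra) (Y1 Y2 : Subgroup Λ),
      star w * w = 1 ∧ w * star w = 1 ∧
      (∀ x, (∀ s, s ∉ rootSub R (show (0 : Fin 3) ≠ 1 by decide) → (gAlg b).cf x s = 0) ↔
        (∀ s, s ∉ Y1 → (gAlg b').cf (w * bundle h x * star w) s = 0)) ∧
      (∀ x, (∀ s, s ∉ rootSub R (show (1 : Fin 3) ≠ 2 by decide) → (gAlg b).cf x s = 0) ↔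
        (∀ s, s ∉ Y2 → (gAlg b').cf (w * bundle h x * star w) s = 0)) := by
  constructor
  · rintro ⟨w, hw, hw1, hw2, Y1, Y2, h1, h2⟩
    have hw1' : star (⟨w, (mem_VG b' w).2 hw⟩ : (VG b').toStarSubalgebra) *
      ⟨w, (mem_VG b' w).2 hw⟩ = 1 := Subtype.ext hw1
    have hw2' : (⟨w, (mem_VG b' w).2 hw⟩ : (VG b').toStarSubalgebra) *
      star ⟨w, (mem_VG b' w).2 hw⟩ = 1 := Subtype.ext hw2
    exact ⟨⟨w, (mem_VG b' w).2 hw⟩, Y1, Y2, hw1', hw2',
      (image_iff h _ hw1' hw2' _ _).1 h1, (image_iff h _ hw1' hw2' _ _).1 h2⟩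
  · rintro ⟨w, Y1, Y2, hw1, hw2, h1, h2⟩
    exact ⟨w.1, (mem_VG b' w.1).1 w.2, congrArg Subtype.val hw1, congrArg Subtype.val hw2,
      Y1, Y2, (image_iff h w hw1 hw2 _ _).2 h1, (image_iff h w hw1 hw2 _ _).2 h2⟩

/-- The theorem for trace preserving isomorphisms. -/
theorem main_of_trace [NoZeroDivisors R] [Infinite R]
    (h3 : ∀ a : R, a ^ 3 = 1 → a = 1) (hgen : ElemGen R)
    (h : IsStarIso (LGrp b) (LGrp b') θ)
    (htr : ∀ x, cf b' (bundle h x) 1 = cf b x 1) :
    IsCanonical b b' θ ↔ RootCondition b b' θ := by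
  obtain ⟨S, hS⟩ := SL3.data_of h3 (SL3.gen_of hgen)
  rw [isCanonical_iff h, rootCondition_iff h]
  refine GAlg.abs_iff (gAlg b) (gAlg b') S (bundle h) htr _ _ ?_ ?_
  · rw [hS]
    ext g
    rw [SetLike.mem_coe, mem_rootSub]
    change _ ↔ ∃ a, SL3.ex a = g
    simp only [SL3.ex_eq]
  · rw [hS]
    ext g
    rw [SetLike.mem_coe, mem_rootSub]
    change _ ↔ ∃ a, SL3.ey a = g
    simp only [SL3.ey_eq]

end Vale.Agent.P092
end
end
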