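import Vale.Agent.P092.Bdl.B2
import Vale.Agent.P092.Defs
import Vale.Agent.P092.Root

set_option linter.all false

section

section

namespace Vale.Agent.P092

open scoped InnerProductSpace ENNReal ComplexConjugate Topology
open Filter

section wlim

variable {H : Type*} [NormedAddCommGroup H] [InnerProductSpace ℂ H] [CompleteSpace H]

/-- Weak limits of bounded sequences of operators along an ultrafilter. -/
theorem exists_wlim (U : Ultrafilter ℕ) (T : ℕ → H →L[ℂ] H) (C : ℝ) (hC : ∀ n, ‖T n‖ ≤ C) :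
    ∃ S : H →L[ℂ] H, ∀ ξ η, Tendsto (fun n => ⟪T n ξ, η⟫_ℂ) U (𝓝 ⟪S ξ, η⟫_ℂ) := by
  have hbound : ∀ n ξ η, ‖⟪T n ξ, η⟫_ℂ‖ ≤ C * ‖ξ‖ * ‖η‖ := by
    intro n ξ η
    calc ‖⟪T n ξ, η⟫_ℂ‖ ≤ ‖T n ξ‖ * ‖η‖ := norm_inner_le_norm _ _
      _ ≤ (‖T n‖ * ‖ξ‖) * ‖η‖ := by gcongr; exact (T n).le_opNorm ξ
      _ ≤ C * ‖ξ‖ * ‖η‖ := by gcongr; exact hC n
  have hlim : ∀ ξ η, ∃ z, Tendsto (fun n => ⟪T n ξ, η⟫_ℂ) U (𝓝 z) := by
    intro ξ η
    obtain ⟨z, -, hz⟩ := (isCompact_closedBall (0 : ℂ) (C * ‖ξ‖ * ‖η‖)).ultrafilter_le_nhds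
      (U.map (fun n => ⟪T n ξ, η⟫_ℂ)) (by
        rw [Filter.le_principal_iff]
        change _ ∈ Filter.map _ _
        rw [Filter.mem_map]
        refine Filter.univ_mem' fun n => ?_
        change _ ∈ Metric.closedBall _ _
        rw [mem_closedBall_zero_iff]
        exact hbound n ξ η)
    exact ⟨z, hz⟩
  choose B hB using hlim
  have hC0 : 0 ≤ C := le_trans (norm_nonneg _) (hC 0)
  let B' : H →ₗ⋆[ℂ] H →ₗ[ℂ] ℂ := LinearMap.mk₂'ₛₗ (starRingEnd ℂ) (RingHom.id ℂ) B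
    (fun ξ₁ ξ₂ η => by
      refine tendsto_nhds_unique (hB _ _) ?_
      have := (hB ξ₁ η).add (hB ξ₂ η)
      refine this.congr fun n => ?_
      rw [map_add, inner_add_left])
    (fun c ξ η => by
      refine tendsto_nhds_unique (hB _ _) ?_
      have := (hB ξ η).const_mul (conj c)
      refine this.congr fun n => ?_
      rw [map_smul, inner_smul_left])
    (fun ξ η₁ η₂ => by
      refine tendsto_nhds_unique (hB _ _) ?_
      have := (hB ξ η₁).add (hB ξ η₂)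
      refine this.congr fun n => ?_
      rw [inner_add_right])
    (fun c ξ η => by
      refine tendsto_nhds_unique (hB _ _) ?_
      have := (hB ξ η).const_mul c
      refine this.congr fun n => ?_
      rw [inner_smul_right])
  let Bc : H →L⋆[ℂ] H →L[ℂ] ℂ := LinearMap.mkContinuous₂ B' C (fun ξ η => by
    refine le_of_tendsto (hB ξ η).norm ?_
    exact Filter.Eventually.of_forall fun n => hbound n ξ η)
  refine ⟨InnerProductSpace.continuousLinearMapOfBilin Bc, fun ξ η => ?_⟩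
  rw [InnerProductSpace.continuousLinearMapOfBilin_apply]
  exact hB ξ η

variable {U : Ultrafilter ℕ} {T : ℕ → H →L[ℂ] H} {S A : H →L[ℂ] H}

lemma wlim_le (hS : ∀ ξ η, Tendsto (fun n => ⟪T n ξ, η⟫_ℂ) U (𝓝 ⟪S ξ, η⟫_ℂ))
    (h : ∀ᶠ n in U, T n ≤ A) : S ≤ A := by
  rw [ContinuousLinearMap.le_def, ContinuousLinearMap.isPositive_iff_complex]
  intro x
  have h1 : Tendsto (fun n => ⟪(A - T n) x, x⟫_ℂ) U (𝓝 ⟪(A - S) x, x⟫_ℂ) := by
    have := (tendsto_const_nhds (x := ⟪A x, x⟫_ℂ)).sub (hS x x)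
    simpa only [ContinuousLinearMap.sub_apply, inner_sub_left] using this
  have h2 : Tendsto (fun n => RCLike.re ⟪(A - T n) x, x⟫_ℂ) U
      (𝓝 (RCLike.re ⟪(A - S) x, x⟫_ℂ)) := (RCLike.continuous_re.tendsto _).comp h1
  have h3 : ∀ᶠ n in U, ((RCLike.re ⟪(A - T n) x, x⟫_ℂ : ℝ) : ℂ) = ⟪(A - T n) x, x⟫_ℂ ∧
      0 ≤ RCLike.re ⟪(A - T n) x, x⟫_ℂ := by
    filter_upwards [h] with n hn
    rw [ContinuousLinearMap.le_def, ContinuousLinearMap.isPositive_iff_complex] at hn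
    exact hn x
  constructor
  · have h4 : Tendsto (fun n => ((RCLike.re ⟪(A - T n) x, x⟫_ℂ : ℝ) : ℂ)) U
        (𝓝 ((RCLike.re ⟪(A - S) x, x⟫_ℂ : ℝ) : ℂ)) :=
      (Complex.continuous_ofReal.tendsto _).comp h2
    refine tendsto_nhds_unique h4 (h1.congr' ?_)
    filter_upwards [h3] with n hn
    exact hn.1.symm
  · refine ge_of_tendsto h2 ?_
    filter_upwards [h3] with n hn
    exact hn.2

lemma le_wlim (hS : ∀ ξ η, Tendsto (fun n => ⟪T n ξ, η⟫_ℂ) U (𝓝 ⟪S ξ, η⟫_ℂ))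
    (h : ∀ᶠ n in U, A ≤ T n) : A ≤ S := by
  have h1 : -S ≤ -A := by
    refine wlim_le (U := U) (T := fun n => -T n) ?_ ?_
    · intro ξ η
      have := (hS ξ η).neg
      simpa only [ContinuousLinearMap.neg_apply, inner_neg_left] using this
    · filter_upwards [h] with n hn
      exact neg_le_neg hn
  exact neg_le_neg_iff.mp h1

lemma wlim_commute (hS : ∀ ξ η, Tendsto (fun n => ⟪T n ξ, η⟫_ℂ) U (𝓝 ⟪S ξ, η⟫_ℂ))
    (h : ∀ n, A * T n = T n * A) : A * S = S * A := by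
  ext1 ξ
  refine ext_inner_right ℂ fun η => ?_
  have h1 : Tendsto (fun n => ⟪T n (A ξ), η⟫_ℂ) U (𝓝 ⟪S (A ξ), η⟫_ℂ) := hS _ _
  have h2 : Tendsto (fun n => ⟪T n ξ, star A η⟫_ℂ) U (𝓝 ⟪S ξ, star A η⟫_ℂ) := hS _ _
  have h3 : (fun n => ⟪T n (A ξ), η⟫_ℂ) = fun n => ⟪T n ξ, star A η⟫_ℂ := by
    funext n
    rw [ContinuousLinearMap.star_eq_adjoint, ContinuousLinearMap.adjoint_inner_right,
      ← mul_apply_eq_comp, ← h n, mul_apply_eq_comp]
  rw [h3] at h1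
  have h4 := tendsto_nhds_unique h2 h1
  rw [mul_apply_eq_comp, mul_apply_eq_comp, ← h4, ContinuousLinearMap.star_eq_adjoint,
    ContinuousLinearMap.adjoint_inner_right]

end wlim

end Vale.Agent.P092
end
end

section

section

namespace Vale.Agent.P092

open scoped InnerProductSpace ENNReal ComplexConjugate Topology NNReal
open Filter

section pos

variable {H : Type*} [NormedAddCommGroup H] [InnerProductSpace ℂ H] [CompleteSpace H]

/-- the (real part of the) vector state -/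
noncomputable def tt (Ω : H) (x : H →L[ℂ] H) : ℝ := (⟪x Ω, Ω⟫_ℂ).re

lemma tt_mono (Ω : H) {x y : H →L[ℂ] H} (h : x ≤ y) : tt Ω x ≤ tt Ω y := by
  rw [ContinuousLinearMap.le_def, ContinuousLinearMap.isPositive_iff_complex] at h
  have h1 := (h Ω).2
  rw [ContinuousLinearMap.sub_apply, inner_sub_left, map_sub] at h1
  unfold tt
  have h2 : 0 ≤ (⟪y Ω, Ω⟫_ℂ).re - (⟪x Ω, Ω⟫_ℂ).re := h1
  linarith

lemma tt_star_mul_self (Ω : H) (z : H →L[ℂ] H) : tt Ω (star z * z) = ‖z Ω‖ ^ 2 := by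
  unfold tt
  rw [mul_apply_eq_comp, ContinuousLinearMap.star_eq_adjoint,
    ContinuousLinearMap.adjoint_inner_left]
  exact inner_self_eq_norm_sq (𝕜 := ℂ) (z Ω)

lemma tt_add (Ω : H) (x y : H →L[ℂ] H) : tt Ω (x + y) = tt Ω x + tt Ω y := by
  unfold tt
  rw [ContinuousLinearMap.add_apply, inner_add_left, Complex.add_re]

lemma tt_smul (Ω : H) (c : ℝ) (x : H →L[ℂ] H) : tt Ω ((c : ℂ) • x) = c * tt Ω x := by
  unfold tt
  rw [ContinuousLinearMap.smul_apply, inner_smul_left]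
  simp

lemma tt_sum (Ω : H) {ι : Type*} (s : Finset ι) (f : ι → (H →L[ℂ] H)) :
    tt Ω (∑ i ∈ s, f i) = ∑ i ∈ s, tt Ω (f i) := by
  classical
  induction s using Finset.induction_on with
  | empty => simp [tt]
  | insert a s ha ih => rw [Finset.sum_insert ha, Finset.sum_insert ha, tt_add, ih]

lemma tt_nonneg (Ω : H) {x : H →L[ℂ] H} (h0 : 0 ≤ x) : 0 ≤ tt Ω x := by
  have := tt_mono Ω h0
  simpa [tt] using this

/-- membership in a von Neumann algebra through the commutant -/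
lemma vn_mem_iff (M : VonNeumannAlgebra H) (x : H →L[ℂ] H) :
    x ∈ M ↔ ∀ c ∈ M.commutant, c * x = x * c := by
  conv_lhs => rw [← M.commutant_commutant]
  rw [VonNeumannAlgebra.mem_commutant_iff]

/-- A positive element of `M` has a square root in `M`. -/
lemma pos_sqrt (M : VonNeumannAlgebra H) {x : H →L[ℂ] H} (hx : x ∈ M) (h0 : 0 ≤ x) :
    ∃ z ∈ M, x = star z * z := by
  refine ⟨CFC.sqrt x, ?_, ?_⟩
  · rw [vn_mem_iff] at hx ⊢
    intro c hc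
    have h1 : Commute x c := (hx c hc).symm
    exact (h1.cfcₙ_nnreal NNReal.sqrt).symm
  · have h1 : IsSelfAdjoint (CFC.sqrt x) := (CFC.sqrt_nonneg x).isSelfAdjoint
    rw [h1.star_eq, CFC.sqrt_mul_sqrt_self x h0]

lemma eq_zero_of_tt (M : VonNeumannAlgebra H) {Ω : H} (hΩ : ∀ z ∈ M, z Ω = 0 → z = 0)
    {x : H →L[ℂ] H} (hx : x ∈ M) (h0 : 0 ≤ x) (ht : tt Ω x ≤ 0) : x = 0 := by
  obtain ⟨z, hz, rfl⟩ := pos_sqrt M hx h0
  rw [tt_star_mul_self] at ht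
  have h1 : ‖z Ω‖ = 0 := by
    have h2 : ‖z Ω‖ ^ 2 = 0 := le_antisymm ht (by positivity)
    exact pow_eq_zero_iff (two_ne_zero) |>.1 h2
  rw [hΩ z hz (norm_eq_zero.1 h1)]
  simp

/-- the function `1 - (1 + x)⁻¹` -/
noncomputable def ff (x : ℝ) : ℝ := 1 - (1 + x)⁻¹

lemma ff_zero : ff 0 = 0 := by simp [ff]

lemma ff_eq {x : ℝ} (hx : 0 ≤ x) : ff x = x / (1 + x) := by
  unfold ff; field_simp; ring

lemma ff_nonneg {x : ℝ} (hx : 0 ≤ x) : 0 ≤ ff x := by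
  rw [ff_eq hx]; positivity

lemma ff_le_one {x : ℝ} (hx : 0 ≤ x) : ff x ≤ 1 := by
  rw [ff_eq hx, div_le_one (by positivity)]; linarith

lemma ff_le_self {x : ℝ} (hx : 0 ≤ x) : ff x ≤ x := by
  rw [ff_eq hx, div_le_iff₀ (by positivity)]; nlinarith

lemma ff_cont {s : Set ℝ} (hs : ∀ x ∈ s, 0 ≤ x) : ContinuousOn ff s := by
  unfold ff
  refine continuousOn_const.sub (ContinuousOn.inv₀ (by fun_prop) ?_)
  intro x hx
  have := hs x hx
  positivity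

/-- `f(a)` -/
noncomputable def F (a : H →L[ℂ] H) : H →L[ℂ] H := cfcₙ ff a

lemma F_mono {a b : H →L[ℂ] H} (ha : 0 ≤ a) (hab : a ≤ b) : F a ≤ F b :=
  CFC.monotoneOn_one_sub_one_add_inv_real (A := H →L[ℂ] H) ha (ha.trans hab) hab

lemma F_nonneg {a : H →L[ℂ] H} (ha : 0 ≤ a) : 0 ≤ F a :=
  cfcₙ_nonneg (fun x hx => ff_nonneg (quasispectrum_nonneg_of_nonneg a ha x hx))

lemma F_le_self {a : H →L[ℂ] H} (ha : 0 ≤ a) : F a ≤ a := by
  have h1 := quasispectrum_nonneg_of_nonneg (𝕜 := ℝ) a ha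
  conv_rhs => rw [← cfcₙ_id' ℝ a]
  exact cfcₙ_mono (fun x hx => ff_le_self (h1 x hx)) (ff_cont h1) (by fun_prop) ff_zero rfl

lemma F_norm {a : H →L[ℂ] H} (ha : 0 ≤ a) : ‖F a‖ ≤ 1 := by
  refine norm_cfcₙ_le (𝕜 := ℝ) ?_
  intro x hx
  have h1 := quasispectrum_nonneg_of_nonneg (𝕜 := ℝ) a ha x hx
  rw [Real.norm_eq_abs, abs_of_nonneg (ff_nonneg h1)]
  exact ff_le_one h1

lemma F_mem (M : VonNeumannAlgebra H) {a : H →L[ℂ] H} (ha : a ∈ M) : F a ∈ M := by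
  rw [vn_mem_iff] at ha ⊢
  intro r hr
  have h1 : Commute a r := (ha r hr).symm
  exact (h1.cfcₙ_real ff).symm

lemma le_F {a : H →L[ℂ] H} (ha : 0 ≤ a) {c : ℝ} (hc : 1 ≤ c) (hac : ‖a‖ ≤ c) :
    (((2 * c)⁻¹ : ℝ) : ℂ) • a ≤ F a := by
  have h1 := quasispectrum_nonneg_of_nonneg (𝕜 := ℝ) a ha
  have h2 : ∀ x ∈ quasispectrum ℝ a, x ≤ c := by
    intro x hx
    rw [quasispectrum_eq_spectrum_union_zero] at hx
    rcases hx with hx | hx
    · have h3 := spectrum.norm_le_norm_mul_of_mem hx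
      have h5 : ‖(1 : H →L[ℂ] H)‖ ≤ 1 := ContinuousLinearMap.norm_id_le
      have h4 : ‖x‖ ≤ ‖a‖ := by nlinarith [norm_nonneg a]
      exact (le_abs_self x).trans (h4.trans hac)
    · rw [Set.mem_singleton_iff] at hx
      rw [hx]; linarith
  have h3 : (((2 * c)⁻¹ : ℝ) : ℂ) • a = cfcₙ (fun x : ℝ => (2 * c)⁻¹ * x) a := by
    rw [cfcₙ_const_mul_id (R := ℝ) (2 * c)⁻¹ a (ha.isSelfAdjoint)]
    exact (RCLike.real_smul_eq_coe_smul (K := ℂ) (2 * c)⁻¹ a).symm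
  rw [h3]
  refine cfcₙ_mono ?_ (by fun_prop) (ff_cont h1) (by simp) ff_zero
  intro x hx
  have hx0 := h1 x hx
  have hxc := h2 x hx
  rw [ff_eq hx0, inv_mul_eq_div]
  gcongr
  linarith

end pos

end Vale.Agent.P092
end
end

section

section

namespace Vale.Agent.P092

open scoped InnerProductSpace ENNReal ComplexConjugate Topology NNReal
open Filter

section normal

variable {H K : Type*} [NormedAddCommGroup H] [InnerProductSpace ℂ H] [CompleteSpace H]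
  [NormedAddCommGroup K] [InnerProductSpace ℂ K] [CompleteSpace K]
  {M : VonNeumannAlgebra H} {N : VonNeumannAlgebra K}

lemma vn_mul (θ : M.toStarSubalgebra ≃⋆ₐ[ℂ] N.toStarSubalgebra) (x y : M.toStarSubalgebra) :
    θ (x * y) = θ x * θ y := θ.map_mul' x y

lemma vn_star (θ : M.toStarSubalgebra ≃⋆ₐ[ℂ] N.toStarSubalgebra) (x : M.toStarSubalgebra) :
    θ (star x) = star (θ x) := θ.map_star' x

lemma vn_one (θ : M.toStarSubalgebra ≃⋆ₐ[ℂ] N.toStarSubalgebra) :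
    θ 1 = 1 := map_one θ

lemma vn_add (θ : M.toStarSubalgebra ≃⋆ₐ[ℂ] N.toStarSubalgebra) (x y : M.toStarSubalgebra) :
    θ (x + y) = θ x + θ y := map_add θ x y

lemma vn_sub (θ : M.toStarSubalgebra ≃⋆ₐ[ℂ] N.toStarSubalgebra) (x y : M.toStarSubalgebra) :
    θ (x - y) = θ x - θ y := map_sub θ x y

lemma vn_smul (θ : M.toStarSubalgebra ≃⋆ₐ[ℂ] N.toStarSubalgebra) (c : ℂ)
    (x : M.toStarSubalgebra) : θ (c • x) = c • θ x := θ.map_smul' c x

lemma norm_conv {s : ℝ} (hs : 0 ≤ s) (hs1 : s ≤ 1) {a b : H →L[ℂ] H} (ha : ‖a‖ ≤ 1)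
    (hb : ‖b‖ ≤ 1) : ‖(s : ℂ) • a + (((1 - s : ℝ)) : ℂ) • b‖ ≤ 1 := by
  calc ‖(s : ℂ) • a + (((1 - s : ℝ)) : ℂ) • b‖
      ≤ ‖(s : ℂ) • a‖ + ‖(((1 - s : ℝ)) : ℂ) • b‖ := norm_add_le _ _
    _ = s * ‖a‖ + (1 - s) * ‖b‖ := by
        rw [norm_smul, norm_smul, Complex.norm_real, Complex.norm_real, Real.norm_eq_abs,
          Real.norm_eq_abs, abs_of_nonneg hs, abs_of_nonneg (by linarith)]
    _ ≤ s * 1 + (1 - s) * 1 := by
        have : 0 ≤ 1 - s := by linarith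
        gcongr
    _ = 1 := by ring

lemma norm_mul3 {a b c : H →L[ℂ] H} (ha : ‖a‖ ≤ 1) (hb : ‖b‖ ≤ 1) (hc : ‖c‖ ≤ 1) :
    ‖a * b * c‖ ≤ 1 := by
  calc ‖a * b * c‖ ≤ ‖a‖ * ‖b‖ * ‖c‖ := (norm_mul_le _ _).trans (by gcongr; exact norm_mul_le _ _)
    _ ≤ 1 * 1 * 1 := by gcongr
    _ = 1 := by norm_num

lemma norm_scale {a : H →L[ℂ] H} {c : ℝ} (hc : 0 < c) (hac : ‖a‖ ≤ c) :
    ‖((c⁻¹ : ℝ) : ℂ) • a‖ ≤ 1 := by
  rw [norm_smul, Complex.norm_real, Real.norm_eq_abs, abs_of_pos (by positivity),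
    inv_mul_le_iff₀ hc, mul_one]
  exact hac

lemma th_pos (θ : M.toStarSubalgebra ≃⋆ₐ[ℂ] N.toStarSubalgebra) {x : M.toStarSubalgebra}
    (h : 0 ≤ x.1) : 0 ≤ (θ x).1 := by
  obtain ⟨z, hz, hxz⟩ := pos_sqrt M x.2 h
  have h1 : x = star (⟨z, hz⟩ : M.toStarSubalgebra) * ⟨z, hz⟩ := Subtype.ext hxz
  have h2 : θ x = star (θ ⟨z, hz⟩) * θ ⟨z, hz⟩ := by
    conv_lhs => rw [h1]
    exact (θ.map_mul' _ _).trans (congrArg (fun t => t * θ ⟨z, hz⟩) (θ.map_star' _))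
  rw [h2]
  exact star_mul_self_nonneg (θ ⟨z, hz⟩).1

lemma th_le (θ : M.toStarSubalgebra ≃⋆ₐ[ℂ] N.toStarSubalgebra) {x y : M.toStarSubalgebra}
    (h : x.1 ≤ y.1) : (θ x).1 ≤ (θ y).1 := by
  have h1 : 0 ≤ (θ (y - x)).1 := th_pos θ (x := y - x) (sub_nonneg.mpr h)
  have h2 : θ (y - x) = θ y - θ x := map_sub θ y x
  rw [h2] at h1
  exact sub_nonneg.mp h1

lemma smul_nn {c : ℝ} (hc : 0 ≤ c) {a : H →L[ℂ] H} (ha : 0 ≤ a) : 0 ≤ (c : ℂ) • a := by
  rw [ContinuousLinearMap.nonneg_iff_isPositive] at ha ⊢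
  exact ha.smul_of_nonneg (by exact_mod_cast hc)

lemma smul_le_smul' {c : ℝ} (hc : 0 ≤ c) {a b : H →L[ℂ] H} (hab : a ≤ b) :
    (c : ℂ) • a ≤ (c : ℂ) • b := by
  have := smul_nn hc (sub_nonneg.mpr hab)
  rw [smul_sub] at this
  exact sub_nonneg.mp this

lemma mem_smul (M : VonNeumannAlgebra H) (c : ℂ) {a : H →L[ℂ] H} (ha : a ∈ M) : c • a ∈ M :=
  M.toStarSubalgebra.smul_mem ha c

lemma mem_sum (M : VonNeumannAlgebra H) {ι : Type*} (s : Finset ι) (f : ι → (H →L[ℂ] H))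
    (hf : ∀ i ∈ s, f i ∈ M) : ∑ i ∈ s, f i ∈ M :=
  M.toStarSubalgebra.toSubalgebra.sum_mem hf

lemma wlim_mem (M : VonNeumannAlgebra H) {U : Ultrafilter ℕ} {T : ℕ → H →L[ℂ] H} {S : H →L[ℂ] H}
    (hS : ∀ ξ η, Tendsto (fun n => ⟪T n ξ, η⟫_ℂ) U (𝓝 ⟪S ξ, η⟫_ℂ)) (h : ∀ n, T n ∈ M) :
    S ∈ M := by
  rw [vn_mem_iff]
  intro c hc
  exact wlim_commute hS (fun n => (vn_mem_iff M _).1 (h n) c hc)

omit [CompleteSpace H] in
lemma wlim_tt (Ω : H) {U : Ultrafilter ℕ} {T : ℕ → H →L[ℂ] H} {S : H →L[ℂ] H}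
    (hS : ∀ ξ η, Tendsto (fun n => ⟪T n ξ, η⟫_ℂ) U (𝓝 ⟪S ξ, η⟫_ℂ)) :
    Tendsto (fun n => tt Ω (T n)) U (𝓝 (tt Ω S)) :=
  (Complex.continuous_re.tendsto _).comp (hS Ω Ω)

/-- A `*`-isomorphism of von Neumann algebras is absolutely continuous. -/
theorem abs_cont (θ : M.toStarSubalgebra ≃⋆ₐ[ℂ] N.toStarSubalgebra) (Ω : H)
    (hΩ : ∀ z ∈ M, z Ω = 0 → z = 0) (Ω' : K) {ε : ℝ} (hε : 0 < ε) :
    ∃ η > 0, ∀ a : M.toStarSubalgebra, 0 ≤ a.1 → ‖a.1‖ ≤ 1 → tt Ω a.1 ≤ η →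
      tt Ω' (θ a).1 < ε := by
  by_contra hcon
  push Not at hcon
  have hch : ∀ k : ℕ, ∃ a : M.toStarSubalgebra, 0 ≤ a.1 ∧ ‖a.1‖ ≤ 1 ∧
      tt Ω a.1 ≤ (1 / 4 : ℝ) ^ k ∧ ε ≤ tt Ω' (θ a).1 := fun k => hcon _ (by positivity)
  choose a ha0 ha1 hat haε using hch
  set s : ℕ → ℕ → (H →L[ℂ] H) := fun k n => ∑ j ∈ Finset.Ico k n, (((2 : ℝ) ^ j : ℝ) : ℂ) • (a j).1
    with hs
  have hterm : ∀ j, 0 ≤ (((2 : ℝ) ^ j : ℝ) : ℂ) • (a j).1 := fun j =>
    smul_nn (by positivity) (ha0 j)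
  have s_nonneg : ∀ k n, 0 ≤ s k n := fun k n => Finset.sum_nonneg fun j _ => hterm j
  have s_mono : ∀ k k' n n', k' ≤ k → n ≤ n' → s k n ≤ s k' n' := by
    intro k k' n n' h1 h2
    refine Finset.sum_le_sum_of_subset_of_nonneg (Finset.Ico_subset_Ico h1 h2) ?_
    intro j _ _
    exact hterm j
  have s_mem : ∀ k n, s k n ∈ M := fun k n =>
    mem_sum M _ _ fun j _ => mem_smul M _ (a j).2
  have s_tt : ∀ k n, tt Ω (s k n) ≤ 2 * (1 / 2 : ℝ) ^ k := by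
    intro k n
    rw [hs]
    simp only
    rw [tt_sum]
    calc ∑ j ∈ Finset.Ico k n, tt Ω ((((2 : ℝ) ^ j : ℝ) : ℂ) • (a j).1)
        ≤ ∑ j ∈ Finset.Ico k n, (1 / 2 : ℝ) ^ j := by
          refine Finset.sum_le_sum fun j _ => ?_
          rw [tt_smul]
          calc (2 : ℝ) ^ j * tt Ω (a j).1 ≤ (2 : ℝ) ^ j * (1 / 4 : ℝ) ^ j := by
                gcongr; exact hat j
            _ = (1 / 2 : ℝ) ^ j := by rw [← mul_pow]; norm_num
      _ ≤ (1 / 2 : ℝ) ^ k / (1 - 1 / 2) := geom_sum_Ico_le_of_lt_one (by norm_num) (by norm_num)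
      _ = 2 * (1 / 2 : ℝ) ^ k := by ring
  let U : Ultrafilter ℕ := hyperfilter ℕ
  have hU : (U : Filter ℕ) ≤ atTop := Nat.hyperfilter_le_atTop
  have hy : ∀ k, ∃ S : H →L[ℂ] H,
      ∀ ξ η, Tendsto (fun n => ⟪F (s k n) ξ, η⟫_ℂ) U (𝓝 ⟪S ξ, η⟫_ℂ) := fun k =>
    exists_wlim U (fun n => F (s k n)) 1 (fun n => F_norm (s_nonneg k n))
  choose y hy using hy
  have y_mem : ∀ k, y k ∈ M := fun k => wlim_mem M (hy k) fun n => F_mem M (s_mem k n)
  have A1 : ∀ k n, F (s k n) ≤ y k := by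
    intro k n
    refine le_wlim (hy k) ?_
    filter_upwards [(eventually_ge_atTop n).filter_mono hU] with n' hn'
    exact F_mono (s_nonneg k n) (s_mono k k n n' le_rfl hn')
  have A2 : ∀ k k', k ≤ k' → y k' ≤ y k := by
    intro k k' hkk
    refine wlim_le (hy k') (Filter.Eventually.of_forall fun n => ?_)
    exact (F_mono (s_nonneg k' n) (s_mono k' k n n hkk le_rfl)).trans (A1 k n)
  have A3 : ∀ k, 0 ≤ y k := fun k => (F_nonneg (s_nonneg k 0)).trans (A1 k 0)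
  have A4 : ∀ k, y k ≤ 1 := by
    intro k
    refine wlim_le (hy k) (Filter.Eventually.of_forall fun n => ?_)
    exact (CStarAlgebra.norm_le_one_iff_of_nonneg (F (s k n)) (F_nonneg (s_nonneg k n))).1
      (F_norm (s_nonneg k n))
  have A5 : ∀ k, tt Ω (y k) ≤ 2 * (1 / 2 : ℝ) ^ k := by
    intro k
    refine le_of_tendsto (wlim_tt Ω (hy k)) (Filter.Eventually.of_forall fun n => ?_)
    exact (tt_mono Ω (F_le_self (s_nonneg k n))).trans (s_tt k n)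
  have A6 : ∀ k, (((1 / 2 : ℝ)) : ℂ) • (a k).1 ≤ y k := by
    intro k
    have h1 : 0 ≤ (((2 : ℝ) ^ k : ℝ) : ℂ) • (a k).1 := hterm k
    have h2 : ‖(((2 : ℝ) ^ k : ℝ) : ℂ) • (a k).1‖ ≤ (2 : ℝ) ^ k := by
      rw [norm_smul, Complex.norm_real, Real.norm_eq_abs, abs_of_nonneg (by positivity)]
      have := ha1 k
      have h3 : (0 : ℝ) ≤ 2 ^ k := by positivity
      nlinarith
    have h3 := le_F h1 (c := 2 ^ k) (one_le_pow₀ (by norm_num)) h2
    have h4 : (((2 * (2 : ℝ) ^ k)⁻¹ : ℝ) : ℂ) • (((2 : ℝ) ^ k : ℝ) : ℂ) • (a k).1 =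
        (((1 / 2 : ℝ)) : ℂ) • (a k).1 := by
      rw [smul_smul]
      congr 1
      push_cast
      field_simp
    rw [h4] at h3
    refine h3.trans ((F_mono h1 ?_).trans (A1 k (k + 1)))
    rw [hs]
    simp
  -- second limit
  have hb0 : ∀ k, 0 ≤ (θ ⟨y k, y_mem k⟩).1 := fun k => th_pos θ (x := ⟨y k, y_mem k⟩) (A3 k)
  have hb1 : ∀ k, ‖(θ ⟨y k, y_mem k⟩).1‖ ≤ 1 := by
    intro k
    rw [CStarAlgebra.norm_le_one_iff_of_nonneg _ (hb0 k)]
    have h1 : (θ ⟨y k, y_mem k⟩).1 ≤ (θ (1 : M.toStarSubalgebra)).1 :=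
      th_le θ (x := ⟨y k, y_mem k⟩) (y := 1) (A4 k)
    have h2 : θ (1 : M.toStarSubalgebra) = 1 := map_one θ
    rw [h2] at h1
    exact h1
  obtain ⟨b, hb⟩ := exists_wlim U (fun k => (θ ⟨y k, y_mem k⟩).1) 1 hb1
  have b_mem : b ∈ N := wlim_mem N hb fun k => (θ ⟨y k, y_mem k⟩).2
  have B1 : ∀ k, b ≤ (θ ⟨y k, y_mem k⟩).1 := by
    intro k
    refine wlim_le hb ?_
    filter_upwards [(eventually_ge_atTop k).filter_mono hU] with k' hk'
    exact th_le θ (x := ⟨y k', y_mem k'⟩) (y := ⟨y k, y_mem k⟩) (A2 k k' hk')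
  have B2 : 0 ≤ b := le_wlim hb (Filter.Eventually.of_forall hb0)
  have B3 : ε / 2 ≤ tt Ω' b := by
    refine ge_of_tendsto (wlim_tt Ω' hb) (Filter.Eventually.of_forall fun k => ?_)
    have h1 : (θ ((((1 / 2 : ℝ)) : ℂ) • a k)).1 ≤ (θ ⟨y k, y_mem k⟩).1 :=
      th_le θ (x := (((1 / 2 : ℝ)) : ℂ) • a k) (y := ⟨y k, y_mem k⟩) (A6 k)
    have h2 : (θ ((((1 / 2 : ℝ)) : ℂ) • a k)).1 = (((1 / 2 : ℝ)) : ℂ) • (θ (a k)).1 :=
      congrArg Subtype.val (θ.map_smul' _ (a k))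
    rw [h2] at h1
    have h3 := tt_mono Ω' h1
    rw [tt_smul] at h3
    have := haε k
    linarith
  -- contradiction
  have C1 : ∀ k, (θ.symm ⟨b, b_mem⟩).1 ≤ y k := by
    intro k
    have h1 := th_le θ.symm (x := ⟨b, b_mem⟩) (y := θ ⟨y k, y_mem k⟩) (B1 k)
    rwa [θ.symm_apply_apply] at h1
  have C2 : 0 ≤ (θ.symm ⟨b, b_mem⟩).1 := th_pos θ.symm (x := ⟨b, b_mem⟩) B2
  have C3 : tt Ω (θ.symm ⟨b, b_mem⟩).1 ≤ 0 := by
    have h1 : Tendsto (fun k : ℕ => 2 * (1 / 2 : ℝ) ^ k) atTop (𝓝 (2 * 0)) :=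
      (tendsto_pow_atTop_nhds_zero_of_lt_one (by norm_num) (by norm_num)).const_mul 2
    rw [mul_zero] at h1
    refine ge_of_tendsto h1 (Filter.Eventually.of_forall fun k => ?_)
    exact (tt_mono Ω (C1 k)).trans (A5 k)
  have C4 := eq_zero_of_tt M hΩ (θ.symm ⟨b, b_mem⟩).2 C2 C3
  have C5 : θ.symm ⟨b, b_mem⟩ = 0 := Subtype.ext C4
  have C6 : (⟨b, b_mem⟩ : N.toStarSubalgebra) = 0 := by
    have h1 := congrArg θ C5
    rw [θ.apply_symm_apply] at h1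
    rw [h1]; exact map_zero θ
  have C7 : b = 0 := congrArg Subtype.val C6
  rw [C7] at B3
  have : tt Ω' (0 : K →L[ℂ] K) = 0 := by simp [tt]
  rw [this] at B3
  linarith

end normal

end Vale.Agent.P092
end
end

section

section

namespace Vale.Agent.P092

open scoped InnerProductSpace ENNReal ComplexConjugate Topology NNReal
open Filter

section fixed

/-- A closed convex set has a point fixed by all its isometric linear self-maps. -/
lemma exists_fixed_real {E : Type*} [NormedAddCommGroup E] [InnerProductSpace ℝ E]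
    {K : Set E} (hKne : K.Nonempty) (hKcomp : IsComplete K) (hKconv : Convex ℝ K) :
    ∃ ξ ∈ K, ∀ g : E → E, (∀ v ∈ K, g v ∈ K) → ‖g ξ‖ = ‖ξ‖ → g ξ = ξ := by
  obtain ⟨ξ, hξK, hξ⟩ := exists_norm_eq_iInf_of_complete_convex hKne hKcomp hKconv (0 : E)
  have hmin := (norm_eq_iInf_iff_real_inner_le_zero hKconv hξK).1 hξ
  refine ⟨ξ, hξK, fun g hgK hg => ?_⟩
  have h1 := hmin (g ξ) (hgK ξ hξK)
  rw [zero_sub, inner_neg_left, inner_sub_right] at h1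
  have h2 : ⟪ξ, ξ⟫_ℝ = ‖ξ‖ ^ 2 := real_inner_self_eq_norm_sq ξ
  have h3 : ‖g ξ - ξ‖ ^ 2 = ‖g ξ‖ ^ 2 - 2 * ⟪g ξ, ξ⟫_ℝ + ‖ξ‖ ^ 2 :=
    norm_sub_sq_real _ _
  rw [hg, real_inner_comm] at h3
  have h4 : ‖g ξ - ξ‖ ^ 2 ≤ 0 := by rw [h3]; linarith
  have h5 : ‖g ξ - ξ‖ = 0 := by
    have : ‖g ξ - ξ‖ ^ 2 = 0 := le_antisymm h4 (by positivity)
    exact pow_eq_zero_iff (two_ne_zero) |>.1 this
  exact sub_eq_zero.mp (norm_eq_zero.1 h5)

lemma exists_fixed_complex {E : Type*} [NormedAddCommGroup E] [InnerProductSpace ℂ E]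
    {K : Set E} (hKne : K.Nonempty) (hKcomp : IsComplete K) (hKconv : Convex ℝ K) :
    ∃ ξ ∈ K, ∀ g : E → E, (∀ v ∈ K, g v ∈ K) → ‖g ξ‖ = ‖ξ‖ → g ξ = ξ := by
  letI : InnerProductSpace ℝ E := InnerProductSpace.rclikeToReal ℂ E
  exact exists_fixed_real hKne hKcomp hKconv

/-- Existence of a fixed vector in a closed convex hull. -/
theorem exists_fixed {A H I : Type*} [AddCommGroup A] [Module ℂ A] [NormedAddCommGroup H]
    [InnerProductSpace ℂ H] [CompleteSpace H] (π : A →ₗ[ℂ] H) (S : Set A) (hS : S.Nonempty)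
    (g : I → H →L[ℂ] H) (hg : ∀ i ξ, ‖g i ξ‖ = ‖ξ‖) (α : I → A →ₗ[ℂ] A)
    (hα : ∀ i a, π (α i a) = g i (π a)) (hαS : ∀ i, ∀ a ∈ S, α i a ∈ S) :
    ∃ ξ : H, (∀ i, g i ξ = ξ) ∧ ∀ P : A → Prop, (∀ a ∈ S, P a) →
      (∀ a b, P a → P b → ∀ s : ℝ, 0 ≤ s → s ≤ 1 → P ((s : ℂ) • a + (((1 - s : ℝ)) : ℂ) • b)) →
      ∀ η > 0, ∃ a, P a ∧ ‖π a - ξ‖ < η := by
  have hCne : (convexHull ℝ S).Nonempty := hS.mono (subset_convexHull ℝ S)
  have hKconv : Convex ℝ (closure (π '' (convexHull ℝ S))) :=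
    ((convex_convexHull ℝ S).linear_image (π.restrictScalars ℝ)).closure
  obtain ⟨ξ, hξK, hξ⟩ := exists_fixed_complex ((hCne.image π).mono subset_closure)
    isClosed_closure.isComplete hKconv
  refine ⟨ξ, ?_, ?_⟩
  · intro i
    have hαC : ∀ a ∈ convexHull ℝ S, α i a ∈ convexHull ℝ S := by
      have : convexHull ℝ S ⊆ ((α i).restrictScalars ℝ) ⁻¹' (convexHull ℝ S) := by
        refine convexHull_min ?_ ((convex_convexHull ℝ S).linear_preimage _)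
        intro a ha
        exact subset_convexHull ℝ S (hαS i a ha)
      exact fun a ha => this ha
    refine hξ (g i) ?_ (hg i ξ)
    intro v hv
    have h1 : Set.MapsTo (g i) (π '' (convexHull ℝ S)) (π '' (convexHull ℝ S)) := by
      rintro _ ⟨a, ha, rfl⟩
      exact ⟨α i a, hαC a ha, hα i a⟩
    exact h1.closure (g i).continuous hv
  · intro P hP hconv η hη
    have hPC : ∀ a ∈ convexHull ℝ S, P a := by
      have : convexHull ℝ S ⊆ {a | P a} := by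
        refine convexHull_min hP ?_
        intro a ha b hb s t hs ht hst
        have ht' : t = 1 - s := by linarith
        subst ht'
        exact hconv a b ha hb s hs (by linarith)
      exact fun a ha => this ha
    obtain ⟨v, ⟨a, ha, rfl⟩, hv⟩ := Metric.mem_closure_iff.1 hξK η hη
    refine ⟨a, hPC a ha, ?_⟩
    rw [← dist_eq_norm, dist_comm]
    exact hv

end fixed

section trace

variable {Γ Λ H K : Type*} [Group Γ] [Group Λ]
  [NormedAddCommGroup H] [InnerProductSpace ℂ H] [CompleteSpace H]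
  [NormedAddCommGroup K] [InnerProductSpace ℂ K] [CompleteSpace K]
  (b : HilbertBasis Γ ℂ H) (b' : HilbertBasis Λ ℂ K)

/-- conjugation on `ℓ²` -/
noncomputable def adv (i : Γ) : H →L[ℂ] H := uu b i * rho b i

lemma co_adv (i : Γ) (ξ : H) (h : Γ) : co b (adv b i ξ) h = co b ξ (i⁻¹ * h * i) := by
  unfold adv
  rw [mul_apply_eq_comp, co_uu, co_rho]

lemma norm_uu (i : Γ) (ξ : H) : ‖uu b i ξ‖ = ‖ξ‖ := by
  rw [uu_eq, norm_perm]

lemma norm_adv (i : Γ) (ξ : H) : ‖adv b i ξ‖ = ‖ξ‖ := by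
  unfold adv rho
  rw [mul_apply_eq_comp, norm_uu, norm_perm]

lemma eq_zero_of_adv (hicc : IsICC Γ) {ξ : H} (h1 : co b ξ 1 = 0) (h : ∀ i, adv b i ξ = ξ) :
    ξ = 0 := by
  apply vec_ext b
  intro s
  rw [co_zero]
  by_cases hs : s = 1
  · subst hs; rw [h1]
  · by_contra hne
    have hsum : Summable (fun h : Γ => ‖co b ξ h‖ ^ 2) := (hasSum_norm_sq b ξ).summable
    have ht := hsum.tendsto_cofinite_zero
    have hpos : 0 < ‖co b ξ s‖ ^ 2 := by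
      have : ‖co b ξ s‖ ≠ 0 := by
        intro h0; apply hne; exact norm_eq_zero.1 h0
      positivity
    have hev := ht.eventually_lt_const hpos
    rw [Filter.eventually_cofinite] at hev
    refine hicc s hs (hev.subset ?_)
    rintro _ ⟨k, rfl⟩
    simp only [Set.mem_ofPred_eq, not_lt]
    have h2 : co b ξ (k * s * k⁻¹) = co b ξ s := by
      have h3 := congrArg (fun v : H => co b v (k * s * k⁻¹)) (h k)
      simp only [co_adv] at h3
      rw [← h3]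
      congr 1
      group
    rw [h2]

/-- linear map `x ↦ x δ_1` -/
noncomputable def piv : (VG b).toStarSubalgebra →ₗ[ℂ] H where
  toFun x := x.1 (b 1)
  map_add' _ _ := rfl
  map_smul' _ _ := rfl

/-- conjugation by `u_i` -/
noncomputable def adu (i : Γ) : (VG b).toStarSubalgebra →ₗ[ℂ] (VG b).toStarSubalgebra where
  toFun x := ug b i * x * ug b i⁻¹
  map_add' x y := by rw [mul_add, add_mul]
  map_smul' c x := by
    rw [mul_smul_comm, smul_mul_assoc]; rfl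

lemma piv_adu (i : Γ) (x : (VG b).toStarSubalgebra) :
    piv b (adu b i x) = adv b i (piv b x) := by
  change uu b i (x.1 (uu b i⁻¹ (b 1))) = uu b i (rho b i (x.1 (b 1)))
  have hx := (mem_VG_iff b x.1).1 x.2 i
  have h1 : uu b i⁻¹ (b (1 : Γ)) = rho b i (b 1) := by rw [uu_apply, rho_apply]; simp
  rw [h1, ← mul_apply_eq_comp (x.1), ← hx, mul_apply_eq_comp]

lemma sep_b {z : H →L[ℂ] H} (hz : z ∈ VG b) (h : z (b 1) = 0) : z = 0 := by
  have h1 : (⟨z, hz⟩ : (VG b).toStarSubalgebra) = 0 := by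
    apply cf_ext b
    intro s
    change co b (z (b 1)) s = co b 0 s
    rw [h]
  exact congrArg Subtype.val h1

lemma norm_uu_le (g : Γ) : ‖uu b g‖ ≤ 1 :=
  ContinuousLinearMap.opNorm_le_bound _ zero_le_one fun ξ => by
    rw [one_mul]; exact (norm_uu b _ ξ).le

lemma cont_of_small (θ : (VG b).toStarSubalgebra ≃⋆ₐ[ℂ] (VG b').toStarSubalgebra) {ε : ℝ}
    (hε : 0 < ε) : ∃ η > 0, ∀ x : (VG b).toStarSubalgebra, ‖x.1‖ ≤ 1 → ‖x.1 (b 1)‖ ^ 2 ≤ η →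
      ‖cf b' (θ x) 1‖ ^ 2 < ε := by
  obtain ⟨η, hη, h⟩ := abs_cont θ (b 1) (fun z hz h => sep_b b hz h) (b' 1) hε
  refine ⟨η, hη, fun x hx1 hx2 => ?_⟩
  have h1 := h (star x * x) (star_mul_self_nonneg x.1) (by
    change ‖star x.1 * x.1‖ ≤ 1
    rw [CStarRing.norm_star_mul_self]
    nlinarith [norm_nonneg x.1]) (by
    change tt (b 1) (star x.1 * x.1) ≤ η
    rw [tt_star_mul_self]; exact hx2)
  have h2 : θ (star x * x) = star (θ x) * θ x :=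
    (vn_mul θ _ _).trans (congrArg (fun t => t * θ x) (vn_star θ _))
  have h3 : tt (b' 1) (θ (star x * x)).1 = ‖(θ x).1 (b' 1)‖ ^ 2 := by
    rw [h2]; exact tt_star_mul_self _ _
  rw [h3] at h1
  refine lt_of_le_of_lt ?_ h1
  have h4 : ‖cf b' (θ x) 1‖ ≤ ‖(θ x).1 (b' 1)‖ := norm_co_le b' _ _
  gcongr

lemma cf_adu (i : Γ) (x : (VG b).toStarSubalgebra) : cf b (adu b i x) 1 = cf b x 1 := by
  change cf b (ug b i * x * ug b i⁻¹) 1 = _
  rw [cf_mul_comm, ← mul_assoc, ← ug_mul, inv_mul_cancel, ug_one, one_mul]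

lemma cf_th_adu (θ : (VG b).toStarSubalgebra ≃⋆ₐ[ℂ] (VG b').toStarSubalgebra) (i : Γ)
    (x : (VG b).toStarSubalgebra) : cf b' (θ (adu b i x)) 1 = cf b' (θ x) 1 := by
  have h1 : θ (adu b i x) = θ (ug b i * x) * θ (ug b i⁻¹) := vn_mul θ _ _
  have h2 : θ (ug b i⁻¹) * θ (ug b i * x) = θ (ug b i⁻¹ * (ug b i * x)) := (vn_mul θ _ _).symm
  have h3 : ug b i⁻¹ * (ug b i * x) = x := by
    rw [← mul_assoc, ← ug_mul, inv_mul_cancel, ug_one, one_mul]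
  rw [h1, cf_mul_comm, h2, h3]

lemma cf_comb (x y : (VG b).toStarSubalgebra) (s t : ℂ) :
    cf b (s • x + t • y) 1 = s * cf b x 1 + t * cf b y 1 := by
  rw [cf_add, cf_smul, cf_smul]

lemma th_comb (θ : (VG b).toStarSubalgebra ≃⋆ₐ[ℂ] (VG b').toStarSubalgebra)
    (x y : (VG b).toStarSubalgebra) (s t : ℂ) :
    θ (s • x + t • y) = s • θ x + t • θ y :=
  (vn_add θ _ _).trans (congrArg₂ (· + ·) (vn_smul θ _ _) (vn_smul θ _ _))

/-- the convex property used in the averaging argument -/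
def PP (θ : (VG b).toStarSubalgebra ≃⋆ₐ[ℂ] (VG b').toStarSubalgebra)
    (x y : (VG b).toStarSubalgebra) : Prop :=
  ‖y.1‖ ≤ 1 ∧ cf b y 1 = 0 ∧ cf b' (θ y) 1 = cf b' (θ x) 1

lemma PP_conv (θ : (VG b).toStarSubalgebra ≃⋆ₐ[ℂ] (VG b').toStarSubalgebra)
    (x y z : (VG b).toStarSubalgebra) (ha : PP b b' θ x y) (hb : PP b b' θ x z) (s : ℝ)
    (hs : 0 ≤ s) (hs1 : s ≤ 1) : PP b b' θ x ((s : ℂ) • y + (((1 - s : ℝ)) : ℂ) • z) := by
  obtain ⟨ha1, ha2, ha3⟩ := ha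
  obtain ⟨hb1, hb2, hb3⟩ := hb
  refine ⟨norm_conv hs hs1 ha1 hb1, ?_, ?_⟩
  · rw [cf_comb, ha2, hb2]; simp
  · rw [th_comb, cf_comb, ha3, hb3]
    push_cast
    ring

lemma adu_adu (i j : Γ) (x : (VG b).toStarSubalgebra) :
    adu b (i * j) x = adu b i (adu b j x) := by
  change ug b (i * j) * x * ug b (i * j)⁻¹ = ug b i * (ug b j * x * ug b j⁻¹) * ug b i⁻¹
  rw [mul_inv_rev, ug_mul, ug_mul]
  simp only [mul_assoc]

lemma exists_avg (hicc : IsICC Γ)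
    (θ : (VG b).toStarSubalgebra ≃⋆ₐ[ℂ] (VG b').toStarSubalgebra)
    (x : (VG b).toStarSubalgebra) (hx1 : ‖x.1‖ ≤ 1) (hx0 : cf b x 1 = 0) {η : ℝ} (hη : 0 < η) :
    ∃ a, PP b b' θ x a ∧ ‖piv b a‖ < η := by
  obtain ⟨ξ, hξ, happ⟩ := exists_fixed (piv b) (Set.range fun i => adu b i x)
    (Set.range_nonempty _) (adv b) (norm_adv b) (adu b) (piv_adu b) (by
      rintro i _ ⟨j, rfl⟩
      exact ⟨i * j, adu_adu b i j x⟩)
  have happ' := happ (PP b b' θ x) (by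
      rintro _ ⟨j, rfl⟩
      exact ⟨norm_mul3 (norm_uu_le b j) hx1 (norm_uu_le b _), (cf_adu b j x).trans hx0,
        cf_th_adu b b' θ j x⟩) (PP_conv b b' θ x)
  have hξ1 : co b ξ 1 = 0 := by
    by_contra hne1
    have hpos : 0 < ‖co b ξ 1‖ := norm_pos_iff.mpr hne1
    obtain ⟨a, ⟨-, ha, -⟩, ha'⟩ := happ' _ hpos
    have h1 : ‖co b (piv b a - ξ) 1‖ ≤ ‖piv b a - ξ‖ := norm_co_le b _ _
    have h2 : co b (piv b a - ξ) 1 = - co b ξ 1 := by
      rw [co_sub]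
      change cf b a 1 - co b ξ 1 = - co b ξ 1
      rw [ha, zero_sub]
    rw [h2, norm_neg] at h1
    linarith
  have hξ0 := eq_zero_of_adv b hicc hξ1 hξ
  obtain ⟨a, ha, ha'⟩ := happ' η hη
  rw [hξ0, sub_zero] at ha'
  exact ⟨a, ha, ha'⟩

/-- trace-zero elements of norm at most one are sent to trace-zero elements -/
lemma trace_zero (hicc : IsICC Γ)
    (θ : (VG b).toStarSubalgebra ≃⋆ₐ[ℂ] (VG b').toStarSubalgebra)
    (x : (VG b).toStarSubalgebra) (hx1 : ‖x.1‖ ≤ 1) (hx0 : cf b x 1 = 0) :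
    cf b' (θ x) 1 = 0 := by
  by_contra hne
  have hε : 0 < ‖cf b' (θ x) 1‖ ^ 2 := by
    have : ‖cf b' (θ x) 1‖ ≠ 0 := fun h => hne (norm_eq_zero.1 h)
    positivity
  obtain ⟨η, hη, hcont⟩ := cont_of_small b b' θ hε
  obtain ⟨a, ⟨ha1, -, ha3⟩, ha'⟩ := exists_avg b b' hicc θ x hx1 hx0 (Real.sqrt_pos.mpr hη)
  have h5 := hcont a ha1 (by
    have h6 : ‖a.1 (b 1)‖ < Real.sqrt η := ha'
    have h7 := Real.sq_sqrt hη.le
    have h8 : ‖a.1 (b 1)‖ ^ 2 ≤ Real.sqrt η ^ 2 := by gcongr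
    linarith)
  rw [ha3] at h5
  exact lt_irrefl _ h5

/-- Every `*`-isomorphism from the factor of an ICC group preserves the canonical traces. -/
theorem trace_unique (hicc : IsICC Γ)
    (θ : (VG b).toStarSubalgebra ≃⋆ₐ[ℂ] (VG b').toStarSubalgebra)
    (x : (VG b).toStarSubalgebra) : cf b' (θ x) 1 = cf b x 1 := by
  -- the trace-zero part
  set y : (VG b).toStarSubalgebra := x - cf b x 1 • 1 with hy
  have hy0 : cf b y 1 = 0 := by
    rw [hy, cf_sub, cf_smul, cf_one_self, mul_one, sub_self]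
  have hcpos : 0 < ‖y.1‖ + 1 := by positivity
  have hz := trace_zero b b' hicc θ ((((‖y.1‖ + 1)⁻¹ : ℝ) : ℂ) • y)
    (norm_scale hcpos (by linarith)) (by rw [cf_smul, hy0, mul_zero])
  have h1 : θ ((((‖y.1‖ + 1)⁻¹ : ℝ) : ℂ) • y) = (((‖y.1‖ + 1)⁻¹ : ℝ) : ℂ) • θ y :=
    vn_smul θ _ _
  rw [h1, cf_smul] at hz
  have h2 : cf b' (θ y) 1 = 0 := by
    rcases mul_eq_zero.mp hz with h | h
    · exact absurd h (by
        have : ((‖y.1‖ + 1)⁻¹ : ℝ) ≠ 0 := by positivity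
        exact_mod_cast this)
    · exact h
  have h3 : θ y = θ x - cf b x 1 • 1 := by
    have e1 : θ y = θ x - θ (cf b x 1 • 1) := vn_sub θ _ _
    have e2 : θ (cf b x 1 • (1 : (VG b).toStarSubalgebra)) = cf b x 1 • θ 1 := vn_smul θ _ _
    have e3 : θ (1 : (VG b).toStarSubalgebra) = 1 := vn_one θ
    rw [e1, e2, e3]
  rw [h3, cf_sub, cf_smul, cf_one_self, mul_one] at h2
  exact sub_eq_zero.mp h2

end trace

end Vale.Agent.P092
end
end

section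

section

namespace Vale.Agent.P092

open Matrix

/-- If the conjugacy class of `g` is finite then `g` commutes with a nontrivial element of every
infinite one-parameter group. -/
lemma exists_commute_of_finite {R Γ : Type*} [CommRing R] [Infinite R] [Group Γ] {g : Γ}
    (hg : (Set.range fun h : Γ => h * g * h⁻¹).Finite) (p : R → Γ)
    (hp : ∀ a b, p (a + b) = p a * p b) : ∃ b, b ≠ 0 ∧ g * p b = p b * g := by
  have : Finite (Set.range fun h : Γ => h * g * h⁻¹) := hg.to_subtype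
  obtain ⟨a, b, hab, h⟩ := Finite.exists_ne_map_eq_of_infinite
    (fun a : R => (⟨p a * g * (p a)⁻¹, ⟨p a, rfl⟩⟩ : Set.range fun h : Γ => h * g * h⁻¹))
  have h1 : p a * g * (p a)⁻¹ = p b * g * (p b)⁻¹ := congrArg Subtype.val h
  refine ⟨b - a, sub_ne_zero.mpr (Ne.symm hab), ?_⟩
  have e1 : p (b - a) = (p a)⁻¹ * p b := by
    have := hp a (b - a)
    rw [add_sub_cancel] at this
    rw [this]; group
  rw [e1]
  calc g * ((p a)⁻¹ * p b) = (p a)⁻¹ * (p a * g * (p a)⁻¹) * p b := by group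
    _ = _ := by rw [h1]; group

namespace SL3

variable {R : Type*} [CommRing R]

lemma vfy_add (a b : R) : fy (a + b) = fy a * fy b := by
  apply Subtype.ext
  rw [vm]
  simp only [vfy, Matrix.mul_fin_three]
  simp [add_comm]

theorem icc_of (S : SL3Data R (G R)) (hS : S.toHeis = heis) [Infinite R] [NoZeroDivisors R] :
    IsICC (G R) := by
  intro g hg hfin
  apply hg
  obtain ⟨a, ha, hga⟩ := exists_commute_of_finite hfin ex (heis (R := R)).x_add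
  obtain ⟨b, hb, hgb⟩ := exists_commute_of_finite hfin ey (heis (R := R)).y_add
  obtain ⟨c, hc, hgc⟩ := exists_commute_of_finite hfin ez (heis (R := R)).z_add
  obtain ⟨d, hd, hgd⟩ := exists_commute_of_finite hfin fy vfy_add
  have hx : S.x = ex := by
    have := congrArg Heis.x hS; exact this
  have hy : S.y = ey := by
    have := congrArg Heis.y hS; exact this
  have hz : S.z = ez := by
    have := congrArg Heis.z hS; exact this
  obtain ⟨p, q, hpq⟩ := S.cent1 g a c ha hc (by rw [hx]; exact hga) (by rw [hz]; exact hgc)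
  obtain ⟨p', q', hpq'⟩ := S.cent2 g b c hb hc (by rw [hy]; exact hgb) (by rw [hz]; exact hgc)
  rw [hx, hz] at hpq
  rw [hy, hz] at hpq'
  have e : (ex p * ez q : G R).1 = (ey p' * ez q').1 := by rw [← hpq, ← hpq']
  rw [vm, vm] at e
  simp only [vx, vy, vz, Matrix.mul_fin_three] at e
  obtain ⟨⟨-, a2, -⟩, -, -⟩ := mat_inj e
  have hp : p = 0 := by linear_combination a2
  subst hp
  have e2 := congrArg Subtype.val hgd
  rw [hpq, vm, vm, vm] at e2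
  rw [vm] at e2
  simp only [vx, vz, vfy, Matrix.mul_fin_three] at e2
  obtain ⟨⟨-, b2, -⟩, -, -⟩ := mat_inj e2
  have hq : q * d = 0 := by linear_combination b2
  have hq0 : q = 0 := (mul_eq_zero.mp hq).resolve_right hd
  subst hq0
  rw [hpq]
  apply Subtype.ext
  rw [vm, v1]
  simp only [vx, vz, Matrix.mul_fin_three]
  simp

end SL3

end Vale.Agent.P092
end
end
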